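import Vale.Agent.P237.Petty.Cor.TinyMid.Tail

/-!
# P237: the cell below a constant over the dimension for `18 ≤ p ≤ 97`
-/

namespace Vale.Agent.P237.Petty.Cor.TinyMid

open Set
open Ident (half rate)

variable {p : ℕ}

theorem excess_nonneg (h1 : 18 ≤ p) (h2 : p ≤ 97) {L s t a r q : ℝ}
    (hL : L ∈ Icc 0 (1 / 4 / ((p : ℝ) + 2))) (h : FlatState p L s t a r q) :
    0 ≤ excess p L s t a r := by
  refine nonneg_of_mul_nonneg_right (a := scale p s) ?_ (scale_pos p h.state.s_mem)
  have S := st_of_flat h1 h2 hL h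
  have hE := formLow_le h1 h2 h hL
  rcases lt_or_ge (sqTan p s) (81 / 20) with hX | hX
  · exact bulk_nonneg h1 h2 S hE hX
  refine tail_nonneg h1 h2 S hX (fun sh hsh hu hd => ?_) hE
  obtain ⟨B0, e, hB⟩ := excess_ge h1 h2 h rfl rfl rfl rfl
  obtain ⟨-, f⟩ := eval_fisher (o := .var 0) (z := oVar p s) (τ := 0) (σ := 0) h1 h2 S.s_mem
    (eval_oo p _ _ _) (u := 1 / r - 1) (δ := (t - s) / s) S.v_pos
  obtain ⟨-, eb, ec, e0⟩ := eval_coefs (o := .var 0) (z := oVar p s) (τ := 0) (σ := 0) S.s_mem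
    (eval_oo p _ _ _)
  have f' := f (mul_nonpos_of_nonpos_of_nonneg hu hd)
  rw [e0, eb, ec] at f'
  have g := hB sh hsh
  rw [e]
  linarith

/-- The cell next to zero in the middle orders. -/
theorem corCell_tinyMid (h1 : 18 ≤ p) (h2 : p ≤ 97) :
    CorCell p 0 (1 / 4 / ((p : ℝ) + 2)) := by
  intro ell hl
  refine ⟨(p : ℝ) + 1, nuS p, _, ell, by positivity, ?_, Lift.muMin_pos (p := p) (by omega), le_rfl, ?_⟩
  · have := (nuS_mem h1 h2).1
    have := (eps_mem h1 h2).2
    linarith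
  refine corBound_of_flat ?_ le_rfl (flatField_of_cancel (by omega) (axTest_affine (48 / 25))
    (nullField_quadPot (fun s hs => hasDerivAt_kPot p ell hs) (fun s hs => hasDerivAt_bPot p hs)
      (continuousOn_kPot (by omega) ell)
      (B := fun s => arc s ^ (p + 1) *
        (-(33 / 250) * (1 - s ^ 2) - 6 / 125 * ((p : ℝ) + 1) * s ^ 2))
      ((continuous_arc.pow _).mul (by fun_prop)).continuousOn (fun s hs => ?_))
    (continuousOn_psiM (by omega) ell) (integral_psiM (by omega) ell).ge fun s t a r q h =>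
      sub_nonneg.1 (excess_nonneg h1 h2 hl h))
  · have := (nuS_mem h1 h2).1
    have := (eps_mem h1 h2).2
    linarith
  · have := hs.1.ne'
    rw [bPot]
    field_simp

end Vale.Agent.P237.Petty.Cor.TinyMid
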