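import Mathlib.Analysis.SpecialFunctions.Log.Basic
import Mathlib.Analysis.Complex.ExponentialBounds
import Vale.Agent.P237.Petty.Cor.Tiny.Facts

/-!
# P237: the inequalities of the cases, on real numbers

`L` is the value, `u` and `d` the two coordinates of a state, `V` the weight, `D` its slope, `k`
and `kd` the coefficients of the potential of the value.
-/

namespace Vale.Agent.P237.Petty.Cor.TinyMid

/-- An affine function between two points. -/
theorem aff_mid {c a k0 k : ℝ} (h0 : k0 ≤ k) (h1 : k ≤ 1) (hc : 0 ≤ c + a * k0)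
    (h : 0 ≤ a ∨ 0 ≤ c + a) : 0 ≤ c + a * k := by
  rcases le_total 0 a with ha | ha
  · linarith [mul_le_mul_of_nonneg_left h0 ha]
  · rcases h with h | h
    · linarith [mul_le_mul_of_nonneg_left h0 h]
    · linarith [mul_le_mul_of_nonpos_left h1 ha]

/-- A homogeneous quadratic on `x ≤ 0`. -/
theorem quad_low {c l a L x : ℝ} (hL : 0 ≤ L) (hx : x ≤ 0)
    (h : (l ≤ 0 ∧ 0 ≤ c ∧ 0 ≤ a) ∨ (0 < a ∧ l ^ 2 ≤ 4 * a * c)) :
    0 ≤ c * L ^ 2 + l * (L * x) + a * x ^ 2 := by
  rcases h with ⟨hl, hc, ha⟩ | ⟨ha, hd⟩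
  · have := mul_nonneg_of_nonpos_of_nonpos hl (mul_nonpos_of_nonneg_of_nonpos hL hx)
    positivity
  · refine nonneg_of_mul_nonneg_right (a := 4 * a) ?_ (by linarith)
    linear_combination sq_nonneg (2 * a * x + l * L) +
      mul_nonneg (sub_nonneg.2 hd) (sq_nonneg L)

/-- A homogeneous quadratic. -/
theorem quad_any {c l a L x : ℝ} (ha : 0 < a) (hd : l ^ 2 ≤ 4 * a * c) :
    0 ≤ c * L ^ 2 + l * (L * x) + a * x ^ 2 := by
  refine nonneg_of_mul_nonneg_right (a := 4 * a) ?_ (by linarith)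
  linear_combination sq_nonneg (2 * a * x + l * L) + mul_nonneg (sub_nonneg.2 hd) (sq_nonneg L)

/-- A quadratic on a segment from its left end, its right end and its slope. -/
theorem quad_seg {a b c x0 x1 x : ℝ} (hx0 : x0 ≤ x) (hx1 : x ≤ x1)
    (h0 : 0 ≤ a * x0 ^ 2 + b * x0 + c)
    (h : (0 ≤ 2 * a * x0 + b ∧ 0 ≤ a) ∨
      (0 ≤ a * x1 ^ 2 + b * x1 + c ∧ (a ≤ 0 ∨ 0 ≤ 2 * a * x0 + b))) :
    0 ≤ a * x ^ 2 + b * x + c := by
  have d0 : 0 ≤ x - x0 := sub_nonneg.2 hx0
  have d1 : 0 ≤ x1 - x := sub_nonneg.2 hx1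
  have case1 : 0 ≤ 2 * a * x0 + b → 0 ≤ a → 0 ≤ a * x ^ 2 + b * x + c := fun hb ha => by
    linear_combination h0 + mul_nonneg hb d0 + mul_nonneg ha (sq_nonneg (x - x0))
  have case2 : 0 ≤ a * x1 ^ 2 + b * x1 + c → a ≤ 0 → 0 ≤ a * x ^ 2 + b * x + c := fun h1 ha => by
    rcases (show x0 ≤ x1 by linarith).eq_or_lt with e | e
    · rw [show x = x0 by linarith]; exact h0
    refine nonneg_of_mul_nonneg_right (a := x1 - x0) ?_ (by linarith)
    linear_combination mul_nonneg d1 h0 + mul_nonneg d0 h1 +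
      mul_nonneg (mul_nonneg (neg_nonneg.2 ha) (mul_nonneg d0 d1)) (show 0 ≤ x1 - x0 by linarith)
  rcases h with ⟨hb, ha⟩ | ⟨h1, ha | hb⟩
  · exact case1 hb ha
  · exact case2 h1 ha
  · rcases le_total 0 a with ha | ha
    · exact case1 hb ha
    · exact case2 h1 ha

/-- The product of a coordinate with a bound affine in it. -/
theorem affine_ray {g h0 hn hd x : ℝ} (hx : 0 ≤ x) (hd0 : 0 < hd) (hxd : x * hd ≤ hn)
    (hg : 0 ≤ g) (h : 0 ≤ g * hd + hn * h0) : 0 ≤ x * (g + x * h0) := by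
  refine mul_nonneg hx ?_
  rcases le_total 0 h0 with hh | hh
  · positivity
  · refine nonneg_of_mul_nonneg_right (a := hd) ?_ hd0
    linear_combination h + mul_nonneg (sub_nonneg.2 hxd) (neg_nonneg.2 hh)

/-- The cut in place of the weight. -/
theorem cut_weight {V vh lam L top Z W : ℝ} (hV : vh * top = V) (hL : 0 ≤ L)
    (hLt : L ≤ top) (hlam : 0 ≤ lam) (hle : lam ≤ vh) (hW : 0 ≤ W) (hZ : -W ≤ Z) :
    L * lam * Z - V * W ≤ V * Z := by
  have h1 : L * lam ≤ V := by
    rw [← hV, mul_comm vh]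
    exact mul_le_mul hLt hle hlam (hL.trans hLt)
  linear_combination mul_le_mul_of_nonneg_left hZ (sub_nonneg.2 h1) +
    mul_nonneg (mul_nonneg hL hlam) hW

/-- A nonnegative state value in place of the weight. -/
theorem weight_ge {V vh L top Z : ℝ} (hV : vh * top = V) (hvh : 0 ≤ vh) (hLt : L ≤ top)
    (hZ : 0 ≤ Z) : L * vh * Z ≤ V * Z := by
  rw [← hV, mul_comm vh top]
  gcongr

/-- The share of the cut below the bound of the speed. -/
theorem share_le {v c : ℝ} (hv : 0 < v) (hc : v ≤ c) :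
    (2 * v + 1) / (2 * (v + 2)) ≤ (2 * c + 1) / (2 * (c + 2)) := by
  rw [div_le_div_iff₀ (by linarith) (by linarith)]
  linarith

/-- The logarithm against a tangent at `2 ^ -j`. -/
theorem log_ge_tangent {v : ℝ} (hv : 0 < v) (j : ℕ) :
    1 - 6932 / 10000 * j - (1 / 2) ^ j / v ≤ Real.log v := by
  have h := Real.one_sub_inv_le_log_of_pos (mul_pos hv (pow_pos two_pos j))
  rw [Real.log_mul hv.ne' (pow_ne_zero _ two_ne_zero), Real.log_pow] at h
  have h2 := mul_le_mul_of_nonneg_left (Real.log_two_lt_d9.le) (Nat.cast_nonneg (α := ℝ) j)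
  have e : (1 / 2 : ℝ) ^ j / v = (v * 2 ^ j)⁻¹ := by rw [div_pow, one_pow]; field_simp
  rw [e]
  linarith

/-- A lower bound of `log 3`. -/
theorem log_three_ge : (1098 : ℝ) / 1000 ≤ Real.log 3 := by
  have h := pade_le_log (show (0 : ℝ) < 9 / 8 by norm_num)
  rw [Real.log_div (by norm_num) (by norm_num), show (9 : ℝ) = 3 ^ 2 by norm_num,
    show (8 : ℝ) = 2 ^ 3 by norm_num, Real.log_pow, Real.log_pow] at h
  norm_num at h
  linarith [Real.log_two_gt_d9]

/-- `v log v` against the tangent at three. -/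
theorem mul_log_ge_three {v : ℝ} (hv : 0 < v) : v * (1 + 1098 / 1000) - 3 ≤ v * Real.log v := by
  have h := mul_le_mul_of_nonneg_left
    (Real.one_sub_inv_le_log_of_pos (show 0 < v / 3 by linarith)) hv.le
  rw [Real.log_div hv.ne' (by norm_num), mul_sub, mul_sub, mul_one,
    show v * (v / 3)⁻¹ = 3 by field_simp] at h
  linear_combination h + mul_le_mul_of_nonneg_left log_three_ge hv.le

/-- `v log v` against Pade's bound. -/
theorem mul_log_ge_pade {v : ℝ} (hv : 0 < v) :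
    (v - 1) * (1 + 5 * v) / (4 + 2 * v) ≤ v * Real.log v := by
  refine le_trans (le_of_eq ?_) (mul_le_mul_of_nonneg_left (pade_le_log hv) hv.le)
  field_simp

/-- The root of the reciprocal speed. -/
theorem root_le {v K1 K2 r : ℝ} (hv : 0 ≤ v) (hr : 1 ≤ r) (hK : 0 ≤ K2)
    (h : v - 1 ≤ K1 + K2 * √v) (hb : K1 + K2 * r ≤ r ^ 2 - 1) (hK1 : 0 ≤ K1) : √v ≤ r := by
  by_contra hc
  rw [not_le] at hc
  have hs : √v * √v = v := Real.mul_self_sqrt hv
  have h1 := mul_le_mul_of_nonneg_left h (show 0 ≤ r by linarith)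
  have h2 := mul_le_mul_of_nonneg_left hb (Real.sqrt_nonneg v)
  have h3 : 0 < (√v - r) * (r * √v + 1 + K1) :=
    mul_pos (by linarith) (by
      have := mul_nonneg (show 0 ≤ r by linarith) (Real.sqrt_nonneg v)
      linarith)
  have h4 : r * (√v * √v) = r * v := by rw [hs]
  linarith

/-- The value and its weight against `exp`. -/
theorem value_exp {L top : ℝ} (hL : 0 ≤ L) (hLt : L ≤ top) (htop : top ≤ 1 / 80) :
    Real.exp L - 1 ≤ L / (1 - top) ∧ Real.exp L - 1 - L ≤ L ^ 2 * (63 / 125) := by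
  have h0 := Real.add_one_le_exp (-L)
  have he : Real.exp L * (1 - L) ≤ 1 := by
    have := mul_le_mul_of_nonneg_left (show 1 - L ≤ Real.exp (-L) by linarith) (Real.exp_pos L).le
    rwa [← Real.exp_add, add_neg_cancel, Real.exp_zero] at this
  refine ⟨?_, ?_⟩
  · rw [le_div_iff₀ (by linarith)]
    nlinarith [mul_le_mul_of_nonneg_left hLt (show 0 ≤ Real.exp L - 1 by
      linarith [Real.add_one_le_exp L])]
  · have h := Real.exp_bound' hL (by linarith) (n := 3) (by norm_num)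
    simp [Finset.sum_range_succ, Nat.factorial] at h
    nlinarith [mul_le_mul_of_nonneg_left (show L ≤ 1 / 80 by linarith) (sq_nonneg L)]

end Vale.Agent.P237.Petty.Cor.TinyMid
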