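import Vale.Agent.P237.Petty.Cor.Bridge

/-!
# P237: the constants of the middle orders for small values

For `18 ≤ p ≤ 97` the reciprocal of the ratio of the half circles and the stationary multiplier
lie in intervals affine in `1 / (p + 1)`.
-/

namespace Vale.Agent.P237.Petty.Cor.TinyMid

open Ident (half rate)

variable {p : ℕ}

/-- The offset of the reciprocal of the ratio, times `p + 1`. -/
noncomputable def etaP (p : ℕ) : ℝ := (1 / Ident.b0 p - 1) * ((p : ℝ) + 1)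

theorem inv_b0_eq (p : ℕ) : 1 / Ident.b0 p = 1 + 1 / ((p : ℝ) + 1) * etaP p := by
  rw [etaP]
  field_simp
  ring

/-- The square of the ratio, two-sided. -/
theorem b0_sq_pair (hp : 1 ≤ p) :
    (2 * (p : ℝ) + 3) / (2 * (p : ℝ) + 5) ≤ Ident.b0 p ^ 2 ∧
      Ident.b0 p ^ 2 ≤
        ((p : ℝ) + 1) ^ 2 * (2 * (p : ℝ) + 3) / (((p : ℝ) + 2) ^ 2 * (2 * (p : ℝ) + 1)) := by
  refine ⟨(b0_sq_bounds p).1, ?_⟩
  obtain ⟨j, rfl⟩ : ∃ j, p = j + 1 := ⟨p - 1, by omega⟩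
  have h := LargeN.ratSq_succ_le j
  rw [Centre.ratSq_eq, LargeN.low] at h
  refine h.trans (le_of_eq ?_)
  push_cast
  field_simp
  ring

theorem eps_mem (h1 : 18 ≤ p) (h2 : p ≤ 97) :
    (1 : ℝ) / 98 ≤ 1 / ((p : ℝ) + 1) ∧ 1 / ((p : ℝ) + 1) ≤ 1 / 19 := by
  have a : (18 : ℝ) ≤ p := by exact_mod_cast h1
  have b : (p : ℝ) ≤ 97 := by exact_mod_cast h2
  constructor <;> gcongr <;> linarith

theorem etaP_mem (h1 : 18 ≤ p) (h2 : p ≤ 97) :
    1 / 2 - 375 / 1000 * (1 / ((p : ℝ) + 1)) ≤ etaP p ∧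
      etaP p ≤ 1 / 2 - 359 / 1000 * (1 / ((p : ℝ) + 1)) := by
  obtain ⟨hl, hh⟩ := b0_sq_pair (p := p) (by omega)
  have hb := Ident.b0_pos p
  have e := inv_b0_eq p
  have a : (18 : ℝ) ≤ p := by exact_mod_cast h1
  have b : (p : ℝ) ≤ 97 := by exact_mod_cast h2
  obtain ⟨he0, he1⟩ := eps_mem h1 h2
  obtain ⟨m, hm, hme⟩ : ∃ m, (19 : ℝ) ≤ m ∧ (p : ℝ) = m - 1 := ⟨(p : ℝ) + 1, by linarith, by ring⟩
  rw [hme] at hl hh a b
  simp only [hme, sub_add_cancel] at e he0 he1 ⊢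
  obtain ⟨η, hη⟩ : ∃ η, etaP p = η := ⟨_, rfl⟩
  rw [hη] at e ⊢
  have hb2 : Ident.b0 p = 1 / (1 + 1 / m * η) := by rw [← e, one_div_one_div]
  have hN : 0 < 1 + 1 / m * η := e ▸ by positivity
  have hB : Ident.b0 p ^ 2 * (1 + 1 / m * η) ^ 2 = 1 := by
    rw [hb2, ← mul_pow, one_div_mul_cancel hN.ne', one_pow]
  have hm0 : 0 < m := by linarith
  constructor
  · by_contra hc
    rw [not_le] at hc
    have h3 : (1 + 1 / m * η) ^ 2 < (1 + 1 / m * (1 / 2 - 375 / 1000 * (1 / m))) ^ 2 :=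
      pow_lt_pow_left₀ (by linarith [mul_lt_mul_of_pos_left hc (show (0 : ℝ) < 1 / m by positivity)])
        hN.le two_ne_zero
    have h4 := mul_lt_mul_of_pos_left h3 (show 0 < Ident.b0 p ^ 2 by positivity)
    rw [hB] at h4
    have h5 : (m - 1 + 1) ^ 2 * (2 * (m - 1) + 3) / ((m - 1 + 2) ^ 2 * (2 * (m - 1) + 1)) *
        (1 + 1 / m * (1 / 2 - 375 / 1000 * (1 / m))) ^ 2 ≤ 1 := by
      rw [div_mul_eq_mul_div, div_le_one (mul_pos (pow_pos (by linarith) 2) (by linarith))]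
      field_simp
      nlinarith [mul_le_mul_of_nonneg_left hm (sq_nonneg m), mul_le_mul_of_nonneg_left hm hm0.le,
        mul_le_mul_of_nonneg_left (show m ≤ 98 by linarith) hm0.le]
    have h6 := mul_le_mul_of_nonneg_right hh
      (sq_nonneg (1 + 1 / m * (1 / 2 - 375 / 1000 * (1 / m))))
    linarith
  · by_contra hc
    rw [not_le] at hc
    have hpos : 0 < 1 + 1 / m * (1 / 2 - 359 / 1000 * (1 / m)) := by
      have : 0 ≤ 1 / m * (1 / 2 - 359 / 1000 * (1 / m)) := mul_nonneg (by positivity) (by linarith)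
      linarith
    have h3 : (1 + 1 / m * (1 / 2 - 359 / 1000 * (1 / m))) ^ 2 < (1 + 1 / m * η) ^ 2 :=
      pow_lt_pow_left₀ (by linarith [mul_lt_mul_of_pos_left hc (show (0 : ℝ) < 1 / m by positivity)])
        hpos.le two_ne_zero
    have h4 := mul_lt_mul_of_pos_left h3 (show 0 < Ident.b0 p ^ 2 by positivity)
    rw [hB] at h4
    have h5 : 1 ≤ (2 * (m - 1) + 3) / (2 * (m - 1) + 5) *
        (1 + 1 / m * (1 / 2 - 359 / 1000 * (1 / m))) ^ 2 := by
      rw [div_mul_eq_mul_div, le_div_iff₀ (by linarith)]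
      field_simp
      nlinarith [mul_le_mul_of_nonneg_left hm (sq_nonneg m), mul_le_mul_of_nonneg_left hm hm0.le,
        mul_le_mul_of_nonneg_left (show m ≤ 98 by linarith) hm0.le]
    have h6 := mul_le_mul_of_nonneg_right hl
      (sq_nonneg (1 + 1 / m * (1 / 2 - 359 / 1000 * (1 / m))))
    linarith

/-- The stationary multiplier through the square of the ratio. -/
theorem nuS_closed (p : ℕ) :
    nuS p = (p : ℝ) * ((p : ℝ) + 2) / 4 - (p : ℝ) * ((p : ℝ) + 1) / (4 * Ident.b0 p ^ 2) := by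
  have := (Ident.b0_pos p).ne'
  rw [nuS, Ident.muMin]
  field_simp
  ring

theorem nuS_mem (h1 : 18 ≤ p) (h2 : p ≤ 97) :
    1 / 8 - 187 / 1000 * (1 / ((p : ℝ) + 1)) ≤ nuS p ∧
      nuS p ≤ 1 / 8 - 63 / 1000 * (1 / ((p : ℝ) + 1)) := by
  obtain ⟨hl, hh⟩ := b0_sq_pair (p := p) (by omega)
  have hb := Ident.b0_pos p
  have a : (18 : ℝ) ≤ p := by exact_mod_cast h1
  have b : (p : ℝ) ≤ 97 := by exact_mod_cast h2
  rw [nuS_closed]
  constructor
  · have h3 : (p : ℝ) * ((p : ℝ) + 1) / (4 * Ident.b0 p ^ 2) ≤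
        (p : ℝ) * ((p : ℝ) + 1) / (4 * ((2 * (p : ℝ) + 3) / (2 * (p : ℝ) + 5))) :=
      div_le_div_of_nonneg_left (by positivity) (by positivity) (by linarith)
    refine le_trans ?_ (sub_le_sub_left h3 _)
    rw [← sub_nonneg]
    field_simp
    nlinarith
  · have h3 : (p : ℝ) * ((p : ℝ) + 1) / (4 * (((p : ℝ) + 1) ^ 2 * (2 * (p : ℝ) + 3) /
        (((p : ℝ) + 2) ^ 2 * (2 * (p : ℝ) + 1)))) ≤
        (p : ℝ) * ((p : ℝ) + 1) / (4 * Ident.b0 p ^ 2) :=
      div_le_div_of_nonneg_left (by positivity) (by positivity) (by linarith)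
    refine le_trans (sub_le_sub_left h3 _) ?_
    rw [← sub_nonneg]
    field_simp
    nlinarith

end Vale.Agent.P237.Petty.Cor.TinyMid
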