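import Vale.Agent.P237.Petty.Cor.TinyMid.Field
import Vale.Agent.P237.Petty.Cor.TinyMid.Consts

/-!
# P237: the cancelled cell in the coordinates of the certificates

Everything is multiplied by `1 / ((1 - s ^ 2) b0)`.
-/

namespace Vale.Agent.P237.Petty.Cor.TinyMid

open Set
open Ident (half rate)
open Lift (circLow circHigh)
open Vale.Agent.P100.Bernstein

variable {p : ℕ}

/-- The cancelled cell less its lower bound. -/
noncomputable def excess (p : ℕ) (ell s t a r : ℝ) : ℝ :=
  cancelExpr p ((p : ℝ) + 1) (nuS p) ell (fun s t => s + 48 / 25 * (s - t))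
    (fun _ _ => 1 + 48 / 25) (fun _ _ => -(48 / 25)) (quadPot (kPot p ell) (bPot p))
    (quadPotS (kPot p ell) (kPot' p ell) (bPot p) (bPot' p))
    (quadPotT (kPot p ell) (bPot p)) s t a r - psiM p ell s

/-- The common scale. -/
noncomputable def scale (p : ℕ) (s : ℝ) : ℝ := 1 / ((1 - s ^ 2) * Ident.b0 p)

/-- The abscissa of the certificates. -/
noncomputable def oVar (p : ℕ) (s : ℝ) : ℝ := (1 / arc s - 1) * ((p : ℝ) + 1)

/-- The parameter of the ratio. -/
noncomputable def nPar (p : ℕ) : ℝ :=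
  (etaP p - (1 / 2 - 375 / 1000 * eps p)) / (16 / 1000 * eps p)

/-- A point of the certificates. -/
noncomputable def pt (p : ℕ) (z τ σ : ℝ) : List ℝ := [z, eps p, nPar p, τ, σ]

/-- The circle above over the abscissa and the circle there. -/
noncomputable def hiQuot (p : ℕ) (s : ℝ) : ℝ := circHigh p s / (s * arc s ^ (p + 1))

theorem scale_pos (p : ℕ) {s : ℝ} (hs : s ∈ Ioo (0 : ℝ) 1) : 0 < scale p s :=
  one_div_pos.2 (mul_pos (by nlinarith [hs.1, hs.2]) (Ident.b0_pos p))

theorem eps_pos (p : ℕ) : 0 < eps p := by rw [eps]; positivity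

/-- The Fisher form, scaled. -/
noncomputable def fisherQ (p : ℕ) (X v u δ : ℝ) : ℝ :=
  nuS p / Ident.b0 p * (2 * (1 + 48 / 25) * (u ^ 2 / v) +
    eps p * X / v * (2 * (48 / 25) * (1 + 48 / 25) * δ ^ 2 - 2 * ((48 / 25) ^ 2 - 1) * (u * δ)) -
    (48 / 25) ^ 2 * ((1 + 3 * eps p) * X) * δ ^ 2)

/-- The weight of the obstacle that is kept, scaled. -/
noncomputable def keptW (p : ℕ) (s : ℝ) : ℝ := scale p s * (wS p (arc s) - dSw p s)

/-- The slope of the switched weight, scaled. -/
noncomputable def slopeD (p : ℕ) (s : ℝ) : ℝ := scale p s * (s * dSw' p s)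

/-- The potential of the value, scaled. -/
noncomputable def kapS (p : ℕ) (s : ℝ) : ℝ := scale p s * kapM (sqTan p s)

/-- Its linear coefficient, scaled. -/
noncomputable def kapD (p : ℕ) (s : ℝ) : ℝ :=
  scale p s * (s * (kapM' (sqTan p s) * sqTan' p s) - sqTan p s * kapM (sqTan p s))

/-- The shadow coefficient, scaled. -/
noncomputable def shadR (p : ℕ) (s : ℝ) : ℝ := scale p s * (Ident.b0 p / arc s)

theorem excess_eq {ell top s t a r q u δ X : ℝ} (h : FlatState p top s t a r q)
    (hu : 1 / r - 1 = u) (hδ : (t - s) / s = δ) (hX : sqTan p s = X) :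
    scale p s * excess p ell s t a r =
      scale p s * (((p : ℝ) + 1) * Ident.b0 p * (1 / a - 1 / arc s)) - shadR p s * u +
        keptW p s * (ell - u + X * δ) + slopeD p s * (δ + ell * hiQuot p s) +
        ell * (kapS p s * u + kapD p s * δ) + fisherQ p X (1 + u) u δ +
        (33 / 250 * (1 + 2 * (eps p * X)) + (33 / 250 - 6 / 125) * X + 6 / 125 * (X * X)) /
          Ident.b0 p * δ ^ 2 -
        2 * ((33 / 250 + 6 / 125 * X) / Ident.b0 p) * (u * δ) +
        ell ^ 2 * (scale p s * remR p s) := by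
  have hs := h.state.s_mem
  have hs0 := hs.1.ne'
  have hz : 1 - s ^ 2 ≠ 0 := by nlinarith [hs.1, hs.2]
  have hc : 0 < arc s := h.state.arc_pos'
  have hc2 : arc s ^ 2 = 1 - s ^ 2 := Real.sq_sqrt (by nlinarith [hs.1, hs.2])
  have hr := h.state.rate_pos.ne'
  have hb := (Ident.b0_pos p).ne'
  have hm : ((p : ℝ) + 1) ≠ 0 := by positivity
  have ht : t = s + s * δ := by rw [← hδ]; field_simp; ring
  have hv : 1 + u = 1 / r := by rw [← hu]; ring
  have hr' : r = 1 / (1 + u) := by rw [hv, one_div_one_div]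
  have hv0 : 1 + u ≠ 0 := by rw [hv]; positivity
  simp only [excess, cancelExpr, testGen_affine (48 / 25 : ℝ) s t hr, testDef, nullPart, quadPot,
    quadPotS, quadPotT, kPot, kPot', bPot, bPot', psiM, keptW, slopeD, kapS, kapD, shadR,
    fisherQ, hiQuot, scale, ← hX, sqTan, eps, wS']
  rw [show arc s ^ 3 = arc s * (1 - s ^ 2) by rw [← hc2]; ring, ht, hr', sqCoef]
  have hcm : arc s ^ (p + 1) ≠ 0 := pow_ne_zero _ hc.ne'
  generalize wS p (arc s) = W
  generalize dSw p s = Dw
  generalize dSw' p s = Dw'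
  generalize remR p s = R
  generalize circHigh p s = H
  generalize kapM _ = K
  generalize kapM' _ = K'
  generalize sqTan' p s = S'
  generalize arc s ^ (p + 1) = C at hcm ⊢
  field_simp
  ring

end Vale.Agent.P237.Petty.Cor.TinyMid
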