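import Vale.Agent.P237.Petty.Cor.TinyMid.Pieces

/-!
# P237: certificates of the pieces 0 to 8
-/

namespace Vale.Agent.P237.Petty.Cor.TinyMid

open Vale.Agent.P100.Bernstein

/-- Piece 0, negative side. -/
def negCert0 : coverTree [smallList (piece 0) (.var 0)]
    [⟨0, 1, 50⟩, ⟨19, 98, 1862⟩, ⟨0, 1, 1⟩, ⟨0, 0, 1⟩, ⟨0, 0, 1⟩] (.leaf 0) = true := by
  decide +kernel

/-- Piece 0, positive side. -/
def posCert0 : coverTree [posList (piece 0) (.var 0) (choice 0)]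
    [⟨0, 1, 50⟩, ⟨19, 98, 1862⟩, ⟨0, 1, 1⟩, ⟨0, 1, 1⟩, ⟨0, 1, 1⟩]
    (.split 4 (.leaf 0) (.leaf 0)) = true := by
  decide +kernel

/-- Piece 0, the auxiliary bounds. -/
def sideCert0 : coverTree [sideList (piece 0) (.var 0)]
    [⟨0, 1, 50⟩, ⟨19, 98, 1862⟩, ⟨0, 1, 1⟩, ⟨0, 0, 1⟩, ⟨0, 0, 1⟩] (.leaf 0) = true := by
  decide +kernel

/-- Piece 1, negative side. -/
def negCert1 : coverTree [negList (piece 1) (.var 0) (choice 1)]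
    [⟨19, 70, 1000⟩, ⟨19, 98, 1862⟩, ⟨0, 1, 1⟩, ⟨0, 1, 1⟩, ⟨0, 1, 1⟩] (.leaf 0) = true := by
  decide +kernel

/-- Piece 1, positive side. -/
def posCert1 : coverTree [posList (piece 1) (.var 0) (choice 1)]
    [⟨19, 70, 1000⟩, ⟨19, 98, 1862⟩, ⟨0, 1, 1⟩, ⟨0, 1, 1⟩, ⟨0, 1, 1⟩]
    (.split 4 (.split 4 (.leaf 0) (.leaf 0)) (.leaf 0)) = true := by
  decide +kernel

/-- Piece 1, the auxiliary bounds. -/
def sideCert1 : coverTree [sideList (piece 1) (.var 0)]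
    [⟨19, 70, 1000⟩, ⟨19, 98, 1862⟩, ⟨0, 1, 1⟩, ⟨0, 0, 1⟩, ⟨0, 0, 1⟩] (.leaf 0) = true := by
  decide +kernel

/-- Piece 2, negative side. -/
def negCert2 : coverTree [negList (piece 2) (.var 0) (choice 2)]
    [⟨69, 140, 1000⟩, ⟨19, 98, 1862⟩, ⟨0, 1, 1⟩, ⟨0, 1, 1⟩, ⟨0, 1, 1⟩] (.leaf 0) = true := by
  decide +kernel

/-- Piece 2, positive side. -/
def posCert2 : coverTree [posList (piece 2) (.var 0) (choice 2)]
    [⟨69, 140, 1000⟩, ⟨19, 98, 1862⟩, ⟨0, 1, 1⟩, ⟨0, 1, 1⟩, ⟨0, 1, 1⟩]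
    (.split 4 (.split 4 (.leaf 0) (.leaf 0)) (.leaf 0)) = true := by
  decide +kernel

/-- Piece 2, the auxiliary bounds. -/
def sideCert2 : coverTree [sideList (piece 2) (.var 0)]
    [⟨69, 140, 1000⟩, ⟨19, 98, 1862⟩, ⟨0, 1, 1⟩, ⟨0, 0, 1⟩, ⟨0, 0, 1⟩] (.leaf 0) = true := by
  decide +kernel

/-- Piece 3, negative side. -/
def negCert3 : coverTree [negList (piece 3) (.var 0) (choice 3)]
    [⟨139, 230, 1000⟩, ⟨19, 98, 1862⟩, ⟨0, 1, 1⟩, ⟨0, 1, 1⟩, ⟨0, 1, 1⟩] (.leaf 0) = true := by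
  decide +kernel

/-- Piece 3, positive side. -/
def posCert3 : coverTree [posList (piece 3) (.var 0) (choice 3)]
    [⟨139, 230, 1000⟩, ⟨19, 98, 1862⟩, ⟨0, 1, 1⟩, ⟨0, 1, 1⟩, ⟨0, 1, 1⟩]
    (.split 4 (.split 3 (.leaf 0) (.split 4 (.leaf 0) (.leaf 0))) (.split 3 (.leaf 0) (.split 4 (.leaf 0) (.leaf 0)))) = true := by
  decide +kernel

/-- Piece 3, the auxiliary bounds. -/
def sideCert3 : coverTree [sideList (piece 3) (.var 0)]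
    [⟨139, 230, 1000⟩, ⟨19, 98, 1862⟩, ⟨0, 1, 1⟩, ⟨0, 0, 1⟩, ⟨0, 0, 1⟩] (.leaf 0) = true := by
  decide +kernel

/-- Piece 4, negative side. -/
def negCert4 : coverTree [negList (piece 4) (.var 0) (choice 4)]
    [⟨114, 155, 500⟩, ⟨19, 98, 1862⟩, ⟨0, 1, 1⟩, ⟨0, 1, 1⟩, ⟨0, 1, 1⟩] (.leaf 0) = true := by
  decide +kernel

/-- Piece 4, positive side. -/
def posCert4 : coverTree [posList (piece 4) (.var 0) (choice 4)]
    [⟨114, 155, 500⟩, ⟨19, 98, 1862⟩, ⟨0, 1, 1⟩, ⟨0, 1, 1⟩, ⟨0, 1, 1⟩]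
    (.split 4 (.split 3 (.leaf 0) (.split 4 (.leaf 0) (.leaf 0))) (.leaf 0)) = true := by
  decide +kernel

/-- Piece 4, the auxiliary bounds. -/
def sideCert4 : coverTree [sideList (piece 4) (.var 0)]
    [⟨114, 155, 500⟩, ⟨19, 98, 1862⟩, ⟨0, 1, 1⟩, ⟨0, 0, 1⟩, ⟨0, 0, 1⟩] (.leaf 0) = true := by
  decide +kernel

/-- Piece 5, negative side. -/
def negCert5 : coverTree [negList (piece 5) (.var 0) (choice 5)]
    [⟨307, 370, 1000⟩, ⟨19, 98, 1862⟩, ⟨0, 1, 1⟩, ⟨0, 1, 1⟩, ⟨0, 1, 1⟩] (.leaf 0) = true := by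
  decide +kernel

/-- Piece 5, positive side. -/
def posCert5 : coverTree [posList (piece 5) (.var 0) (choice 5)]
    [⟨307, 370, 1000⟩, ⟨19, 98, 1862⟩, ⟨0, 1, 1⟩, ⟨0, 1, 1⟩, ⟨0, 1, 1⟩]
    (.split 4 (.split 3 (.leaf 0) (.split 4 (.leaf 0) (.leaf 0))) (.leaf 0)) = true := by
  decide +kernel

/-- Piece 5, the auxiliary bounds. -/
def sideCert5 : coverTree [sideList (piece 5) (.var 0)]
    [⟨307, 370, 1000⟩, ⟨19, 98, 1862⟩, ⟨0, 1, 1⟩, ⟨0, 0, 1⟩, ⟨0, 0, 1⟩] (.leaf 0) = true := by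
  decide +kernel

/-- Piece 6, negative side. -/
def negCert6 : coverTree [negList (piece 6) (.var 0) (choice 6)]
    [⟨183, 215, 500⟩, ⟨19, 98, 1862⟩, ⟨0, 1, 1⟩, ⟨0, 1, 1⟩, ⟨0, 1, 1⟩] (.leaf 0) = true := by
  decide +kernel

/-- Piece 6, positive side. -/
def posCert6 : coverTree [posList (piece 6) (.var 0) (choice 6)]
    [⟨183, 215, 500⟩, ⟨19, 98, 1862⟩, ⟨0, 1, 1⟩, ⟨0, 1, 1⟩, ⟨0, 1, 1⟩]
    (.split 4 (.leaf 0) (.leaf 0)) = true := by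
  decide +kernel

/-- Piece 6, the auxiliary bounds. -/
def sideCert6 : coverTree [sideList (piece 6) (.var 0)]
    [⟨183, 215, 500⟩, ⟨19, 98, 1862⟩, ⟨0, 1, 1⟩, ⟨0, 0, 1⟩, ⟨0, 0, 1⟩] (.leaf 0) = true := by
  decide +kernel

/-- Piece 7, negative side. -/
def negCert7 : coverTree [negList (piece 7) (.var 0) (choice 7)]
    [⟨425, 474, 1000⟩, ⟨19, 98, 1862⟩, ⟨0, 1, 1⟩, ⟨0, 1, 1⟩, ⟨0, 1, 1⟩] (.leaf 0) = true := by
  decide +kernel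

/-- Piece 7, positive side. -/
def posCert7 : coverTree [posList (piece 7) (.var 0) (choice 7)]
    [⟨425, 474, 1000⟩, ⟨19, 98, 1862⟩, ⟨0, 1, 1⟩, ⟨0, 1, 1⟩, ⟨0, 1, 1⟩]
    (.split 4 (.leaf 0) (.leaf 0)) = true := by
  decide +kernel

/-- Piece 7, the auxiliary bounds. -/
def sideCert7 : coverTree [sideList (piece 7) (.var 0)]
    [⟨425, 474, 1000⟩, ⟨19, 98, 1862⟩, ⟨0, 1, 1⟩, ⟨0, 0, 1⟩, ⟨0, 0, 1⟩] (.leaf 0) = true := by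
  decide +kernel

/-- Piece 8, negative side. -/
def negCert8 : coverTree [negList (piece 8) (.var 0) (choice 8)]
    [⟨469, 484, 1000⟩, ⟨19, 98, 1862⟩, ⟨0, 1, 1⟩, ⟨0, 1, 1⟩, ⟨0, 1, 1⟩] (.leaf 0) = true := by
  decide +kernel

/-- Piece 8, positive side. -/
def posCert8 : coverTree [posList (piece 8) (.var 0) (choice 8)]
    [⟨469, 484, 1000⟩, ⟨19, 98, 1862⟩, ⟨0, 1, 1⟩, ⟨0, 1, 1⟩, ⟨0, 1, 1⟩]
    (.split 4 (.leaf 0) (.leaf 0)) = true := by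
  decide +kernel

/-- Piece 8, the auxiliary bounds. -/
def sideCert8 : coverTree [sideList (piece 8) (.var 0)]
    [⟨469, 484, 1000⟩, ⟨19, 98, 1862⟩, ⟨0, 1, 1⟩, ⟨0, 0, 1⟩, ⟨0, 0, 1⟩] (.leaf 0) = true := by
  decide +kernel

end Vale.Agent.P237.Petty.Cor.TinyMid
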