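import Vale.Agent.P237.Petty.Cor.TinyMid.Pieces

/-!
# P237: certificates of the pieces 9 to 15
-/

namespace Vale.Agent.P237.Petty.Cor.TinyMid

open Vale.Agent.P100.Bernstein

/-- Piece 9, negative side. -/
def negCert9 : coverTree [negList (piece 9) (etaH - .var 0) (choice 9)]
    [⟨0, 9, 500⟩, ⟨19, 98, 1862⟩, ⟨0, 1, 1⟩, ⟨0, 1, 1⟩, ⟨0, 1, 1⟩] (.leaf 0) = true := by
  decide +kernel

/-- Piece 9, positive side. -/
def posCert9 : coverTree [posList (piece 9) (etaH - .var 0) (choice 9)]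
    [⟨0, 9, 500⟩, ⟨19, 98, 1862⟩, ⟨0, 1, 1⟩, ⟨0, 1, 1⟩, ⟨0, 1, 1⟩]
    (.split 4 (.split 3 (.leaf 0) (.split 4 (.leaf 0) (.leaf 0))) (.leaf 0)) = true := by
  decide +kernel

/-- Piece 9, the auxiliary bounds. -/
def sideCert9 : coverTree [sideList (piece 9) (.var 0)]
    [⟨239, 252, 500⟩, ⟨19, 98, 1862⟩, ⟨0, 1, 1⟩, ⟨0, 0, 1⟩, ⟨0, 0, 1⟩] (.leaf 0) = true := by
  decide +kernel

/-- Piece 10, negative side. -/
def negCert10 : coverTree [negList (piece 10) (etaL + .var 0) (choice 10)]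
    [⟨0, 3, 125⟩, ⟨19, 98, 1862⟩, ⟨0, 1, 1⟩, ⟨0, 1, 1⟩, ⟨0, 1, 1⟩] (.leaf 0) = true := by
  decide +kernel

/-- Piece 10, positive side. -/
def posCert10 : coverTree [posList (piece 10) (etaL + .var 0) (choice 10)]
    [⟨0, 3, 125⟩, ⟨19, 98, 1862⟩, ⟨0, 1, 1⟩, ⟨0, 1, 1⟩, ⟨0, 1, 1⟩]
    (.split 4 (.split 3 (.leaf 0) (.split 4 (.leaf 0) (.leaf 0))) (.leaf 0)) = true := by
  decide +kernel

/-- Piece 10, the auxiliary bounds. -/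
def sideCert10 : coverTree [sideList (piece 10) (.var 0)]
    [⟨239, 252, 500⟩, ⟨19, 98, 1862⟩, ⟨0, 1, 1⟩, ⟨0, 0, 1⟩, ⟨0, 0, 1⟩] (.leaf 0) = true := by
  decide +kernel

/-- Piece 11, negative side. -/
def negCert11 : coverTree [negList (piece 11) (.var 0) (choice 11)]
    [⟨498, 529, 1000⟩, ⟨19, 98, 1862⟩, ⟨0, 1, 1⟩, ⟨0, 1, 1⟩, ⟨0, 1, 1⟩] (.leaf 0) = true := by
  decide +kernel

/-- Piece 11, positive side. -/
def posCert11 : coverTree [posList (piece 11) (.var 0) (choice 11)]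
    [⟨498, 529, 1000⟩, ⟨19, 98, 1862⟩, ⟨0, 1, 1⟩, ⟨0, 1, 1⟩, ⟨0, 1, 1⟩]
    (.split 4 (.split 3 (.leaf 0) (.split 4 (.leaf 0) (.leaf 0))) (.leaf 0)) = true := by
  decide +kernel

/-- Piece 11, the auxiliary bounds. -/
def sideCert11 : coverTree [sideList (piece 11) (.var 0)]
    [⟨498, 529, 1000⟩, ⟨19, 98, 1862⟩, ⟨0, 1, 1⟩, ⟨0, 0, 1⟩, ⟨0, 0, 1⟩] (.leaf 0) = true := by
  decide +kernel

/-- Piece 12, negative side. -/
def negCert12 : coverTree [negList (piece 12) (.var 0) (choice 12)]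
    [⟨261, 282, 500⟩, ⟨19, 98, 1862⟩, ⟨0, 1, 1⟩, ⟨0, 1, 1⟩, ⟨0, 1, 1⟩] (.leaf 0) = true := by
  decide +kernel

/-- Piece 12, positive side. -/
def posCert12 : coverTree [posList (piece 12) (.var 0) (choice 12)]
    [⟨261, 282, 500⟩, ⟨19, 98, 1862⟩, ⟨0, 1, 1⟩, ⟨0, 1, 1⟩, ⟨0, 1, 1⟩]
    (.split 4 (.split 3 (.leaf 0) (.split 4 (.leaf 0) (.leaf 0))) (.leaf 0)) = true := by
  decide +kernel

/-- Piece 12, the auxiliary bounds. -/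
def sideCert12 : coverTree [sideList (piece 12) (.var 0)]
    [⟨261, 282, 500⟩, ⟨19, 98, 1862⟩, ⟨0, 1, 1⟩, ⟨0, 0, 1⟩, ⟨0, 0, 1⟩] (.leaf 0) = true := by
  decide +kernel

/-- Piece 13, negative side. -/
def negCert13 : coverTree [negList (piece 13) (.var 0) (choice 13)]
    [⟨556, 673, 1000⟩, ⟨19, 98, 1862⟩, ⟨0, 1, 1⟩, ⟨0, 1, 1⟩, ⟨0, 1, 1⟩] (.leaf 0) = true := by
  decide +kernel

/-- Piece 13, positive side. -/
def posCert13 : coverTree [posList (piece 13) (.var 0) (choice 13)]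
    [⟨556, 673, 1000⟩, ⟨19, 98, 1862⟩, ⟨0, 1, 1⟩, ⟨0, 1, 1⟩, ⟨0, 1, 1⟩]
    (.split 3 (.leaf 0) (.split 4 (.split 0 (.split 4 (.split 3 (.leaf 0) (.split 0 (.split 4 (.split 0 (.split 3 (.leaf 0) (.split 4 (.leaf 0) (.leaf 0))) (.leaf 0)) (.leaf 0)) (.leaf 0))) (.leaf 0)) (.leaf 0)) (.leaf 0))) = true := by
  decide +kernel

/-- Piece 13, the auxiliary bounds. -/
def sideCert13 : coverTree [sideList (piece 13) (.var 0)]
    [⟨556, 673, 1000⟩, ⟨19, 98, 1862⟩, ⟨0, 1, 1⟩, ⟨0, 0, 1⟩, ⟨0, 0, 1⟩] (.leaf 0) = true := by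
  decide +kernel

/-- Piece 14, negative side. -/
def negCert14 : coverTree [negList (piece 14) (.var 0) (choice 14)]
    [⟨663, 797, 1000⟩, ⟨19, 98, 1862⟩, ⟨0, 1, 1⟩, ⟨0, 1, 1⟩, ⟨0, 1, 1⟩] (.leaf 0) = true := by
  decide +kernel

/-- Piece 14, positive side. -/
def posCert14 : coverTree [posList (piece 14) (.var 0) (choice 14)]
    [⟨663, 797, 1000⟩, ⟨19, 98, 1862⟩, ⟨0, 1, 1⟩, ⟨0, 1, 1⟩, ⟨0, 1, 1⟩]
    (.leaf 0) = true := by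
  decide +kernel

/-- Piece 14, the auxiliary bounds. -/
def sideCert14 : coverTree [sideList (piece 14) (.var 0)]
    [⟨663, 797, 1000⟩, ⟨19, 98, 1862⟩, ⟨0, 1, 1⟩, ⟨0, 0, 1⟩, ⟨0, 0, 1⟩] (.leaf 0) = true := by
  decide +kernel

/-- Piece 15, negative side. -/
def negCert15 : coverTree [negList (piece 15) (.var 0) (choice 15)]
    [⟨783, 946, 1000⟩, ⟨19, 98, 1862⟩, ⟨0, 1, 1⟩, ⟨0, 1, 1⟩, ⟨0, 1, 1⟩] (.leaf 0) = true := by
  decide +kernel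

/-- Piece 15, positive side. -/
def posCert15 : coverTree [posList (piece 15) (.var 0) (choice 15)]
    [⟨783, 946, 1000⟩, ⟨19, 98, 1862⟩, ⟨0, 1, 1⟩, ⟨0, 1, 1⟩, ⟨0, 1, 1⟩]
    (.leaf 0) = true := by
  decide +kernel

/-- Piece 15, the auxiliary bounds. -/
def sideCert15 : coverTree [sideList (piece 15) (.var 0)]
    [⟨783, 946, 1000⟩, ⟨19, 98, 1862⟩, ⟨0, 1, 1⟩, ⟨0, 0, 1⟩, ⟨0, 0, 1⟩] (.leaf 0) = true := by
  decide +kernel

end Vale.Agent.P237.Petty.Cor.TinyMid
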