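import Vale.Agent.P237.Petty.Cor.TinyMid.Pieces

/-!
# P237: certificates of the pieces 16 to 22
-/

namespace Vale.Agent.P237.Petty.Cor.TinyMid

open Vale.Agent.P100.Bernstein

/-- Piece 16, negative side. -/
def negCert16 : coverTree [negList (piece 16) (.var 0) (choice 16)]
    [⟨927, 1094, 1000⟩, ⟨19, 98, 1862⟩, ⟨0, 1, 1⟩, ⟨0, 1, 1⟩, ⟨0, 1, 1⟩] (.leaf 0) = true := by
  decide +kernel

/-- Piece 16, positive side. -/
def posCert16 : coverTree [posList (piece 16) (.var 0) (choice 16)]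
    [⟨927, 1094, 1000⟩, ⟨19, 98, 1862⟩, ⟨0, 1, 1⟩, ⟨0, 1, 1⟩, ⟨0, 1, 1⟩]
    (.leaf 0) = true := by
  decide +kernel

/-- Piece 16, the auxiliary bounds. -/
def sideCert16 : coverTree [sideList (piece 16) (.var 0)]
    [⟨927, 1094, 1000⟩, ⟨19, 98, 1862⟩, ⟨0, 1, 1⟩, ⟨0, 0, 1⟩, ⟨0, 0, 1⟩] (.leaf 0) = true := by
  decide +kernel

/-- Piece 17, negative side. -/
def negCert17 : coverTree [negList (piece 17) (.var 0) (choice 17)]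
    [⟨1069, 1243, 1000⟩, ⟨19, 98, 1862⟩, ⟨0, 1, 1⟩, ⟨0, 1, 1⟩, ⟨0, 1, 1⟩] (.leaf 0) = true := by
  decide +kernel

/-- Piece 17, positive side. -/
def posCert17 : coverTree [posList (piece 17) (.var 0) (choice 17)]
    [⟨1069, 1243, 1000⟩, ⟨19, 98, 1862⟩, ⟨0, 1, 1⟩, ⟨0, 1, 1⟩, ⟨0, 1, 1⟩]
    (.leaf 0) = true := by
  decide +kernel

/-- Piece 17, the auxiliary bounds. -/
def sideCert17 : coverTree [sideList (piece 17) (.var 0)]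
    [⟨1069, 1243, 1000⟩, ⟨19, 98, 1862⟩, ⟨0, 1, 1⟩, ⟨0, 0, 1⟩, ⟨0, 0, 1⟩] (.leaf 0) = true := by
  decide +kernel

/-- Piece 18, negative side. -/
def negCert18 : coverTree [negList (piece 18) (.var 0) (choice 18)]
    [⟨1211, 1391, 1000⟩, ⟨19, 98, 1862⟩, ⟨0, 1, 1⟩, ⟨0, 1, 1⟩, ⟨0, 1, 1⟩] (.leaf 0) = true := by
  decide +kernel

/-- Piece 18, positive side. -/
def posCert18 : coverTree [posList (piece 18) (.var 0) (choice 18)]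
    [⟨1211, 1391, 1000⟩, ⟨19, 98, 1862⟩, ⟨0, 1, 1⟩, ⟨0, 1, 1⟩, ⟨0, 1, 1⟩]
    (.leaf 0) = true := by
  decide +kernel

/-- Piece 18, the auxiliary bounds. -/
def sideCert18 : coverTree [sideList (piece 18) (.var 0)]
    [⟨1211, 1391, 1000⟩, ⟨19, 98, 1862⟩, ⟨0, 1, 1⟩, ⟨0, 0, 1⟩, ⟨0, 0, 1⟩] (.leaf 0) = true := by
  decide +kernel

/-- Piece 19, negative side. -/
def negCert19 : coverTree [negList (piece 19) (.var 0) (choice 19)]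
    [⟨1351, 1538, 1000⟩, ⟨19, 98, 1862⟩, ⟨0, 1, 1⟩, ⟨0, 1, 1⟩, ⟨0, 1, 1⟩] (.leaf 0) = true := by
  decide +kernel

/-- Piece 19, positive side. -/
def posCert19 : coverTree [posList (piece 19) (.var 0) (choice 19)]
    [⟨1351, 1538, 1000⟩, ⟨19, 98, 1862⟩, ⟨0, 1, 1⟩, ⟨0, 1, 1⟩, ⟨0, 1, 1⟩]
    (.leaf 0) = true := by
  decide +kernel

/-- Piece 19, the auxiliary bounds. -/
def sideCert19 : coverTree [sideList (piece 19) (.var 0)]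
    [⟨1351, 1538, 1000⟩, ⟨19, 98, 1862⟩, ⟨0, 1, 1⟩, ⟨0, 0, 1⟩, ⟨0, 0, 1⟩] (.leaf 0) = true := by
  decide +kernel

/-- Piece 20, negative side. -/
def negCert20 : coverTree [negList (piece 20) (.var 0) (choice 20)]
    [⟨1491, 1686, 1000⟩, ⟨19, 98, 1862⟩, ⟨0, 1, 1⟩, ⟨0, 1, 1⟩, ⟨0, 1, 1⟩] (.leaf 0) = true := by
  decide +kernel

/-- Piece 20, positive side. -/
def posCert20 : coverTree [posList (piece 20) (.var 0) (choice 20)]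
    [⟨1491, 1686, 1000⟩, ⟨19, 98, 1862⟩, ⟨0, 1, 1⟩, ⟨0, 1, 1⟩, ⟨0, 1, 1⟩]
    (.leaf 0) = true := by
  decide +kernel

/-- Piece 20, the auxiliary bounds. -/
def sideCert20 : coverTree [sideList (piece 20) (.var 0)]
    [⟨1491, 1686, 1000⟩, ⟨19, 98, 1862⟩, ⟨0, 1, 1⟩, ⟨0, 0, 1⟩, ⟨0, 0, 1⟩] (.leaf 0) = true := by
  decide +kernel

/-- Piece 21, negative side. -/
def negCert21 : coverTree [negList (piece 21) (.var 0) (choice 21)]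
    [⟨815, 929, 500⟩, ⟨19, 98, 1862⟩, ⟨0, 1, 1⟩, ⟨0, 1, 1⟩, ⟨0, 1, 1⟩] (.leaf 0) = true := by
  decide +kernel

/-- Piece 21, positive side. -/
def posCert21 : coverTree [posList (piece 21) (.var 0) (choice 21)]
    [⟨815, 929, 500⟩, ⟨19, 98, 1862⟩, ⟨0, 1, 1⟩, ⟨0, 1, 1⟩, ⟨0, 1, 1⟩]
    (.leaf 0) = true := by
  decide +kernel

/-- Piece 21, the auxiliary bounds. -/
def sideCert21 : coverTree [sideList (piece 21) (.var 0)]
    [⟨815, 929, 500⟩, ⟨19, 98, 1862⟩, ⟨0, 1, 1⟩, ⟨0, 0, 1⟩, ⟨0, 0, 1⟩] (.leaf 0) = true := by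
  decide +kernel

/-- Piece 22, negative side. -/
def negCert22 : coverTree [negList (piece 22) (.var 0) (choice 22)]
    [⟨358, 401, 200⟩, ⟨19, 98, 1862⟩, ⟨0, 1, 1⟩, ⟨0, 1, 1⟩, ⟨0, 1, 1⟩] (.leaf 0) = true := by
  decide +kernel

/-- Piece 22, positive side. -/
def posCert22 : coverTree [posList (piece 22) (.var 0) (choice 22)]
    [⟨358, 401, 200⟩, ⟨19, 98, 1862⟩, ⟨0, 1, 1⟩, ⟨0, 1, 1⟩, ⟨0, 1, 1⟩]
    (.leaf 0) = true := by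
  decide +kernel

/-- Piece 22, the auxiliary bounds. -/
def sideCert22 : coverTree [sideList (piece 22) (.var 0)]
    [⟨358, 401, 200⟩, ⟨19, 98, 1862⟩, ⟨0, 1, 1⟩, ⟨0, 0, 1⟩, ⟨0, 0, 1⟩] (.leaf 0) = true := by
  decide +kernel

end Vale.Agent.P237.Petty.Cor.TinyMid
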