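import Vale.Agent.P237.Petty.Cor.TinyMid.BulkSound
import Vale.Agent.P237.Petty.Cor.TinyMid.CertBulkA
import Vale.Agent.P237.Petty.Cor.TinyMid.CertBulkB
import Vale.Agent.P237.Petty.Cor.TinyMid.CertBulkC

/-!
# P237: the cell below `X = 81 / 20`
-/

namespace Vale.Agent.P237.Petty.Cor.TinyMid

open Set
open Ident (half rate)
open Vale.Agent.P100.Bernstein

variable {p : ℕ} {L s X v u δ E : ℝ}

/-- The middle part of the box of a certificate. -/
theorem inBox_pt (h1 : 18 ≤ p) (h2 : p ≤ 97) {I J K : Iv} {z τ σ : ℝ}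
    (hI : (I.lo : ℝ) ≤ I.den * z ∧ I.den * z ≤ I.hi)
    (hJ : (J.lo : ℝ) ≤ J.den * τ ∧ J.den * τ ≤ J.hi)
    (hK : (K.lo : ℝ) ≤ K.den * σ ∧ K.den * σ ≤ K.hi) :
    InBox [I, ⟨19, 98, 1862⟩, ⟨0, 1, 1⟩, J, K] (pt p z τ σ) := by
  obtain ⟨he0, he1⟩ := eps_mem h1 h2
  obtain ⟨hn0, hn1⟩ := nPar_mem h1 h2
  rw [← eps] at he0 he1
  simp only [InBox, pt, List.headD_cons, List.tail_cons, and_true]
  refine ⟨hI.1, hI.2, ?_, ?_, ?_, ?_, hJ.1, hJ.2, hK.1, hK.2⟩ <;> push_cast <;> linarith

theorem cover_one {l : List Expr} {B : List Iv} {T : Pick} {x : List ℝ}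
    (hc : coverTree [l] B T = true) (hx : InBox B x) : ∀ e ∈ l, 0 ≤ e.eval x := by
  obtain ⟨q, hq, hq'⟩ := exists_of_coverTree T B hc hx
  rw [List.mem_singleton.1 hq] at hq'
  exact hq'

/-- The range of the abscissa from that of `X`. -/
theorem oVar_mem (h1 : 18 ≤ p) (h2 : p ≤ 97) (hs : s ∈ Ioo (0 : ℝ) 1) {a lo : ℝ}
    (hX : sqTan p s = X) :
    0 ≤ oVar p s ∧ (0 ≤ a → a * (2 + a / 19) ≤ lo → lo ≤ X → a ≤ oVar p s) ∧
      (0 ≤ a → lo ≤ a * (2 + a / 98) → X ≤ lo → oVar p s ≤ a) := by
  obtain ⟨he0, he1⟩ := eps_mem h1 h2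
  rw [← eps] at he0 he1
  have hc : 0 < arc s := arc_pos ⟨by linarith [hs.1], hs.2⟩
  have hc1 : arc s ≤ 1 := Real.sqrt_le_one.2 (by nlinarith)
  have ho : 0 ≤ oVar p s := mul_nonneg (sub_nonneg.2 (by rw [le_div_iff₀ hc]; linarith))
    (by positivity)
  have e := eval_xX (o := .var 0) (z := oVar p s) (τ := 0) (σ := 0) hs (eval_oo p _ _ _)
  simp [xX, eval_ee, hX] at e
  simp [pt] at e
  refine ⟨ho, fun ha hl hlX => ?_, fun ha hl hlX => ?_⟩
  · by_contra hc
    rw [not_le] at hc
    have a1 := mul_le_mul hc.le hc.le ho ha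
    have a2 := mul_le_mul_of_nonneg_right he1 (mul_self_nonneg a)
    have a3 := mul_le_mul_of_nonneg_left a1 (show 0 ≤ eps p by linarith)
    linarith
  · by_contra hc
    rw [not_le] at hc
    have a1 := mul_le_mul hc.le hc.le ha ho
    have a2 := mul_le_mul_of_nonneg_right he0 (mul_self_nonneg a)
    have a3 := mul_le_mul_of_nonneg_left a1 (show 0 ≤ eps p by linarith)
    linarith

theorem kapM_nonneg {X : ℝ} (h0 : 0 ≤ X) (h : X ≤ 81 / 20) : 0 ≤ kapM X := by
  rw [kapM, Tail.sqp_of_nonneg (sub_nonneg.2 h)]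
  rcases le_total X (17 / 5) with h' | h'
  · rw [Tail.sqp_of_nonneg (sub_nonneg.2 h')]
    nlinarith [mul_nonneg h0 (sub_nonneg.2 h')]
  · rw [Tail.sqp_of_nonpos (sub_nonpos.2 h')]
    nlinarith [sq_nonneg (81 / 20 - X)]

/-- What a piece needs. -/
theorem piece_nonneg (h1 : 18 ≤ p) (h2 : p ≤ 97) (P : Piece) (C : Choice) {lo hi : ℝ} {o : Expr}
    {z : ℝ} (S : St p L s X v u δ)
    (hE : formLow (keptW p s) (slopeD p s) (kapS p s) (kapD p s) (cA p X) (shadR p s)
      (cB p X) (cC p X) (scale p s * remR p s) X (hiQuot p s) L v u δ ≤ E)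
    (ho : ∀ τ σ, o.eval (pt p z τ σ) = oVar p s) (ht : Switch p P.t s) (hlo : lo ≤ X)
    (hhi : X ≤ hi) (hX : X < 81 / 20) (hi6 : P.i ≤ 6)
    (hh : if P.h then 17 / 5 ≤ lo else hi ≤ 17 / 5)
    (hk1 : ∀ j, j < P.i → knotR j ≤ lo) (hk2 : ∀ j, j < 6 → P.i ≤ j → hi ≤ knotR j)
    (hside : ∀ e ∈ sideList P (.var 0), 0 ≤ e.eval (pt p (oVar p s) 0 0))
    (hpos : AllNonneg (posList P o C) p z)
    (hneg : AllNonneg (negList P o C) p z ∨
      P.t = false ∧ ∀ e ∈ smallList P o, 0 ≤ e.eval (pt p z 0 0)) : 0 ≤ E := by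
  have hs := S.s_mem
  have hXe := S.X_eq
  have hK : ∀ τ σ, (xK P.h o).eval (pt p z τ σ) = kapS p s ∧
      (xKd P.h o).eval (pt p z τ σ) = kapD p s := fun τ σ => by
    refine eval_xK hs (ho τ σ) (by rw [hXe]; exact hX.le) ?_
    rw [hXe]
    cases hb : P.h <;> simp only [hb, Bool.false_eq_true, if_false, if_true] at hh ⊢ <;> linarith
  have hP : ∀ τ σ, (xP P.i o).eval (pt p z τ σ) = scale p s * remR p s := fun τ σ =>
    eval_xP hs (ho τ σ) hi6 (fun j hj => (hk1 j hj).trans (hXe ▸ hlo))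
      fun j hj hj' => (hXe ▸ hhi).trans (hk2 j hj hj')
  have hk0 : 0 ≤ kapS p s := mul_nonneg (scale_pos p hs).le
    (kapM_nonneg (hXe ▸ S.X_pos.le) (hXe ▸ hX.le))
  have hm : ∀ τ σ, 0 < (margin C.edge o).eval (pt p z τ σ) := fun τ σ => by
    cases C.edge
    · simp [margin]
    · have := scale_pos p hs
      have := sub_pos.2 hX
      simp [margin, eval_xX hs (ho τ σ), eval_xS0 hs (ho τ σ), hXe]
      positivity
  rcases le_or_gt δ 0 with hd | hd
  · rcases hneg with hn | ⟨hb, hn⟩
    · exact negList_sound h1 h2 P C S hd hE ho ht hK hP hk0 hm hn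
    · exact smallList_sound h1 h2 P S hd hE ho hb ht hK hP hk0 hn
  · exact posList_sound h1 h2 P C S hd (side_of_list h1 h2 P S (by linarith) hside) hE ho ht hK hP
      hk0 hm hpos

/-- The offset of the ratio against the bounds of `X`. -/
theorem switch_of_X (h1 : 18 ≤ p) (h2 : p ≤ 97) (hs : s ∈ Ioo (0 : ℝ) 1) (hX : sqTan p s = X) :
    (X ≤ 97 / 100 → Switch p false s) ∧ (101 / 100 ≤ X → Switch p true s) := by
  obtain ⟨he0, he1⟩ := eps_mem h1 h2
  obtain ⟨hl, hh⟩ := etaP_mem h1 h2
  rw [← eps] at he0 he1 hl hh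
  obtain ⟨ho, -, -⟩ := oVar_mem h1 h2 hs (a := 0) (lo := 0) hX
  have e := eval_xX (o := .var 0) (z := oVar p s) (τ := 0) (σ := 0) hs (eval_oo p _ _ _)
  simp [xX, eval_ee, hX] at e
  simp [pt] at e
  constructor <;> intro h
  · refine (switch_iff p hs).1 ?_
    by_contra hc
    rw [not_le] at hc
    obtain ⟨l, hl'⟩ : ∃ l, 1 / 2 - 375 / 1000 * eps p = l := ⟨_, rfl⟩
    have a1 := mul_le_mul (show l ≤ oVar p s by linarith) (show l ≤ oVar p s by linarith)
      (show 0 ≤ l by linarith) ho
    have a2 := mul_le_mul_of_nonneg_left a1 (show 0 ≤ eps p by linarith)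
    subst hl'
    nlinarith [mul_le_mul_of_nonneg_left he1 (show 0 ≤ eps p by linarith),
      mul_nonneg (mul_self_nonneg (eps p)) (show 0 ≤ eps p by linarith)]
  · refine (switch_iff p hs).2 ?_
    by_contra hc
    rw [not_le] at hc
    have a1 := mul_le_mul (show oVar p s ≤ 1 / 2 by linarith) (show oVar p s ≤ 1 / 2 by linarith)
      ho (by norm_num)
    have a2 := mul_le_mul_of_nonneg_left a1 (show 0 ≤ eps p by linarith)
    linarith

/-- Piece 0. -/
theorem bulk0 (h1 : 18 ≤ p) (h2 : p ≤ 97) (S : St p L s X v u δ)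
    (hE : formLow (keptW p s) (slopeD p s) (kapS p s) (kapD p s) (cA p X) (shadR p s)
      (cB p X) (cC p X) (scale p s * remR p s) X (hiQuot p s) L v u δ ≤ E)
    (hlo : qv (range 0).1 ≤ X) (hhi : X ≤ qv (range 0).2) : 0 ≤ E := by
  simp only [qv, range] at hlo hhi
  push_cast at hlo hhi
  obtain ⟨-, hA, -⟩ := oVar_mem h1 h2 S.s_mem (a := 0 / 50) S.X_eq
  obtain ⟨-, -, hB⟩ := oVar_mem h1 h2 S.s_mem (a := 1 / 50) S.X_eq
  have ha := hA (by norm_num) (by norm_num) hlo
  have hb := hB (by norm_num) (by norm_num) hhi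
  refine piece_nonneg h1 h2 (piece 0) (choice 0) (o := .var 0) (z := oVar p s) S hE
    (fun τ σ => eval_oo p _ _ _) ((switch_of_X h1 h2 S.s_mem S.X_eq).1 (by linarith)) hlo hhi (by linarith) ?_ ?_ ?_ ?_ ?_ ?_ ?_
  · norm_num [piece]
  · norm_num [piece]
  · intro j hj
    simp only [piece] at hj
    interval_cases j <;> norm_num [knotR, knot]
  · intro j hj hj'
    simp only [piece] at hj'
    interval_cases j <;> norm_num [knotR, knot]
  · exact cover_one sideCert0 (inBox_pt h1 h2 ⟨by push_cast; linarith, by push_cast; linarith⟩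
      (by norm_num) (by norm_num))
  · exact fun τ hτ σ hσ => cover_one posCert0 (inBox_pt h1 h2 ⟨by push_cast; linarith,
      by push_cast; linarith⟩ (by simpa using hτ) (by simpa using hσ))
  · exact Or.inr ⟨rfl, cover_one negCert0 (inBox_pt h1 h2 ⟨by push_cast; linarith,
    by push_cast; linarith⟩ (by norm_num) (by norm_num))⟩

/-- Piece 1. -/
theorem bulk1 (h1 : 18 ≤ p) (h2 : p ≤ 97) (S : St p L s X v u δ)
    (hE : formLow (keptW p s) (slopeD p s) (kapS p s) (kapD p s) (cA p X) (shadR p s)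
      (cB p X) (cC p X) (scale p s * remR p s) X (hiQuot p s) L v u δ ≤ E)
    (hlo : qv (range 1).1 ≤ X) (hhi : X ≤ qv (range 1).2) : 0 ≤ E := by
  simp only [qv, range] at hlo hhi
  push_cast at hlo hhi
  obtain ⟨-, hA, -⟩ := oVar_mem h1 h2 S.s_mem (a := 19 / 1000) S.X_eq
  obtain ⟨-, -, hB⟩ := oVar_mem h1 h2 S.s_mem (a := 70 / 1000) S.X_eq
  have ha := hA (by norm_num) (by norm_num) hlo
  have hb := hB (by norm_num) (by norm_num) hhi
  refine piece_nonneg h1 h2 (piece 1) (choice 1) (o := .var 0) (z := oVar p s) S hE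
    (fun τ σ => eval_oo p _ _ _) ((switch_of_X h1 h2 S.s_mem S.X_eq).1 (by linarith)) hlo hhi (by linarith) ?_ ?_ ?_ ?_ ?_ ?_ ?_
  · norm_num [piece]
  · norm_num [piece]
  · intro j hj
    simp only [piece] at hj
    interval_cases j <;> norm_num [knotR, knot]
  · intro j hj hj'
    simp only [piece] at hj'
    interval_cases j <;> norm_num [knotR, knot]
  · exact cover_one sideCert1 (inBox_pt h1 h2 ⟨by push_cast; linarith, by push_cast; linarith⟩
      (by norm_num) (by norm_num))
  · exact fun τ hτ σ hσ => cover_one posCert1 (inBox_pt h1 h2 ⟨by push_cast; linarith,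
      by push_cast; linarith⟩ (by simpa using hτ) (by simpa using hσ))
  · exact Or.inl fun τ hτ σ hσ => cover_one negCert1 (inBox_pt h1 h2 ⟨by push_cast; linarith,
    by push_cast; linarith⟩ (by simpa using hτ) (by simpa using hσ))

/-- Piece 2. -/
theorem bulk2 (h1 : 18 ≤ p) (h2 : p ≤ 97) (S : St p L s X v u δ)
    (hE : formLow (keptW p s) (slopeD p s) (kapS p s) (kapD p s) (cA p X) (shadR p s)
      (cB p X) (cC p X) (scale p s * remR p s) X (hiQuot p s) L v u δ ≤ E)
    (hlo : qv (range 2).1 ≤ X) (hhi : X ≤ qv (range 2).2) : 0 ≤ E := by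
  simp only [qv, range] at hlo hhi
  push_cast at hlo hhi
  obtain ⟨-, hA, -⟩ := oVar_mem h1 h2 S.s_mem (a := 69 / 1000) S.X_eq
  obtain ⟨-, -, hB⟩ := oVar_mem h1 h2 S.s_mem (a := 140 / 1000) S.X_eq
  have ha := hA (by norm_num) (by norm_num) hlo
  have hb := hB (by norm_num) (by norm_num) hhi
  refine piece_nonneg h1 h2 (piece 2) (choice 2) (o := .var 0) (z := oVar p s) S hE
    (fun τ σ => eval_oo p _ _ _) ((switch_of_X h1 h2 S.s_mem S.X_eq).1 (by linarith)) hlo hhi (by linarith) ?_ ?_ ?_ ?_ ?_ ?_ ?_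
  · norm_num [piece]
  · norm_num [piece]
  · intro j hj
    simp only [piece] at hj
    interval_cases j <;> norm_num [knotR, knot]
  · intro j hj hj'
    simp only [piece] at hj'
    interval_cases j <;> norm_num [knotR, knot]
  · exact cover_one sideCert2 (inBox_pt h1 h2 ⟨by push_cast; linarith, by push_cast; linarith⟩
      (by norm_num) (by norm_num))
  · exact fun τ hτ σ hσ => cover_one posCert2 (inBox_pt h1 h2 ⟨by push_cast; linarith,
      by push_cast; linarith⟩ (by simpa using hτ) (by simpa using hσ))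
  · exact Or.inl fun τ hτ σ hσ => cover_one negCert2 (inBox_pt h1 h2 ⟨by push_cast; linarith,
    by push_cast; linarith⟩ (by simpa using hτ) (by simpa using hσ))

/-- Piece 3. -/
theorem bulk3 (h1 : 18 ≤ p) (h2 : p ≤ 97) (S : St p L s X v u δ)
    (hE : formLow (keptW p s) (slopeD p s) (kapS p s) (kapD p s) (cA p X) (shadR p s)
      (cB p X) (cC p X) (scale p s * remR p s) X (hiQuot p s) L v u δ ≤ E)
    (hlo : qv (range 3).1 ≤ X) (hhi : X ≤ qv (range 3).2) : 0 ≤ E := by
  simp only [qv, range] at hlo hhi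
  push_cast at hlo hhi
  obtain ⟨-, hA, -⟩ := oVar_mem h1 h2 S.s_mem (a := 139 / 1000) S.X_eq
  obtain ⟨-, -, hB⟩ := oVar_mem h1 h2 S.s_mem (a := 230 / 1000) S.X_eq
  have ha := hA (by norm_num) (by norm_num) hlo
  have hb := hB (by norm_num) (by norm_num) hhi
  refine piece_nonneg h1 h2 (piece 3) (choice 3) (o := .var 0) (z := oVar p s) S hE
    (fun τ σ => eval_oo p _ _ _) ((switch_of_X h1 h2 S.s_mem S.X_eq).1 (by linarith)) hlo hhi (by linarith) ?_ ?_ ?_ ?_ ?_ ?_ ?_
  · norm_num [piece]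
  · norm_num [piece]
  · intro j hj
    simp only [piece] at hj
    interval_cases j <;> norm_num [knotR, knot]
  · intro j hj hj'
    simp only [piece] at hj'
    interval_cases j <;> norm_num [knotR, knot]
  · exact cover_one sideCert3 (inBox_pt h1 h2 ⟨by push_cast; linarith, by push_cast; linarith⟩
      (by norm_num) (by norm_num))
  · exact fun τ hτ σ hσ => cover_one posCert3 (inBox_pt h1 h2 ⟨by push_cast; linarith,
      by push_cast; linarith⟩ (by simpa using hτ) (by simpa using hσ))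
  · exact Or.inl fun τ hτ σ hσ => cover_one negCert3 (inBox_pt h1 h2 ⟨by push_cast; linarith,
    by push_cast; linarith⟩ (by simpa using hτ) (by simpa using hσ))

/-- Piece 4. -/
theorem bulk4 (h1 : 18 ≤ p) (h2 : p ≤ 97) (S : St p L s X v u δ)
    (hE : formLow (keptW p s) (slopeD p s) (kapS p s) (kapD p s) (cA p X) (shadR p s)
      (cB p X) (cC p X) (scale p s * remR p s) X (hiQuot p s) L v u δ ≤ E)
    (hlo : qv (range 4).1 ≤ X) (hhi : X ≤ qv (range 4).2) : 0 ≤ E := by
  simp only [qv, range] at hlo hhi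
  push_cast at hlo hhi
  obtain ⟨-, hA, -⟩ := oVar_mem h1 h2 S.s_mem (a := 114 / 500) S.X_eq
  obtain ⟨-, -, hB⟩ := oVar_mem h1 h2 S.s_mem (a := 155 / 500) S.X_eq
  have ha := hA (by norm_num) (by norm_num) hlo
  have hb := hB (by norm_num) (by norm_num) hhi
  refine piece_nonneg h1 h2 (piece 4) (choice 4) (o := .var 0) (z := oVar p s) S hE
    (fun τ σ => eval_oo p _ _ _) ((switch_of_X h1 h2 S.s_mem S.X_eq).1 (by linarith)) hlo hhi (by linarith) ?_ ?_ ?_ ?_ ?_ ?_ ?_
  · norm_num [piece]
  · norm_num [piece]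
  · intro j hj
    simp only [piece] at hj
    interval_cases j <;> norm_num [knotR, knot]
  · intro j hj hj'
    simp only [piece] at hj'
    interval_cases j <;> norm_num [knotR, knot]
  · exact cover_one sideCert4 (inBox_pt h1 h2 ⟨by push_cast; linarith, by push_cast; linarith⟩
      (by norm_num) (by norm_num))
  · exact fun τ hτ σ hσ => cover_one posCert4 (inBox_pt h1 h2 ⟨by push_cast; linarith,
      by push_cast; linarith⟩ (by simpa using hτ) (by simpa using hσ))
  · exact Or.inl fun τ hτ σ hσ => cover_one negCert4 (inBox_pt h1 h2 ⟨by push_cast; linarith,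
    by push_cast; linarith⟩ (by simpa using hτ) (by simpa using hσ))

/-- Piece 5. -/
theorem bulk5 (h1 : 18 ≤ p) (h2 : p ≤ 97) (S : St p L s X v u δ)
    (hE : formLow (keptW p s) (slopeD p s) (kapS p s) (kapD p s) (cA p X) (shadR p s)
      (cB p X) (cC p X) (scale p s * remR p s) X (hiQuot p s) L v u δ ≤ E)
    (hlo : qv (range 5).1 ≤ X) (hhi : X ≤ qv (range 5).2) : 0 ≤ E := by
  simp only [qv, range] at hlo hhi
  push_cast at hlo hhi
  obtain ⟨-, hA, -⟩ := oVar_mem h1 h2 S.s_mem (a := 307 / 1000) S.X_eq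
  obtain ⟨-, -, hB⟩ := oVar_mem h1 h2 S.s_mem (a := 370 / 1000) S.X_eq
  have ha := hA (by norm_num) (by norm_num) hlo
  have hb := hB (by norm_num) (by norm_num) hhi
  refine piece_nonneg h1 h2 (piece 5) (choice 5) (o := .var 0) (z := oVar p s) S hE
    (fun τ σ => eval_oo p _ _ _) ((switch_of_X h1 h2 S.s_mem S.X_eq).1 (by linarith)) hlo hhi (by linarith) ?_ ?_ ?_ ?_ ?_ ?_ ?_
  · norm_num [piece]
  · norm_num [piece]
  · intro j hj
    simp only [piece] at hj
    interval_cases j <;> norm_num [knotR, knot]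
  · intro j hj hj'
    simp only [piece] at hj'
    interval_cases j <;> norm_num [knotR, knot]
  · exact cover_one sideCert5 (inBox_pt h1 h2 ⟨by push_cast; linarith, by push_cast; linarith⟩
      (by norm_num) (by norm_num))
  · exact fun τ hτ σ hσ => cover_one posCert5 (inBox_pt h1 h2 ⟨by push_cast; linarith,
      by push_cast; linarith⟩ (by simpa using hτ) (by simpa using hσ))
  · exact Or.inl fun τ hτ σ hσ => cover_one negCert5 (inBox_pt h1 h2 ⟨by push_cast; linarith,
    by push_cast; linarith⟩ (by simpa using hτ) (by simpa using hσ))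

/-- Piece 6. -/
theorem bulk6 (h1 : 18 ≤ p) (h2 : p ≤ 97) (S : St p L s X v u δ)
    (hE : formLow (keptW p s) (slopeD p s) (kapS p s) (kapD p s) (cA p X) (shadR p s)
      (cB p X) (cC p X) (scale p s * remR p s) X (hiQuot p s) L v u δ ≤ E)
    (hlo : qv (range 6).1 ≤ X) (hhi : X ≤ qv (range 6).2) : 0 ≤ E := by
  simp only [qv, range] at hlo hhi
  push_cast at hlo hhi
  obtain ⟨-, hA, -⟩ := oVar_mem h1 h2 S.s_mem (a := 183 / 500) S.X_eq
  obtain ⟨-, -, hB⟩ := oVar_mem h1 h2 S.s_mem (a := 215 / 500) S.X_eq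
  have ha := hA (by norm_num) (by norm_num) hlo
  have hb := hB (by norm_num) (by norm_num) hhi
  refine piece_nonneg h1 h2 (piece 6) (choice 6) (o := .var 0) (z := oVar p s) S hE
    (fun τ σ => eval_oo p _ _ _) ((switch_of_X h1 h2 S.s_mem S.X_eq).1 (by linarith)) hlo hhi (by linarith) ?_ ?_ ?_ ?_ ?_ ?_ ?_
  · norm_num [piece]
  · norm_num [piece]
  · intro j hj
    simp only [piece] at hj
    interval_cases j <;> norm_num [knotR, knot]
  · intro j hj hj'
    simp only [piece] at hj'
    interval_cases j <;> norm_num [knotR, knot]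
  · exact cover_one sideCert6 (inBox_pt h1 h2 ⟨by push_cast; linarith, by push_cast; linarith⟩
      (by norm_num) (by norm_num))
  · exact fun τ hτ σ hσ => cover_one posCert6 (inBox_pt h1 h2 ⟨by push_cast; linarith,
      by push_cast; linarith⟩ (by simpa using hτ) (by simpa using hσ))
  · exact Or.inl fun τ hτ σ hσ => cover_one negCert6 (inBox_pt h1 h2 ⟨by push_cast; linarith,
    by push_cast; linarith⟩ (by simpa using hτ) (by simpa using hσ))

/-- Piece 7. -/
theorem bulk7 (h1 : 18 ≤ p) (h2 : p ≤ 97) (S : St p L s X v u δ)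
    (hE : formLow (keptW p s) (slopeD p s) (kapS p s) (kapD p s) (cA p X) (shadR p s)
      (cB p X) (cC p X) (scale p s * remR p s) X (hiQuot p s) L v u δ ≤ E)
    (hlo : qv (range 7).1 ≤ X) (hhi : X ≤ qv (range 7).2) : 0 ≤ E := by
  simp only [qv, range] at hlo hhi
  push_cast at hlo hhi
  obtain ⟨-, hA, -⟩ := oVar_mem h1 h2 S.s_mem (a := 425 / 1000) S.X_eq
  obtain ⟨-, -, hB⟩ := oVar_mem h1 h2 S.s_mem (a := 474 / 1000) S.X_eq
  have ha := hA (by norm_num) (by norm_num) hlo
  have hb := hB (by norm_num) (by norm_num) hhi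
  refine piece_nonneg h1 h2 (piece 7) (choice 7) (o := .var 0) (z := oVar p s) S hE
    (fun τ σ => eval_oo p _ _ _) ((switch_of_X h1 h2 S.s_mem S.X_eq).1 (by linarith)) hlo hhi (by linarith) ?_ ?_ ?_ ?_ ?_ ?_ ?_
  · norm_num [piece]
  · norm_num [piece]
  · intro j hj
    simp only [piece] at hj
    interval_cases j <;> norm_num [knotR, knot]
  · intro j hj hj'
    simp only [piece] at hj'
    interval_cases j <;> norm_num [knotR, knot]
  · exact cover_one sideCert7 (inBox_pt h1 h2 ⟨by push_cast; linarith, by push_cast; linarith⟩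
      (by norm_num) (by norm_num))
  · exact fun τ hτ σ hσ => cover_one posCert7 (inBox_pt h1 h2 ⟨by push_cast; linarith,
      by push_cast; linarith⟩ (by simpa using hτ) (by simpa using hσ))
  · exact Or.inl fun τ hτ σ hσ => cover_one negCert7 (inBox_pt h1 h2 ⟨by push_cast; linarith,
    by push_cast; linarith⟩ (by simpa using hτ) (by simpa using hσ))

/-- Piece 8. -/
theorem bulk8 (h1 : 18 ≤ p) (h2 : p ≤ 97) (S : St p L s X v u δ)
    (hE : formLow (keptW p s) (slopeD p s) (kapS p s) (kapD p s) (cA p X) (shadR p s)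
      (cB p X) (cC p X) (scale p s * remR p s) X (hiQuot p s) L v u δ ≤ E)
    (hlo : qv (range 8).1 ≤ X) (hhi : X ≤ qv (range 8).2) : 0 ≤ E := by
  simp only [qv, range] at hlo hhi
  push_cast at hlo hhi
  obtain ⟨-, hA, -⟩ := oVar_mem h1 h2 S.s_mem (a := 469 / 1000) S.X_eq
  obtain ⟨-, -, hB⟩ := oVar_mem h1 h2 S.s_mem (a := 484 / 1000) S.X_eq
  have ha := hA (by norm_num) (by norm_num) hlo
  have hb := hB (by norm_num) (by norm_num) hhi
  refine piece_nonneg h1 h2 (piece 8) (choice 8) (o := .var 0) (z := oVar p s) S hE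
    (fun τ σ => eval_oo p _ _ _) ((switch_of_X h1 h2 S.s_mem S.X_eq).1 (by linarith)) hlo hhi (by linarith) ?_ ?_ ?_ ?_ ?_ ?_ ?_
  · norm_num [piece]
  · norm_num [piece]
  · intro j hj
    simp only [piece] at hj
    interval_cases j <;> norm_num [knotR, knot]
  · intro j hj hj'
    simp only [piece] at hj'
    interval_cases j <;> norm_num [knotR, knot]
  · exact cover_one sideCert8 (inBox_pt h1 h2 ⟨by push_cast; linarith, by push_cast; linarith⟩
      (by norm_num) (by norm_num))
  · exact fun τ hτ σ hσ => cover_one posCert8 (inBox_pt h1 h2 ⟨by push_cast; linarith,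
      by push_cast; linarith⟩ (by simpa using hτ) (by simpa using hσ))
  · exact Or.inl fun τ hτ σ hσ => cover_one negCert8 (inBox_pt h1 h2 ⟨by push_cast; linarith,
    by push_cast; linarith⟩ (by simpa using hτ) (by simpa using hσ))

/-- Piece 9. -/
theorem bulk9 (h1 : 18 ≤ p) (h2 : p ≤ 97) (S : St p L s X v u δ)
    (hE : formLow (keptW p s) (slopeD p s) (kapS p s) (kapD p s) (cA p X) (shadR p s)
      (cB p X) (cC p X) (scale p s * remR p s) X (hiQuot p s) L v u δ ≤ E)
    (hlo : qv (range 9).1 ≤ X) (hhi : X ≤ qv (range 9).2) (hd : Switch p false s) : 0 ≤ E := by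
  simp only [qv, range] at hlo hhi
  push_cast at hlo hhi
  obtain ⟨-, hA, -⟩ := oVar_mem h1 h2 S.s_mem (a := 239 / 500) S.X_eq
  obtain ⟨-, -, hB⟩ := oVar_mem h1 h2 S.s_mem (a := 252 / 500) S.X_eq
  have ha := hA (by norm_num) (by norm_num) hlo
  have hb := hB (by norm_num) (by norm_num) hhi
  obtain ⟨he0, he1⟩ := eps_mem h1 h2
  obtain ⟨hl, hh⟩ := etaP_mem h1 h2
  rw [← eps] at he0 he1 hl hh
  obtain ⟨-, hA', -⟩ := oVar_mem h1 h2 S.s_mem (a := 4787 / 10000) S.X_eq
  have ha' := hA' (by norm_num) (by norm_num) hlo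
  have hz : oVar p s ≤ etaP p := by
    simp [Switch] at hd
    rw [oVar, etaP]
    have := arc_pos (u := s) ⟨by linarith [S.s_mem.1], S.s_mem.2⟩
    gcongr
    exact Ident.b0_pos p
  refine piece_nonneg h1 h2 (piece 9) (choice 9) (o := etaH - .var 0)
    (z := 1 / 2 - 359 / 1000 * eps p - oVar p s) S hE (fun τ σ => ?_) hd hlo hhi (by linarith)
    ?_ ?_ ?_ ?_ ?_ ?_ ?_
  · simp [etaH, ee, pt]
  · norm_num [piece]
  · norm_num [piece]
  · intro j hj
    simp only [piece] at hj
    interval_cases j <;> norm_num [knotR, knot]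
  · intro j hj hj'
    simp only [piece] at hj'
    interval_cases j <;> norm_num [knotR, knot]
  · exact cover_one sideCert9 (inBox_pt h1 h2 ⟨by push_cast; linarith, by push_cast; linarith⟩
      (by norm_num) (by norm_num))
  · exact fun τ hτ σ hσ => cover_one posCert9 (inBox_pt h1 h2 ⟨by push_cast; linarith,
      by push_cast; linarith⟩ (by simpa using hτ) (by simpa using hσ))
  · exact Or.inl fun τ hτ σ hσ => cover_one negCert9 (inBox_pt h1 h2 ⟨by push_cast; linarith,
    by push_cast; linarith⟩ (by simpa using hτ) (by simpa using hσ))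

/-- Piece 10. -/
theorem bulk10 (h1 : 18 ≤ p) (h2 : p ≤ 97) (S : St p L s X v u δ)
    (hE : formLow (keptW p s) (slopeD p s) (kapS p s) (kapD p s) (cA p X) (shadR p s)
      (cB p X) (cC p X) (scale p s * remR p s) X (hiQuot p s) L v u δ ≤ E)
    (hlo : qv (range 10).1 ≤ X) (hhi : X ≤ qv (range 10).2) (hd : Switch p true s) : 0 ≤ E := by
  simp only [qv, range] at hlo hhi
  push_cast at hlo hhi
  obtain ⟨-, hA, -⟩ := oVar_mem h1 h2 S.s_mem (a := 239 / 500) S.X_eq
  obtain ⟨-, -, hB⟩ := oVar_mem h1 h2 S.s_mem (a := 252 / 500) S.X_eq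
  have ha := hA (by norm_num) (by norm_num) hlo
  have hb := hB (by norm_num) (by norm_num) hhi
  obtain ⟨he0, he1⟩ := eps_mem h1 h2
  obtain ⟨hl, hh⟩ := etaP_mem h1 h2
  rw [← eps] at he0 he1 hl hh
  have hz : etaP p ≤ oVar p s := by
    simp [Switch] at hd
    rw [oVar, etaP]
    have := arc_pos (u := s) ⟨by linarith [S.s_mem.1], S.s_mem.2⟩
    gcongr
  refine piece_nonneg h1 h2 (piece 10) (choice 10) (o := etaL + .var 0)
    (z := oVar p s - (1 / 2 - 375 / 1000 * eps p)) S hE (fun τ σ => ?_) hd hlo hhi (by linarith)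
    ?_ ?_ ?_ ?_ ?_ ?_ ?_
  · simp [etaL, ee, pt]
  · norm_num [piece]
  · norm_num [piece]
  · intro j hj
    simp only [piece] at hj
    interval_cases j <;> norm_num [knotR, knot]
  · intro j hj hj'
    simp only [piece] at hj'
    interval_cases j <;> norm_num [knotR, knot]
  · exact cover_one sideCert10 (inBox_pt h1 h2 ⟨by push_cast; linarith, by push_cast; linarith⟩
      (by norm_num) (by norm_num))
  · exact fun τ hτ σ hσ => cover_one posCert10 (inBox_pt h1 h2 ⟨by push_cast; linarith,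
      by push_cast; linarith⟩ (by simpa using hτ) (by simpa using hσ))
  · exact Or.inl fun τ hτ σ hσ => cover_one negCert10 (inBox_pt h1 h2 ⟨by push_cast; linarith,
    by push_cast; linarith⟩ (by simpa using hτ) (by simpa using hσ))

/-- Piece 11. -/
theorem bulk11 (h1 : 18 ≤ p) (h2 : p ≤ 97) (S : St p L s X v u δ)
    (hE : formLow (keptW p s) (slopeD p s) (kapS p s) (kapD p s) (cA p X) (shadR p s)
      (cB p X) (cC p X) (scale p s * remR p s) X (hiQuot p s) L v u δ ≤ E)
    (hlo : qv (range 11).1 ≤ X) (hhi : X ≤ qv (range 11).2) : 0 ≤ E := by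
  simp only [qv, range] at hlo hhi
  push_cast at hlo hhi
  obtain ⟨-, hA, -⟩ := oVar_mem h1 h2 S.s_mem (a := 498 / 1000) S.X_eq
  obtain ⟨-, -, hB⟩ := oVar_mem h1 h2 S.s_mem (a := 529 / 1000) S.X_eq
  have ha := hA (by norm_num) (by norm_num) hlo
  have hb := hB (by norm_num) (by norm_num) hhi
  refine piece_nonneg h1 h2 (piece 11) (choice 11) (o := .var 0) (z := oVar p s) S hE
    (fun τ σ => eval_oo p _ _ _) ((switch_of_X h1 h2 S.s_mem S.X_eq).2 (by linarith)) hlo hhi (by linarith) ?_ ?_ ?_ ?_ ?_ ?_ ?_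
  · norm_num [piece]
  · norm_num [piece]
  · intro j hj
    simp only [piece] at hj
    interval_cases j <;> norm_num [knotR, knot]
  · intro j hj hj'
    simp only [piece] at hj'
    interval_cases j <;> norm_num [knotR, knot]
  · exact cover_one sideCert11 (inBox_pt h1 h2 ⟨by push_cast; linarith, by push_cast; linarith⟩
      (by norm_num) (by norm_num))
  · exact fun τ hτ σ hσ => cover_one posCert11 (inBox_pt h1 h2 ⟨by push_cast; linarith,
      by push_cast; linarith⟩ (by simpa using hτ) (by simpa using hσ))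
  · exact Or.inl fun τ hτ σ hσ => cover_one negCert11 (inBox_pt h1 h2 ⟨by push_cast; linarith,
    by push_cast; linarith⟩ (by simpa using hτ) (by simpa using hσ))

/-- Piece 12. -/
theorem bulk12 (h1 : 18 ≤ p) (h2 : p ≤ 97) (S : St p L s X v u δ)
    (hE : formLow (keptW p s) (slopeD p s) (kapS p s) (kapD p s) (cA p X) (shadR p s)
      (cB p X) (cC p X) (scale p s * remR p s) X (hiQuot p s) L v u δ ≤ E)
    (hlo : qv (range 12).1 ≤ X) (hhi : X ≤ qv (range 12).2) : 0 ≤ E := by
  simp only [qv, range] at hlo hhi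
  push_cast at hlo hhi
  obtain ⟨-, hA, -⟩ := oVar_mem h1 h2 S.s_mem (a := 261 / 500) S.X_eq
  obtain ⟨-, -, hB⟩ := oVar_mem h1 h2 S.s_mem (a := 282 / 500) S.X_eq
  have ha := hA (by norm_num) (by norm_num) hlo
  have hb := hB (by norm_num) (by norm_num) hhi
  refine piece_nonneg h1 h2 (piece 12) (choice 12) (o := .var 0) (z := oVar p s) S hE
    (fun τ σ => eval_oo p _ _ _) ((switch_of_X h1 h2 S.s_mem S.X_eq).2 (by linarith)) hlo hhi (by linarith) ?_ ?_ ?_ ?_ ?_ ?_ ?_
  · norm_num [piece]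
  · norm_num [piece]
  · intro j hj
    simp only [piece] at hj
    interval_cases j <;> norm_num [knotR, knot]
  · intro j hj hj'
    simp only [piece] at hj'
    interval_cases j <;> norm_num [knotR, knot]
  · exact cover_one sideCert12 (inBox_pt h1 h2 ⟨by push_cast; linarith, by push_cast; linarith⟩
      (by norm_num) (by norm_num))
  · exact fun τ hτ σ hσ => cover_one posCert12 (inBox_pt h1 h2 ⟨by push_cast; linarith,
      by push_cast; linarith⟩ (by simpa using hτ) (by simpa using hσ))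
  · exact Or.inl fun τ hτ σ hσ => cover_one negCert12 (inBox_pt h1 h2 ⟨by push_cast; linarith,
    by push_cast; linarith⟩ (by simpa using hτ) (by simpa using hσ))

/-- Piece 13. -/
theorem bulk13 (h1 : 18 ≤ p) (h2 : p ≤ 97) (S : St p L s X v u δ)
    (hE : formLow (keptW p s) (slopeD p s) (kapS p s) (kapD p s) (cA p X) (shadR p s)
      (cB p X) (cC p X) (scale p s * remR p s) X (hiQuot p s) L v u δ ≤ E)
    (hlo : qv (range 13).1 ≤ X) (hhi : X ≤ qv (range 13).2) : 0 ≤ E := by
  simp only [qv, range] at hlo hhi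
  push_cast at hlo hhi
  obtain ⟨-, hA, -⟩ := oVar_mem h1 h2 S.s_mem (a := 556 / 1000) S.X_eq
  obtain ⟨-, -, hB⟩ := oVar_mem h1 h2 S.s_mem (a := 673 / 1000) S.X_eq
  have ha := hA (by norm_num) (by norm_num) hlo
  have hb := hB (by norm_num) (by norm_num) hhi
  refine piece_nonneg h1 h2 (piece 13) (choice 13) (o := .var 0) (z := oVar p s) S hE
    (fun τ σ => eval_oo p _ _ _) ((switch_of_X h1 h2 S.s_mem S.X_eq).2 (by linarith)) hlo hhi (by linarith) ?_ ?_ ?_ ?_ ?_ ?_ ?_
  · norm_num [piece]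
  · norm_num [piece]
  · intro j hj
    simp only [piece] at hj
    interval_cases j <;> norm_num [knotR, knot]
  · intro j hj hj'
    simp only [piece] at hj'
    interval_cases j <;> norm_num [knotR, knot]
  · exact cover_one sideCert13 (inBox_pt h1 h2 ⟨by push_cast; linarith, by push_cast; linarith⟩
      (by norm_num) (by norm_num))
  · exact fun τ hτ σ hσ => cover_one posCert13 (inBox_pt h1 h2 ⟨by push_cast; linarith,
      by push_cast; linarith⟩ (by simpa using hτ) (by simpa using hσ))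
  · exact Or.inl fun τ hτ σ hσ => cover_one negCert13 (inBox_pt h1 h2 ⟨by push_cast; linarith,
    by push_cast; linarith⟩ (by simpa using hτ) (by simpa using hσ))

/-- Piece 14. -/
theorem bulk14 (h1 : 18 ≤ p) (h2 : p ≤ 97) (S : St p L s X v u δ)
    (hE : formLow (keptW p s) (slopeD p s) (kapS p s) (kapD p s) (cA p X) (shadR p s)
      (cB p X) (cC p X) (scale p s * remR p s) X (hiQuot p s) L v u δ ≤ E)
    (hlo : qv (range 14).1 ≤ X) (hhi : X ≤ qv (range 14).2) : 0 ≤ E := by
  simp only [qv, range] at hlo hhi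
  push_cast at hlo hhi
  obtain ⟨-, hA, -⟩ := oVar_mem h1 h2 S.s_mem (a := 663 / 1000) S.X_eq
  obtain ⟨-, -, hB⟩ := oVar_mem h1 h2 S.s_mem (a := 797 / 1000) S.X_eq
  have ha := hA (by norm_num) (by norm_num) hlo
  have hb := hB (by norm_num) (by norm_num) hhi
  refine piece_nonneg h1 h2 (piece 14) (choice 14) (o := .var 0) (z := oVar p s) S hE
    (fun τ σ => eval_oo p _ _ _) ((switch_of_X h1 h2 S.s_mem S.X_eq).2 (by linarith)) hlo hhi (by linarith) ?_ ?_ ?_ ?_ ?_ ?_ ?_
  · norm_num [piece]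
  · norm_num [piece]
  · intro j hj
    simp only [piece] at hj
    interval_cases j <;> norm_num [knotR, knot]
  · intro j hj hj'
    simp only [piece] at hj'
    interval_cases j <;> norm_num [knotR, knot]
  · exact cover_one sideCert14 (inBox_pt h1 h2 ⟨by push_cast; linarith, by push_cast; linarith⟩
      (by norm_num) (by norm_num))
  · exact fun τ hτ σ hσ => cover_one posCert14 (inBox_pt h1 h2 ⟨by push_cast; linarith,
      by push_cast; linarith⟩ (by simpa using hτ) (by simpa using hσ))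
  · exact Or.inl fun τ hτ σ hσ => cover_one negCert14 (inBox_pt h1 h2 ⟨by push_cast; linarith,
    by push_cast; linarith⟩ (by simpa using hτ) (by simpa using hσ))

/-- Piece 15. -/
theorem bulk15 (h1 : 18 ≤ p) (h2 : p ≤ 97) (S : St p L s X v u δ)
    (hE : formLow (keptW p s) (slopeD p s) (kapS p s) (kapD p s) (cA p X) (shadR p s)
      (cB p X) (cC p X) (scale p s * remR p s) X (hiQuot p s) L v u δ ≤ E)
    (hlo : qv (range 15).1 ≤ X) (hhi : X ≤ qv (range 15).2) : 0 ≤ E := by
  simp only [qv, range] at hlo hhi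
  push_cast at hlo hhi
  obtain ⟨-, hA, -⟩ := oVar_mem h1 h2 S.s_mem (a := 783 / 1000) S.X_eq
  obtain ⟨-, -, hB⟩ := oVar_mem h1 h2 S.s_mem (a := 946 / 1000) S.X_eq
  have ha := hA (by norm_num) (by norm_num) hlo
  have hb := hB (by norm_num) (by norm_num) hhi
  refine piece_nonneg h1 h2 (piece 15) (choice 15) (o := .var 0) (z := oVar p s) S hE
    (fun τ σ => eval_oo p _ _ _) ((switch_of_X h1 h2 S.s_mem S.X_eq).2 (by linarith)) hlo hhi (by linarith) ?_ ?_ ?_ ?_ ?_ ?_ ?_
  · norm_num [piece]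
  · norm_num [piece]
  · intro j hj
    simp only [piece] at hj
    interval_cases j <;> norm_num [knotR, knot]
  · intro j hj hj'
    simp only [piece] at hj'
    interval_cases j <;> norm_num [knotR, knot]
  · exact cover_one sideCert15 (inBox_pt h1 h2 ⟨by push_cast; linarith, by push_cast; linarith⟩
      (by norm_num) (by norm_num))
  · exact fun τ hτ σ hσ => cover_one posCert15 (inBox_pt h1 h2 ⟨by push_cast; linarith,
      by push_cast; linarith⟩ (by simpa using hτ) (by simpa using hσ))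
  · exact Or.inl fun τ hτ σ hσ => cover_one negCert15 (inBox_pt h1 h2 ⟨by push_cast; linarith,
    by push_cast; linarith⟩ (by simpa using hτ) (by simpa using hσ))

/-- Piece 16. -/
theorem bulk16 (h1 : 18 ≤ p) (h2 : p ≤ 97) (S : St p L s X v u δ)
    (hE : formLow (keptW p s) (slopeD p s) (kapS p s) (kapD p s) (cA p X) (shadR p s)
      (cB p X) (cC p X) (scale p s * remR p s) X (hiQuot p s) L v u δ ≤ E)
    (hlo : qv (range 16).1 ≤ X) (hhi : X ≤ qv (range 16).2) : 0 ≤ E := by
  simp only [qv, range] at hlo hhi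
  push_cast at hlo hhi
  obtain ⟨-, hA, -⟩ := oVar_mem h1 h2 S.s_mem (a := 927 / 1000) S.X_eq
  obtain ⟨-, -, hB⟩ := oVar_mem h1 h2 S.s_mem (a := 1094 / 1000) S.X_eq
  have ha := hA (by norm_num) (by norm_num) hlo
  have hb := hB (by norm_num) (by norm_num) hhi
  refine piece_nonneg h1 h2 (piece 16) (choice 16) (o := .var 0) (z := oVar p s) S hE
    (fun τ σ => eval_oo p _ _ _) ((switch_of_X h1 h2 S.s_mem S.X_eq).2 (by linarith)) hlo hhi (by linarith) ?_ ?_ ?_ ?_ ?_ ?_ ?_
  · norm_num [piece]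
  · norm_num [piece]
  · intro j hj
    simp only [piece] at hj
    interval_cases j <;> norm_num [knotR, knot]
  · intro j hj hj'
    simp only [piece] at hj'
    interval_cases j <;> norm_num [knotR, knot]
  · exact cover_one sideCert16 (inBox_pt h1 h2 ⟨by push_cast; linarith, by push_cast; linarith⟩
      (by norm_num) (by norm_num))
  · exact fun τ hτ σ hσ => cover_one posCert16 (inBox_pt h1 h2 ⟨by push_cast; linarith,
      by push_cast; linarith⟩ (by simpa using hτ) (by simpa using hσ))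
  · exact Or.inl fun τ hτ σ hσ => cover_one negCert16 (inBox_pt h1 h2 ⟨by push_cast; linarith,
    by push_cast; linarith⟩ (by simpa using hτ) (by simpa using hσ))

/-- Piece 17. -/
theorem bulk17 (h1 : 18 ≤ p) (h2 : p ≤ 97) (S : St p L s X v u δ)
    (hE : formLow (keptW p s) (slopeD p s) (kapS p s) (kapD p s) (cA p X) (shadR p s)
      (cB p X) (cC p X) (scale p s * remR p s) X (hiQuot p s) L v u δ ≤ E)
    (hlo : qv (range 17).1 ≤ X) (hhi : X ≤ qv (range 17).2) : 0 ≤ E := by
  simp only [qv, range] at hlo hhi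
  push_cast at hlo hhi
  obtain ⟨-, hA, -⟩ := oVar_mem h1 h2 S.s_mem (a := 1069 / 1000) S.X_eq
  obtain ⟨-, -, hB⟩ := oVar_mem h1 h2 S.s_mem (a := 1243 / 1000) S.X_eq
  have ha := hA (by norm_num) (by norm_num) hlo
  have hb := hB (by norm_num) (by norm_num) hhi
  refine piece_nonneg h1 h2 (piece 17) (choice 17) (o := .var 0) (z := oVar p s) S hE
    (fun τ σ => eval_oo p _ _ _) ((switch_of_X h1 h2 S.s_mem S.X_eq).2 (by linarith)) hlo hhi (by linarith) ?_ ?_ ?_ ?_ ?_ ?_ ?_
  · norm_num [piece]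
  · norm_num [piece]
  · intro j hj
    simp only [piece] at hj
    interval_cases j <;> norm_num [knotR, knot]
  · intro j hj hj'
    simp only [piece] at hj'
    interval_cases j <;> norm_num [knotR, knot]
  · exact cover_one sideCert17 (inBox_pt h1 h2 ⟨by push_cast; linarith, by push_cast; linarith⟩
      (by norm_num) (by norm_num))
  · exact fun τ hτ σ hσ => cover_one posCert17 (inBox_pt h1 h2 ⟨by push_cast; linarith,
      by push_cast; linarith⟩ (by simpa using hτ) (by simpa using hσ))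
  · exact Or.inl fun τ hτ σ hσ => cover_one negCert17 (inBox_pt h1 h2 ⟨by push_cast; linarith,
    by push_cast; linarith⟩ (by simpa using hτ) (by simpa using hσ))

/-- Piece 18. -/
theorem bulk18 (h1 : 18 ≤ p) (h2 : p ≤ 97) (S : St p L s X v u δ)
    (hE : formLow (keptW p s) (slopeD p s) (kapS p s) (kapD p s) (cA p X) (shadR p s)
      (cB p X) (cC p X) (scale p s * remR p s) X (hiQuot p s) L v u δ ≤ E)
    (hlo : qv (range 18).1 ≤ X) (hhi : X ≤ qv (range 18).2) : 0 ≤ E := by
  simp only [qv, range] at hlo hhi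
  push_cast at hlo hhi
  obtain ⟨-, hA, -⟩ := oVar_mem h1 h2 S.s_mem (a := 1211 / 1000) S.X_eq
  obtain ⟨-, -, hB⟩ := oVar_mem h1 h2 S.s_mem (a := 1391 / 1000) S.X_eq
  have ha := hA (by norm_num) (by norm_num) hlo
  have hb := hB (by norm_num) (by norm_num) hhi
  refine piece_nonneg h1 h2 (piece 18) (choice 18) (o := .var 0) (z := oVar p s) S hE
    (fun τ σ => eval_oo p _ _ _) ((switch_of_X h1 h2 S.s_mem S.X_eq).2 (by linarith)) hlo hhi (by linarith) ?_ ?_ ?_ ?_ ?_ ?_ ?_
  · norm_num [piece]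
  · norm_num [piece]
  · intro j hj
    simp only [piece] at hj
    interval_cases j <;> norm_num [knotR, knot]
  · intro j hj hj'
    simp only [piece] at hj'
    interval_cases j <;> norm_num [knotR, knot]
  · exact cover_one sideCert18 (inBox_pt h1 h2 ⟨by push_cast; linarith, by push_cast; linarith⟩
      (by norm_num) (by norm_num))
  · exact fun τ hτ σ hσ => cover_one posCert18 (inBox_pt h1 h2 ⟨by push_cast; linarith,
      by push_cast; linarith⟩ (by simpa using hτ) (by simpa using hσ))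
  · exact Or.inl fun τ hτ σ hσ => cover_one negCert18 (inBox_pt h1 h2 ⟨by push_cast; linarith,
    by push_cast; linarith⟩ (by simpa using hτ) (by simpa using hσ))

/-- Piece 19. -/
theorem bulk19 (h1 : 18 ≤ p) (h2 : p ≤ 97) (S : St p L s X v u δ)
    (hE : formLow (keptW p s) (slopeD p s) (kapS p s) (kapD p s) (cA p X) (shadR p s)
      (cB p X) (cC p X) (scale p s * remR p s) X (hiQuot p s) L v u δ ≤ E)
    (hlo : qv (range 19).1 ≤ X) (hhi : X ≤ qv (range 19).2) : 0 ≤ E := by
  simp only [qv, range] at hlo hhi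
  push_cast at hlo hhi
  obtain ⟨-, hA, -⟩ := oVar_mem h1 h2 S.s_mem (a := 1351 / 1000) S.X_eq
  obtain ⟨-, -, hB⟩ := oVar_mem h1 h2 S.s_mem (a := 1538 / 1000) S.X_eq
  have ha := hA (by norm_num) (by norm_num) hlo
  have hb := hB (by norm_num) (by norm_num) hhi
  refine piece_nonneg h1 h2 (piece 19) (choice 19) (o := .var 0) (z := oVar p s) S hE
    (fun τ σ => eval_oo p _ _ _) ((switch_of_X h1 h2 S.s_mem S.X_eq).2 (by linarith)) hlo hhi (by linarith) ?_ ?_ ?_ ?_ ?_ ?_ ?_
  · norm_num [piece]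
  · norm_num [piece]
  · intro j hj
    simp only [piece] at hj
    interval_cases j <;> norm_num [knotR, knot]
  · intro j hj hj'
    simp only [piece] at hj'
    interval_cases j <;> norm_num [knotR, knot]
  · exact cover_one sideCert19 (inBox_pt h1 h2 ⟨by push_cast; linarith, by push_cast; linarith⟩
      (by norm_num) (by norm_num))
  · exact fun τ hτ σ hσ => cover_one posCert19 (inBox_pt h1 h2 ⟨by push_cast; linarith,
      by push_cast; linarith⟩ (by simpa using hτ) (by simpa using hσ))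
  · exact Or.inl fun τ hτ σ hσ => cover_one negCert19 (inBox_pt h1 h2 ⟨by push_cast; linarith,
    by push_cast; linarith⟩ (by simpa using hτ) (by simpa using hσ))

/-- Piece 20. -/
theorem bulk20 (h1 : 18 ≤ p) (h2 : p ≤ 97) (S : St p L s X v u δ)
    (hE : formLow (keptW p s) (slopeD p s) (kapS p s) (kapD p s) (cA p X) (shadR p s)
      (cB p X) (cC p X) (scale p s * remR p s) X (hiQuot p s) L v u δ ≤ E)
    (hlo : qv (range 20).1 ≤ X) (hhi : X ≤ qv (range 20).2) : 0 ≤ E := by
  simp only [qv, range] at hlo hhi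
  push_cast at hlo hhi
  obtain ⟨-, hA, -⟩ := oVar_mem h1 h2 S.s_mem (a := 1491 / 1000) S.X_eq
  obtain ⟨-, -, hB⟩ := oVar_mem h1 h2 S.s_mem (a := 1686 / 1000) S.X_eq
  have ha := hA (by norm_num) (by norm_num) hlo
  have hb := hB (by norm_num) (by norm_num) hhi
  refine piece_nonneg h1 h2 (piece 20) (choice 20) (o := .var 0) (z := oVar p s) S hE
    (fun τ σ => eval_oo p _ _ _) ((switch_of_X h1 h2 S.s_mem S.X_eq).2 (by linarith)) hlo hhi (by linarith) ?_ ?_ ?_ ?_ ?_ ?_ ?_
  · norm_num [piece]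
  · norm_num [piece]
  · intro j hj
    simp only [piece] at hj
    interval_cases j <;> norm_num [knotR, knot]
  · intro j hj hj'
    simp only [piece] at hj'
    interval_cases j <;> norm_num [knotR, knot]
  · exact cover_one sideCert20 (inBox_pt h1 h2 ⟨by push_cast; linarith, by push_cast; linarith⟩
      (by norm_num) (by norm_num))
  · exact fun τ hτ σ hσ => cover_one posCert20 (inBox_pt h1 h2 ⟨by push_cast; linarith,
      by push_cast; linarith⟩ (by simpa using hτ) (by simpa using hσ))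
  · exact Or.inl fun τ hτ σ hσ => cover_one negCert20 (inBox_pt h1 h2 ⟨by push_cast; linarith,
    by push_cast; linarith⟩ (by simpa using hτ) (by simpa using hσ))

/-- Piece 21. -/
theorem bulk21 (h1 : 18 ≤ p) (h2 : p ≤ 97) (S : St p L s X v u δ)
    (hE : formLow (keptW p s) (slopeD p s) (kapS p s) (kapD p s) (cA p X) (shadR p s)
      (cB p X) (cC p X) (scale p s * remR p s) X (hiQuot p s) L v u δ ≤ E)
    (hlo : qv (range 21).1 ≤ X) (hhi : X ≤ qv (range 21).2) : 0 ≤ E := by
  simp only [qv, range] at hlo hhi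
  push_cast at hlo hhi
  obtain ⟨-, hA, -⟩ := oVar_mem h1 h2 S.s_mem (a := 815 / 500) S.X_eq
  obtain ⟨-, -, hB⟩ := oVar_mem h1 h2 S.s_mem (a := 929 / 500) S.X_eq
  have ha := hA (by norm_num) (by norm_num) hlo
  have hb := hB (by norm_num) (by norm_num) hhi
  refine piece_nonneg h1 h2 (piece 21) (choice 21) (o := .var 0) (z := oVar p s) S hE
    (fun τ σ => eval_oo p _ _ _) ((switch_of_X h1 h2 S.s_mem S.X_eq).2 (by linarith)) hlo hhi (by linarith) ?_ ?_ ?_ ?_ ?_ ?_ ?_
  · norm_num [piece]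
  · norm_num [piece]
  · intro j hj
    simp only [piece] at hj
    interval_cases j <;> norm_num [knotR, knot]
  · intro j hj hj'
    simp only [piece] at hj'
    interval_cases j <;> norm_num [knotR, knot]
  · exact cover_one sideCert21 (inBox_pt h1 h2 ⟨by push_cast; linarith, by push_cast; linarith⟩
      (by norm_num) (by norm_num))
  · exact fun τ hτ σ hσ => cover_one posCert21 (inBox_pt h1 h2 ⟨by push_cast; linarith,
      by push_cast; linarith⟩ (by simpa using hτ) (by simpa using hσ))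
  · exact Or.inl fun τ hτ σ hσ => cover_one negCert21 (inBox_pt h1 h2 ⟨by push_cast; linarith,
    by push_cast; linarith⟩ (by simpa using hτ) (by simpa using hσ))

/-- Piece 22. -/
theorem bulk22 (h1 : 18 ≤ p) (h2 : p ≤ 97) (S : St p L s X v u δ)
    (hE : formLow (keptW p s) (slopeD p s) (kapS p s) (kapD p s) (cA p X) (shadR p s)
      (cB p X) (cC p X) (scale p s * remR p s) X (hiQuot p s) L v u δ ≤ E)
    (hlo : qv (range 22).1 ≤ X) (hhi : X ≤ qv (range 22).2) (hX : X < 81 / 20) : 0 ≤ E := by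
  simp only [qv, range] at hlo hhi
  push_cast at hlo hhi
  obtain ⟨-, hA, -⟩ := oVar_mem h1 h2 S.s_mem (a := 358 / 200) S.X_eq
  obtain ⟨-, -, hB⟩ := oVar_mem h1 h2 S.s_mem (a := 401 / 200) S.X_eq
  have ha := hA (by norm_num) (by norm_num) hlo
  have hb := hB (by norm_num) (by norm_num) hhi
  refine piece_nonneg h1 h2 (piece 22) (choice 22) (o := .var 0) (z := oVar p s) S hE
    (fun τ σ => eval_oo p _ _ _) ((switch_of_X h1 h2 S.s_mem S.X_eq).2 (by linarith)) hlo hhi hX ?_ ?_ ?_ ?_ ?_ ?_ ?_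
  · norm_num [piece]
  · norm_num [piece]
  · intro j hj
    simp only [piece] at hj
    interval_cases j <;> norm_num [knotR, knot]
  · intro j hj hj'
    simp only [piece] at hj'
    interval_cases j <;> norm_num [knotR, knot]
  · exact cover_one sideCert22 (inBox_pt h1 h2 ⟨by push_cast; linarith, by push_cast; linarith⟩
      (by norm_num) (by norm_num))
  · exact fun τ hτ σ hσ => cover_one posCert22 (inBox_pt h1 h2 ⟨by push_cast; linarith,
      by push_cast; linarith⟩ (by simpa using hτ) (by simpa using hσ))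
  · exact Or.inl fun τ hτ σ hσ => cover_one negCert22 (inBox_pt h1 h2 ⟨by push_cast; linarith,
    by push_cast; linarith⟩ (by simpa using hτ) (by simpa using hσ))

/-- The cell below `X = 81 / 20`. -/
theorem bulk_nonneg (h1 : 18 ≤ p) (h2 : p ≤ 97) (S : St p L s X v u δ)
    (hE : formLow (keptW p s) (slopeD p s) (kapS p s) (kapD p s) (cA p X) (shadR p s)
      (cB p X) (cC p X) (scale p s * remR p s) X (hiQuot p s) L v u δ ≤ E)
    (hX : X < 81 / 20) : 0 ≤ E := by
  have h0 := S.X_pos
  rcases le_total X (1 / 25) with c0 | c0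
  · exact bulk0 h1 h2 S hE (by norm_num [qv, range]; linarith) (by norm_num [qv, range]; linarith)
  rcases le_total X (7 / 50) with c1 | c1
  · exact bulk1 h1 h2 S hE (by norm_num [qv, range]; linarith) (by norm_num [qv, range]; linarith)
  rcases le_total X (7 / 25) with c2 | c2
  · exact bulk2 h1 h2 S hE (by norm_num [qv, range]; linarith) (by norm_num [qv, range]; linarith)
  rcases le_total X (23 / 50) with c3 | c3
  · exact bulk3 h1 h2 S hE (by norm_num [qv, range]; linarith) (by norm_num [qv, range]; linarith)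
  rcases le_total X (31 / 50) with c4 | c4
  · exact bulk4 h1 h2 S hE (by norm_num [qv, range]; linarith) (by norm_num [qv, range]; linarith)
  rcases le_total X (37 / 50) with c5 | c5
  · exact bulk5 h1 h2 S hE (by norm_num [qv, range]; linarith) (by norm_num [qv, range]; linarith)
  rcases le_total X (43 / 50) with c6 | c6
  · exact bulk6 h1 h2 S hE (by norm_num [qv, range]; linarith) (by norm_num [qv, range]; linarith)
  rcases le_total X (19 / 20) with c7 | c7
  · exact bulk7 h1 h2 S hE (by norm_num [qv, range]; linarith) (by norm_num [qv, range]; linarith)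
  rcases le_total X (97 / 100) with c8 | c8
  · exact bulk8 h1 h2 S hE (by norm_num [qv, range]; linarith) (by norm_num [qv, range]; linarith)
  rcases le_total X (101 / 100) with c10 | c10
  · rcases le_total (oVar p s) (etaP p) with c | c
    · exact bulk9 h1 h2 S hE (by norm_num [qv, range]; linarith) (by norm_num [qv, range]; linarith)
        ((switch_iff p S.s_mem).1 c)
    · exact bulk10 h1 h2 S hE (by norm_num [qv, range]; linarith)
        (by norm_num [qv, range]; linarith) ((switch_iff p S.s_mem).2 c)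
  rcases le_total X (53 / 50) with c11 | c11
  · exact bulk11 h1 h2 S hE (by norm_num [qv, range]; linarith) (by norm_num [qv, range]; linarith)
  rcases le_total X (113 / 100) with c12 | c12
  · exact bulk12 h1 h2 S hE (by norm_num [qv, range]; linarith) (by norm_num [qv, range]; linarith)
  rcases le_total X (27 / 20) with c13 | c13
  · exact bulk13 h1 h2 S hE (by norm_num [qv, range]; linarith) (by norm_num [qv, range]; linarith)
  rcases le_total X (8 / 5) with c14 | c14
  · exact bulk14 h1 h2 S hE (by norm_num [qv, range]; linarith) (by norm_num [qv, range]; linarith)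
  rcases le_total X (19 / 10) with c15 | c15
  · exact bulk15 h1 h2 S hE (by norm_num [qv, range]; linarith) (by norm_num [qv, range]; linarith)
  rcases le_total X (11 / 5) with c16 | c16
  · exact bulk16 h1 h2 S hE (by norm_num [qv, range]; linarith) (by norm_num [qv, range]; linarith)
  rcases le_total X (5 / 2) with c17 | c17
  · exact bulk17 h1 h2 S hE (by norm_num [qv, range]; linarith) (by norm_num [qv, range]; linarith)
  rcases le_total X (14 / 5) with c18 | c18
  · exact bulk18 h1 h2 S hE (by norm_num [qv, range]; linarith) (by norm_num [qv, range]; linarith)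
  rcases le_total X (31 / 10) with c19 | c19
  · exact bulk19 h1 h2 S hE (by norm_num [qv, range]; linarith) (by norm_num [qv, range]; linarith)
  rcases le_total X (17 / 5) with c20 | c20
  · exact bulk20 h1 h2 S hE (by norm_num [qv, range]; linarith) (by norm_num [qv, range]; linarith)
  rcases le_total X (15 / 4) with c21 | c21
  · exact bulk21 h1 h2 S hE (by norm_num [qv, range]; linarith) (by norm_num [qv, range]; linarith)
  exact bulk22 h1 h2 S hE (by norm_num [qv, range]; linarith) (by norm_num [qv, range]; linarith) hX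

end Vale.Agent.P237.Petty.Cor.TinyMid
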