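import Vale.Agent.P237.Petty.Cor.Few.Mask

/-!
# P237: covers of a box by conjunctions of polynomial inequalities

A tree of bisections whose leaves name one of several conjunctions; on each leaf all its
polynomials have nonnegative coefficients.
-/

namespace Vale.Agent.P237.Petty.Cor.TinyMid

open Vale.Agent.P100.Bernstein
open Few (quickCert certify_of_quick)

/-- A tree of bisections with a choice at each leaf. -/
inductive Pick where
  /-- the index of a conjunction -/
  | leaf (i : ℕ)
  /-- a bisection of the given variable -/
  | split (i : ℕ) (l r : Pick)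

/-- The test of a cover. -/
def coverTree (P : List (List Expr)) : List Iv → Pick → Bool
  | B, .leaf i => decide (i < P.length) && (P.getD i []).all fun e => quickCert e B .leaf
  | B, .split i l r => coverTree P (halves i B).1 l && coverTree P (halves i B).2 r

/-- On a covered box one of the conjunctions holds. -/
theorem exists_of_coverTree {P : List (List Expr)} {x : List ℝ} : ∀ (T : Pick) (B : List Iv),
    coverTree P B T = true → InBox B x → ∃ p ∈ P, ∀ e ∈ p, 0 ≤ e.eval x
  | .leaf i, B, h, hx => by
    simp only [coverTree, Bool.and_eq_true, decide_eq_true_eq, List.all_eq_true] at h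
    refine ⟨P.getD i [], ?_, fun e he => nonneg_of_certify (certify_of_quick (h.2 e he)) hx⟩
    rw [List.getD_eq_getElem?_getD, List.getElem?_eq_getElem h.1, Option.getD_some]
    exact List.getElem_mem h.1
  | .split i l r, B, h, hx => by
    simp only [coverTree, Bool.and_eq_true] at h
    exact (inBox_halves i B x hx).elim (exists_of_coverTree l _ h.1) (exists_of_coverTree r _ h.2)

/-- A product with a power. -/
def pad (den a : Expr) : ℕ → Expr
  | 0 => a
  | k + 1 => a * den ^ (k + 1)

theorem eval_pad (den a : Expr) (x : List ℝ) :
    ∀ k, (pad den a k).eval x = a.eval x * den.eval x ^ k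
  | 0 => by simp [pad]
  | k + 1 => by simp [pad]

/-- The substitution of `num / den` for the first variable, without denominators. -/
def homog (num den : Expr) : Expr → Expr × ℕ
  | .num c => (.num c, 0)
  | .frac c d => (.frac c d, 0)
  | .var 0 => (num, 1)
  | .var (i + 1) => (.var (i + 1), 0)
  | .neg a => (.neg (homog num den a).1, (homog num den a).2)
  | .pow a k => (.pow (homog num den a).1 k, (homog num den a).2 * k)
  | .mul a b =>
    (.mul (homog num den a).1 (homog num den b).1, (homog num den a).2 + (homog num den b).2)
  | .add a b =>
    (.add (pad den (homog num den a).1 ((homog num den b).2 - (homog num den a).2))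
      (pad den (homog num den b).1 ((homog num den a).2 - (homog num den b).2)),
      max (homog num den a).2 (homog num den b).2)
  | .sub a b =>
    (.sub (pad den (homog num den a).1 ((homog num den b).2 - (homog num den a).2))
      (pad den (homog num den b).1 ((homog num den a).2 - (homog num den b).2)),
      max (homog num den a).2 (homog num den b).2)

theorem eval_homog {num den : Expr} {x y : List ℝ}
    (h0 : num.eval x = den.eval x * y.getD 0 0)
    (h1 : ∀ i, x.getD (i + 1) 0 = y.getD (i + 1) 0) :
    ∀ e : Expr, (homog num den e).1.eval x = den.eval x ^ (homog num den e).2 * e.eval y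
  | .num c => by simp [homog, Expr.eval]
  | .frac c d => by simp [homog, Expr.eval]
  | .var 0 => by simpa [homog, Expr.eval] using h0
  | .var (i + 1) => by simpa [homog, Expr.eval] using h1 i
  | .neg a => by simp [homog, Expr.eval, eval_homog h0 h1 a]
  | .pow a k => by simp [homog, Expr.eval, eval_homog h0 h1 a, mul_pow, ← pow_mul]
  | .mul a b => by
    simp only [homog, Expr.eval, eval_homog h0 h1 a, eval_homog h0 h1 b, pow_add]
    ring
  | .add a b => by
    simp only [homog, Expr.eval, eval_pad, eval_homog h0 h1 a, eval_homog h0 h1 b]
    rcases le_total (homog num den a).2 (homog num den b).2 with h | h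
    · rw [max_eq_right h, Nat.sub_eq_zero_of_le h, mul_right_comm, ← pow_add,
        Nat.add_sub_cancel' h]
      ring
    · rw [max_eq_left h, Nat.sub_eq_zero_of_le h, mul_right_comm _ (b.eval y), ← pow_add,
        Nat.add_sub_cancel' h]
      ring
  | .sub a b => by
    simp only [homog, Expr.eval, eval_pad, eval_homog h0 h1 a, eval_homog h0 h1 b]
    rcases le_total (homog num den a).2 (homog num den b).2 with h | h
    · rw [max_eq_right h, Nat.sub_eq_zero_of_le h, mul_right_comm, ← pow_add,
        Nat.add_sub_cancel' h]
      ring
    · rw [max_eq_left h, Nat.sub_eq_zero_of_le h, mul_right_comm _ (b.eval y), ← pow_add,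
        Nat.add_sub_cancel' h]
      ring

theorem nonneg_of_homog {num den : Expr} {x y : List ℝ}
    (h0 : num.eval x = den.eval x * y.getD 0 0)
    (h1 : ∀ i, x.getD (i + 1) 0 = y.getD (i + 1) 0) (hd : 0 < den.eval x) {e : Expr}
    (h : 0 ≤ (homog num den e).1.eval x) : 0 ≤ e.eval y := by
  rw [eval_homog h0 h1] at h
  exact (mul_nonneg_iff_of_pos_left (pow_pos hd _)).1 h

end Vale.Agent.P237.Petty.Cor.TinyMid
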