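import Vale.Agent.P237.Petty.Cor.TinyMid.Exprs
import Vale.Agent.P237.Petty.Cor.TinyMid.Cover

/-!
# P237: the conjunctions of a piece below `X = 81 / 20`
-/

namespace Vale.Agent.P237.Petty.Cor.TinyMid

open Vale.Agent.P100.Bernstein

/-- The choices of a piece. -/
structure Choice where
  /-- linear bound, negative side -/
  linN : Bool
  /-- linear bound, positive side -/
  linP : Bool
  /-- the potential of the value as multiplier, negative side -/
  kM : Bool
  /-- the share of the cut is nonnegative, negative side -/
  posM : Bool
  /-- the potential of the value as multiplier, positive side -/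
  kP : Bool
  /-- the share of the cut is nonnegative, positive side -/
  posP : Bool
  /-- a vanishing margin at the right end -/
  edge : Bool

/-- The margin of the coefficient of the square below one. -/
def margin (edge : Bool) (o : Expr) : Expr :=
  match edge with
  | false => .frac 1 1000
  | true => .frac 1 50 * (.frac 81 20 - xX o) * xS0 o

variable (P : Piece) (o : Expr) (C : Choice)

/-- The checks of the negative side. -/
def negList : List Expr :=
  [xA1 o - margin C.edge o, xVh P.t o - lamE P o C.kM] ++
    (if C.linN then [-(nL P o), nC0 P o] else [nDisc P o]) ++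
    (if C.posM then [lowShare P o, lF P o C.kM true] else [lF P o C.kM true, lF P o C.kM false])

/-- The checks of the positive side. -/
def posList : List Expr :=
  [xA1 o - margin C.edge o, xVh P.t o - lamE P o C.kP] ++
    (if C.linP then [-(pL P o), pC0 P o] else [pDisc P o]) ++
    (if C.posP then [highShare P o, hF P o C.kP true] else [hF P o C.kP true, hF P o C.kP false])

/-- The determinant of the quadratic part at small abscissae. -/
def detS : Expr := xA1 o * xB o - xC o * xC o

/-- The coefficient of the square in `d` less the cut, at small abscissae. -/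
def xB1 : Expr := xB o - xV P.t o * (xX o * .frac 1 2 + ee * (xX o * xX o))

/-- The checks of the negative side at small abscissae. -/
def smallList : List Expr :=
  [xA1 o - .frac 1 1000, detS o - .frac 1 1000, xVh P.t o - xK P.h o,
    4 * detS o * (xVh P.t o + xP P.i o) -
      xA1 o * (((xVh P.t o - xK P.h o) * xX o + (xKd P.h o + xK P.h o * xX o)) *
        ((xVh P.t o - xK P.h o) * xX o + (xKd P.h o + xK P.h o * xX o))),
    lowShare P o, xK P.h o + xP P.i o, xB1 P o - .frac 1 1000,
    4 * xB1 P o * (xK P.h o + xP P.i o) -
      (xKd P.h o + xK P.h o * xX o) * (xKd P.h o + xK P.h o * xX o)]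

/-- The series of the mass below. -/
def serE (X : Expr) : Expr :=
  1 + X * (.frac 1 3 + X * (.frac 1 15 + X * (.frac 1 105 + X * (.frac 1 945 + X * (.frac 1 10395 +
    X * (.frac 1 135135 + X * (.frac 1 2027025 + X * (.frac 1 34459425 + X * (.frac 1 654729075 +
      X * .frac 1 5237832600)))))))))

/-- The largest displacement in a piece. -/
def dTop : Expr := ee * .frac 1 4 * xH1 P o

/-- The bound of the mass below, the bound of the root and the condition of the cut. -/
def sideList : List Expr :=
  [xH P o - (1 + ee * .frac 1 8 + ee ^ 2 * .frac 1 16) * serE (xX o),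
    .frac ((P.rn : ℤ) ^ 2 - (P.rd : ℤ) ^ 2) (P.rd ^ 2) * 4 * (1 + ee) -
      xE1 * ee * (1 + xXp o * xH1 P o),
    .frac 9 8 * (1 - ee * xX o * dTop P o * (2 + dTop P o)) -
      (1 + dTop P o * .frac 1 2) * (1 + dTop P o * .frac 1 2)]

/-- The series against the chord of a band. -/
def bandSer (a b lo : ℤ × ℕ) : Expr := cst a + cst b * (.var 0 - cst lo) - serE (.var 0)

end Vale.Agent.P237.Petty.Cor.TinyMid
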