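import Vale.Agent.P237.Petty.Cor.TinyMid.Algebra

/-!
# P237: the cases below `X = 81 / 20`, on real numbers

`V = vh top` is the weight, `D` its slope, `R` the shadow, `W` the coefficient of the second order
of the cut, `q` the pinned box and `Xp` the slope of the tail chord.
-/

namespace Vale.Agent.P237.Petty.Cor.TinyMid

variable {L top V vh D k kd A R B C P X q e1 hq v u δ E W : ℝ}

/-- The common lower bound of the excess. -/
noncomputable def formLow (V D k kd A R B C P X hq L v u δ : ℝ) : ℝ :=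
  V * (L - u + X * δ) + D * (δ + L * hq) + L * (k * u + kd * δ) +
    (A - R * ((2 * v + 1) / (2 * (v + 2)))) * (u ^ 2 / v) + B * δ ^ 2 - 2 * C * (u * δ) + L ^ 2 * P

/-- Below one on the pinned side. -/
theorem case_low_neg (hE : formLow V D k kd A R B C P X hq L v u δ ≤ E) (hV : vh * top = V)
    (hvh : 0 ≤ vh) (hL : 0 ≤ L) (hLt : L ≤ top) (hD : 0 ≤ D) (hR : 0 ≤ R) (hv : v = 1 + u)
    (hv0 : 0 < v) (hu : u ≤ 0) (hsl : -(L ^ 2 * (63 / 125) * q) ≤ δ + L * hq) {d : ℝ}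
    (hd : δ = d * L) (hX : 0 ≤ 1 + X * d) (hA : 0 ≤ A - R * (1 / 2))
    (hc : (k - vh - 2 * C * d ≤ 0 ∧ 0 ≤ vh * (1 + X * d) + kd * d - 63 / 125 * D * q + B * d ^ 2 + P)
      ∨ (0 < A - R * (1 / 2) ∧ (k - vh - 2 * C * d) ^ 2 ≤ 4 * (A - R * (1 / 2)) *
        (vh * (1 + X * d) + kd * d - 63 / 125 * D * q + B * d ^ 2 + P))) : 0 ≤ E := by
  have h := quad_low hL hu (c := vh * (1 + X * d) + kd * d - 63 / 125 * D * q + B * d ^ 2 + P)
    (l := k - vh - 2 * C * d) (a := A - R * (1 / 2))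
    (hc.imp (fun h => ⟨h.1, h.2, hA⟩) id)
  have h1 := weight_ge hV hvh hLt (Z := L - u + X * δ) (by
    rw [hd]; linear_combination mul_nonneg hL hX + hu)
  have h2 := mul_le_mul_of_nonneg_left hsl hD
  have hp : (2 * v + 1) / (2 * (v + 2)) ≤ 1 / 2 := by
    rw [div_le_iff₀ (by linarith)]; linarith
  have hq2 : u ^ 2 ≤ u ^ 2 / v := le_div_self (sq_nonneg u) hv0 (by linarith)
  have h3 := mul_le_mul_of_nonneg_left hq2 hA
  have h4 := mul_le_mul_of_nonneg_right (mul_le_mul_of_nonneg_left hp hR)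
    (show 0 ≤ u ^ 2 / v by positivity)
  rw [formLow] at hE
  subst hd
  linear_combination hE + h + h1 + h2 + h3 + h4

/-- Above one on the pinned side. -/
theorem case_high_neg (hE : formLow V D k kd A R B C P X hq L v u δ ≤ E) (hV : vh * top = V)
    (hL : 0 ≤ L) (hLt : L ≤ top) (hD : 0 ≤ D) (hRV : 0 ≤ R + V) (hv : v = 1 + u)
    (hu : 0 ≤ u) (hvm : v ≤ 51 / 50) (hv1 : (2 * v + 1) / (2 * (v + 2)) ≤ 503 / 1000)
    (hsl : -(L ^ 2 * (63 / 125) * q) ≤ δ + L * hq) {lam : ℝ} (hl0 : 0 ≤ lam) (hl1 : lam ≤ vh)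
    (hW : 0 ≤ W)
    (hcut : (v - 1) - (2 * v + 1) / (2 * (v + 2)) * ((v - 1) ^ 2 / v) ≤ L + X * δ + W * δ ^ 2)
    {d w : ℝ} (hd : δ = d * L) (hw : u = w * L)
    (hc : 0 ≤ lam * (1 + X * d) + kd * d - 63 / 125 * D * q + (B - V * W) * d ^ 2 + P +
      (k - lam - 2 * C * d) * w + (A - (R + V) * (503 / 1000)) * w ^ 2 * (50 / 51))
    (hs : 0 ≤ A - (R + V) * (503 / 1000) ∨
      0 ≤ lam * (1 + X * d) + kd * d - 63 / 125 * D * q + (B - V * W) * d ^ 2 + P +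
        (k - lam - 2 * C * d) * w + (A - (R + V) * (503 / 1000)) * w ^ 2) : 0 ≤ E := by
  have hv0 : 0 < v := by linarith
  have h0 : 0 ≤ (2 * v + 1) / (2 * (v + 2)) * (u ^ 2 / v) + W * δ ^ 2 := by positivity
  have h1 := cut_weight hV hL hLt hl0 hl1 h0 (Z := L - u + X * δ) (by
    rw [show v - 1 = u by linarith] at hcut; linarith)
  have h2 := mul_le_mul_of_nonneg_left hsl hD
  have h3 := aff_mid (k0 := (50 / 51 : ℝ)) (k := 1 / v)
    (c := lam * (1 + X * d) + kd * d - 63 / 125 * D * q + (B - V * W) * d ^ 2 + P +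
      (k - lam - 2 * C * d) * w) (a := (A - (R + V) * (503 / 1000)) * w ^ 2)
    (by rw [div_le_div_iff₀ (by norm_num) hv0]; linarith)
    (by rw [div_le_one hv0]; linarith) hc
    (hs.imp (fun h => mul_nonneg h (sq_nonneg w)) id)
  have h4 := mul_le_mul_of_nonneg_right hv1
    (mul_nonneg hRV (show 0 ≤ u ^ 2 / v by positivity))
  rw [formLow] at hE
  subst hd hw
  rw [show (w * L) ^ 2 / v = L ^ 2 * w ^ 2 * (1 / v) by ring] at hE h1 h4
  linear_combination hE + h1 + h2 + mul_nonneg (sq_nonneg L) h3 + h4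

/-- Below one on the side of the chord, times the slope of the tail chord. -/
theorem case_low_pos (hE : formLow V D k kd A R B C P X hq L v u δ ≤ E) (hV : vh * top = V)
    (hvh : 0 ≤ vh) (hL : 0 ≤ L) (hLt : L ≤ top) (hR : 0 ≤ R) (hv : v = 1 + u)
    (hv0 : 0 < v) (hu : u ≤ 0) {Dh Xp : ℝ} (hDh : Dh * top = D) (hD0 : 0 ≤ Dh) (hXp : 0 < Xp)
    (hq0 : 1 / Xp ≤ hq) {d : ℝ} (hd : δ = d * L) (hd0 : 0 ≤ δ) (hX : 0 ≤ X)
    (hA : 0 ≤ A - R * (1 / 2))
    (hc : (k - vh - 2 * C * d ≤ 0 ∧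
        0 ≤ (vh * (1 + X * d) + kd * d + B * d ^ 2 + P) * Xp + Dh * (d * Xp + 1))
      ∨ (0 < A - R * (1 / 2) ∧ (k - vh - 2 * C * d) ^ 2 * Xp ≤ 4 * (A - R * (1 / 2)) *
        ((vh * (1 + X * d) + kd * d + B * d ^ 2 + P) * Xp + Dh * (d * Xp + 1)))) : 0 ≤ E := by
  have h := quad_low hL hu
    (c := (vh * (1 + X * d) + kd * d + B * d ^ 2 + P) * Xp + Dh * (d * Xp + 1))
    (l := (k - vh - 2 * C * d) * Xp) (a := (A - R * (1 / 2)) * Xp)
    (hc.imp (fun h => ⟨mul_nonpos_of_nonpos_of_nonneg h.1 hXp.le, h.2, mul_nonneg hA hXp.le⟩)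
      fun h => ⟨mul_pos h.1 hXp, by linear_combination mul_le_mul_of_nonneg_right h.2 hXp.le⟩)
  have h1 := weight_ge hV hvh hLt (Z := L - u + X * δ) (by
    linear_combination hu + mul_nonneg hX hd0 + hL)
  have h1' := mul_le_mul_of_nonneg_right h1 hXp.le
  have h2 : L * Dh * (δ * Xp + L) ≤ D * (δ + L * hq) * Xp := by
    refine le_trans ?_ (le_of_eq_of_le rfl (mul_le_mul_of_nonneg_right
      (mul_le_mul_of_nonneg_left (show δ + L * (1 / Xp) ≤ δ + L * hq by gcongr)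
        (hDh ▸ mul_nonneg hD0 (hL.trans hLt))) hXp.le))
    rw [← hDh, show Dh * top * (δ + L * (1 / Xp)) * Xp = top * Dh * (δ * Xp + L) by field_simp]
    gcongr
  have hp : (2 * v + 1) / (2 * (v + 2)) ≤ 1 / 2 := by
    rw [div_le_iff₀ (by linarith)]; linarith
  have hq2 : u ^ 2 ≤ u ^ 2 / v := le_div_self (sq_nonneg u) hv0 (by linarith)
  have h3 := mul_le_mul_of_nonneg_left hq2 (mul_nonneg hA hXp.le)
  have h4 := mul_le_mul_of_nonneg_right (mul_le_mul_of_nonneg_left hp (mul_nonneg hR hXp.le))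
    (show 0 ≤ u ^ 2 / v by positivity)
  rw [formLow] at hE
  refine nonneg_of_mul_nonneg_left (b := Xp) ?_ hXp
  have hE' := mul_le_mul_of_nonneg_right hE hXp.le
  subst hd
  linear_combination hE' + h + h1' + h2 + h3 + h4

/-- Above one on the side of the chord, times the slope of the tail chord. -/
theorem case_high_pos (hE : formLow V D k kd A R B C P X hq L v u δ ≤ E) (hV : vh * top = V)
    (hL : 0 ≤ L) (hLt : L ≤ top) (hRV : 0 ≤ R + V) (hv : v = 1 + u)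
    (hu : 0 ≤ u) {Vm s1 : ℝ} (hvm : v ≤ Vm) (hv1 : (2 * v + 1) / (2 * (v + 2)) ≤ s1)
    {Dh Xp : ℝ} (hDh : Dh * top = D) (hD0 : 0 ≤ Dh) (hXp : 0 < Xp) (hq0 : 1 / Xp ≤ hq)
    {lam : ℝ} (hl0 : 0 ≤ lam) (hl1 : lam ≤ vh) (hW : 0 ≤ W)
    (hcut : (v - 1) - (2 * v + 1) / (2 * (v + 2)) * ((v - 1) ^ 2 / v) ≤ L + X * δ + W * δ ^ 2)
    {d w : ℝ} (hd : δ = d * L) (hd0 : 0 ≤ δ) (hw : u = w * L)
    (hc : 0 ≤ (lam * (1 + X * d) + kd * d + (B - V * W) * d ^ 2 + P) * Xp + Dh * (d * Xp + 1) +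
      (k - lam - 2 * C * d) * Xp * w + (A - (R + V) * s1) * w ^ 2 * Xp * (1 / Vm))
    (hs : 0 ≤ A - (R + V) * s1 ∨
      0 ≤ (lam * (1 + X * d) + kd * d + (B - V * W) * d ^ 2 + P) * Xp + Dh * (d * Xp + 1) +
        (k - lam - 2 * C * d) * Xp * w + (A - (R + V) * s1) * w ^ 2 * Xp) : 0 ≤ E := by
  have hv0 : 0 < v := by linarith
  have h0 : 0 ≤ (2 * v + 1) / (2 * (v + 2)) * (u ^ 2 / v) + W * δ ^ 2 := by positivity
  have h1 := mul_le_mul_of_nonneg_right (cut_weight hV hL hLt hl0 hl1 h0 (Z := L - u + X * δ) (by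
    rw [show v - 1 = u by linarith] at hcut; linarith)) hXp.le
  have h2 : L * Dh * (δ * Xp + L) ≤ D * (δ + L * hq) * Xp := by
    refine le_trans ?_ (mul_le_mul_of_nonneg_right
      (mul_le_mul_of_nonneg_left (show δ + L * (1 / Xp) ≤ δ + L * hq by gcongr)
        (hDh ▸ mul_nonneg hD0 (hL.trans hLt))) hXp.le)
    rw [← hDh, show Dh * top * (δ + L * (1 / Xp)) * Xp = top * Dh * (δ * Xp + L) by field_simp]
    gcongr
  have h3 := aff_mid (k0 := 1 / Vm) (k := 1 / v)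
    (c := (lam * (1 + X * d) + kd * d + (B - V * W) * d ^ 2 + P) * Xp + Dh * (d * Xp + 1) +
      (k - lam - 2 * C * d) * Xp * w) (a := (A - (R + V) * s1) * w ^ 2 * Xp)
    (one_div_le_one_div_of_le hv0 hvm)
    (by rw [div_le_one hv0]; linarith) hc
    (hs.imp (fun h => mul_nonneg (mul_nonneg h (sq_nonneg w)) hXp.le) id)
  have h4 := mul_le_mul_of_nonneg_right hv1
    (mul_nonneg (mul_nonneg hRV hXp.le) (show 0 ≤ u ^ 2 / v by positivity))
  rw [formLow] at hE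
  refine nonneg_of_mul_nonneg_left (b := Xp) ?_ hXp
  have hE' := mul_le_mul_of_nonneg_right hE hXp.le
  subst hd hw
  rw [show (w * L) ^ 2 / v = L ^ 2 * w ^ 2 * (1 / v) by ring] at hE' h1 h4
  linear_combination hE' + h1 + h2 + mul_nonneg (sq_nonneg L) h3 + h4

/-- Small abscissae, below one on the pinned side. -/
theorem case_small_low (hE : formLow V 0 k kd A R B C P X hq L v u δ ≤ E) (hV : vh * top = V)
    (hvh : 0 ≤ vh) (hL : 0 ≤ L) (hLt : L ≤ top) (hR : 0 ≤ R) (hv : v = 1 + u) (hv0 : 0 < v)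
    (hu : u ≤ 0) (hZ : 0 ≤ L + X * δ) (hkl : k ≤ vh) (hA : 0 < A - R * (1 / 2))
    (hdet : 0 < (A - R * (1 / 2)) * B - C * C)
    (hc : 0 ≤ 4 * ((A - R * (1 / 2)) * B - C * C) * (vh + P) -
      (A - R * (1 / 2)) * (((vh - k) * X + (kd + k * X)) * ((vh - k) * X + (kd + k * X)))) :
    0 ≤ E := by
  have h1 := weight_ge hV hvh hLt (Z := L - u + X * δ) (by linarith)
  have hp : (2 * v + 1) / (2 * (v + 2)) ≤ 1 / 2 := by
    rw [div_le_iff₀ (by linarith)]; linarith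
  have hq2 : u ^ 2 ≤ u ^ 2 / v := le_div_self (sq_nonneg u) hv0 (by linarith)
  have h3 := mul_le_mul_of_nonneg_left hq2 hA.le
  have h4 := mul_le_mul_of_nonneg_right (mul_le_mul_of_nonneg_left hp hR)
    (show 0 ≤ u ^ 2 / v by positivity)
  have h5 := mul_nonneg (sub_nonneg.2 hkl) (mul_nonneg hL (neg_nonneg.2 hu))
  rw [formLow] at hE
  refine nonneg_of_mul_nonneg_right (a := 4 * ((A - R * (1 / 2)) * B - C * C) * (A - R * (1 / 2)))
    ?_ (by positivity)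
  have hEm := mul_le_mul_of_nonneg_left
    (show L * vh * (L - u + X * δ) + L * (k * u + kd * δ) + (A - R * (1 / 2)) * u ^ 2 +
      B * δ ^ 2 - 2 * C * (u * δ) + L ^ 2 * P + 0 ≤ E by linear_combination hE + h1 + h3 + h4)
    (show 0 ≤ 4 * ((A - R * (1 / 2)) * B - C * C) * (A - R * (1 / 2)) by positivity)
  refine le_trans ?_ hEm
  have h6 := mul_nonneg (mul_nonneg hdet.le (show (0 : ℝ) ≤ 4 by norm_num))
    (sq_nonneg ((A - R * (1 / 2)) * u - C * δ))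
  have h7 := sq_nonneg (2 * ((A - R * (1 / 2)) * B - C * C) * δ +
    (A - R * (1 / 2)) * ((vh - k) * X + (kd + k * X)) * L)
  have h8 := mul_nonneg (mul_nonneg hA.le hc) (sq_nonneg L)
  linear_combination h6 + h7 + h8 +
    4 * ((A - R * (1 / 2)) * B - C * C) * (A - R * (1 / 2)) * h5

/-- Small abscissae, above one on the pinned side. -/
theorem case_small_high (hE : formLow V 0 k kd A R B C P X hq L v u δ ≤ E) (hV : vh * top = V)
    (hL : 0 ≤ L) (hLt : L ≤ top) (hRV : 0 ≤ R + V) (hv : v = 1 + u)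
    (hu : 0 ≤ u) (hd0 : δ ≤ 0) (hv1 : (2 * v + 1) / (2 * (v + 2)) ≤ 503 / 1000)
    (hk0 : 0 ≤ k) (hkl : k ≤ vh) (hC : 0 ≤ C) (hW : 0 ≤ W)
    (hcut : (v - 1) - (2 * v + 1) / (2 * (v + 2)) * ((v - 1) ^ 2 / v) ≤ L + X * δ + W * δ ^ 2)
    (han : 0 ≤ A - (R + V) * (503 / 1000)) (hB1 : 0 < B - V * W)
    (hdisc : 0 ≤ 4 * (B - V * W) * (k + P) - (kd + k * X) * (kd + k * X)) : 0 ≤ E := by
  have hv0 : 0 < v := by linarith
  have h0 : 0 ≤ (2 * v + 1) / (2 * (v + 2)) * (u ^ 2 / v) + W * δ ^ 2 := by positivity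
  have h1 := cut_weight hV hL hLt hk0 hkl h0 (Z := L - u + X * δ) (by
    rw [show v - 1 = u by linarith] at hcut; linarith)
  have h4 := mul_le_mul_of_nonneg_right hv1
    (mul_nonneg hRV (show 0 ≤ u ^ 2 / v by positivity))
  have h5 := mul_nonneg han (show 0 ≤ u ^ 2 / v by positivity)
  have h6 := mul_nonneg hC (mul_nonneg hu (neg_nonneg.2 hd0))
  have h7 := quad_any (L := L) (x := δ) hB1 (c := k + P) (l := kd + k * X)
    (by linear_combination hdisc)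
  rw [formLow] at hE
  linear_combination hE + h1 + h4 + h5 + 2 * h6 + h7

end Vale.Agent.P237.Petty.Cor.TinyMid
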