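import Vale.Agent.P237.Petty.Cor.Tiny.Facts

/-!
# P237: states of small logarithm in the middle orders

With `X = (p + 1) s ^ 2 / (1 - s ^ 2)` and `v` the reciprocal of the speed: a sharper lower bound
of the mass of the circle above an abscissa, the cut to second order, the tail chord and the
hull at the end of the circle.
-/

namespace Vale.Agent.P237.Petty.Cor.TinyMid

open MeasureTheory Set intervalIntegral
open Ident (half rate)
open Lift (circLow circHigh)
open Tiny (sq_arc)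

variable {p : ℕ}

/-- The mass above `s` is at least `arc s ^ (p + 3) * s / ((p + 2) s ^ 2 + 1)`. -/
theorem circHigh_ge_sharp {s : ℝ} (hs : s ∈ Icc (0 : ℝ) 1) :
    arc s ^ (p + 3) * (s / (((p : ℝ) + 2) * s ^ 2 + 1)) ≤ circHigh p s := by
  have hc : Continuous fun u => arc u ^ (p + 1) := continuous_arc.pow _
  have hF : ContinuousOn
      (fun u => -(arc u ^ (p + 3) * (u / (((p : ℝ) + 2) * u ^ 2 + 1)))) (Icc s 1) :=
    (((continuous_arc.pow _).mul (continuous_id.div (by fun_prop) fun u => by positivity)).neg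
      ).continuousOn
  have h := sub_le_integral_of_hasDeriv_right_of_le
    (g' := fun u => arc u ^ (p + 1) * (((p : ℝ) + 3) * u * (u / (((p : ℝ) + 2) * u ^ 2 + 1)) -
      (1 - u ^ 2) * ((1 - ((p : ℝ) + 2) * u ^ 2) / (((p : ℝ) + 2) * u ^ 2 + 1) ^ 2)))
    (φ := fun u => arc u ^ (p + 1)) hs.2 hF
    (fun u hu => ?_) (hc.integrableOn_Icc) fun u hu => ?_
  · simp only [circHigh, neg_sub_neg] at h ⊢
    simpa [arc] using h
  · have hu0 : 0 < 1 - u ^ 2 := by nlinarith [hu.1, hu.2, hs.1]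
    have h2 : arc u ^ 2 = 1 - u ^ 2 := Real.sq_sqrt hu0.le
    have hd : HasDerivAt (fun x => x / (((p : ℝ) + 2) * x ^ 2 + 1))
        ((1 - ((p : ℝ) + 2) * u ^ 2) / (((p : ℝ) + 2) * u ^ 2 + 1) ^ 2) u := by
      refine ((hasDerivAt_id u).div (((hasDerivAt_pow 2 u).const_mul ((p : ℝ) + 2)).add_const 1)
        (by positivity)).congr_deriv ?_
      simp only [id]
      push_cast
      ring
    refine (((hasDerivAt_arc_pow (p + 2) (s := u) ⟨by linarith [hu.1, hs.1], hu.2⟩).mul hd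
      ).neg.congr_deriv ?_).hasDerivWithinAt
    rw [show arc u ^ (p + 2 + 1) = arc u ^ (p + 1) * (1 - u ^ 2) by rw [← h2]; ring]
    push_cast
    field_simp
    ring
  · refine mul_le_of_le_one_right (pow_nonneg (Real.sqrt_nonneg _) _) ?_
    have hu2 : u ^ 2 ≤ 1 := by nlinarith [hu.1, hu.2, hs.1]
    obtain ⟨q, hq0, hq⟩ : ∃ q, 0 ≤ q ∧ ((p : ℝ) + 2) * u ^ 2 = q := ⟨_, by positivity, rfl⟩
    rw [hq, show ((p : ℝ) + 3) * u * (u / (q + 1)) = (q + u ^ 2) / (q + 1) by rw [← hq]; ring,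
      sub_le_iff_le_add, ← mul_div_assoc, ← sub_le_iff_le_add', le_div_iff₀ (by positivity)]
    have e : ((q + u ^ 2) / (q + 1) - 1) * (q + 1) ^ 2 = (u ^ 2 - 1) * (q + 1) := by
      field_simp
      ring
    rw [e]
    nlinarith

/-- The logarithm of the reciprocal of the speed at most the value and the circle's. -/
theorem log_inv_rate_le {ell s t a r q : ℝ} (h : FlatState p ell s t a r q) :
    Real.log (1 / r) ≤ ell + ((p : ℝ) + 1) / 2 * -Real.log (1 - (t ^ 2 - s ^ 2) / (1 - s ^ 2)) := by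
  have hs := h.state.s_mem
  have ht := h.state.t_mem
  have hz : 0 < 1 - s ^ 2 := by nlinarith [hs.1, hs.2]
  have hw : 0 < 1 - t ^ 2 := by nlinarith [ht.1, ht.2]
  have h1 := h.cut_log ht
  rw [arc, arc, Real.log_sqrt hw.le, Real.log_sqrt hz.le] at h1
  rw [show 1 - (t ^ 2 - s ^ 2) / (1 - s ^ 2) = (1 - t ^ 2) / (1 - s ^ 2) by field_simp; ring,
    Real.log_div hw.ne' hz.ne', one_div, Real.log_inv]
  linarith

/-- Before the abscissa of the circle the reciprocal of the speed is at most `exp ell`. -/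
theorem log_inv_rate_le_ell {ell s t a r q : ℝ} (h : FlatState p ell s t a r q) (hts : t ≤ s) :
    Real.log (1 / r) ≤ ell := by
  have hs := h.state.s_mem
  have ht := h.state.t_mem
  have h0 : 0 ≤ (s ^ 2 - t ^ 2) / (1 - s ^ 2) :=
    div_nonneg (sub_nonneg.2 (pow_le_pow_left₀ ht.1.le hts 2)) (by nlinarith [hs.1, hs.2])
  have h1 := Real.log_nonneg (show 1 ≤ 1 - (t ^ 2 - s ^ 2) / (1 - s ^ 2) by
    rw [show t ^ 2 - s ^ 2 = -(s ^ 2 - t ^ 2) by ring, neg_div]; linarith)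
  have h2 := mul_nonneg (show 0 ≤ ((p : ℝ) + 1) / 2 by positivity) h1
  have := log_inv_rate_le h
  linarith

/-- The tangent of `-log (1 - x)` with the second order, below zero. -/
theorem neg_log_le_of_nonpos {x : ℝ} (hx : x ≤ 0) : -Real.log (1 - x) ≤ x + x ^ 2 / 2 := by
  have h := Real.le_log_one_add_of_nonneg (x := -x) (by linarith)
  rw [show 1 + -x = 1 - x by ring] at h
  have h2 : -x - x ^ 2 / 2 ≤ 2 * -x / (-x + 2) := by
    rw [le_div_iff₀ (by linarith)]
    nlinarith [mul_nonneg (sq_nonneg x) (neg_nonneg.2 hx)]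
  linarith

/-- The tangent of `-log (1 - x)` with the second order, above zero. -/
theorem neg_log_le_of_nonneg {x : ℝ} (hx : 0 ≤ x) (hx1 : x < 1) :
    -Real.log (1 - x) ≤ x + x ^ 2 / (2 * (1 - x)) := by
  have h1 : 0 < 1 - x := by linarith
  have h := Real.self_le_sinh_iff.2 (Real.log_nonneg ((one_le_inv₀ h1).2 (by linarith)))
  rw [Real.sinh_log (inv_pos.2 h1), Real.log_inv, inv_inv] at h
  refine h.trans (le_of_eq ?_)
  field_simp
  ring

/-- Pade's bound of the logarithm, as the share of the cut. -/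
theorem pade_share {v : ℝ} (hv : 0 < v) :
    (v - 1) - (2 * v + 1) / (2 * (v + 2)) * ((v - 1) ^ 2 / v) ≤ Real.log v := by
  refine le_trans (le_of_eq ?_) (pade_le_log hv)
  field_simp
  ring

/-- The cut to second order, before the abscissa of the circle. -/
theorem cut_neg {ell s t a r q v δ X : ℝ} (h : FlatState p ell s t a r q) (hv : 1 / r = v)
    (hδ : (t - s) / s = δ) (hX : ((p : ℝ) + 1) * s ^ 2 / (1 - s ^ 2) = X) (hd : δ ≤ 0) :
    (v - 1) - (2 * v + 1) / (2 * (v + 2)) * ((v - 1) ^ 2 / v) ≤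
      ell + X * δ + (X / 2 + 1 / ((p : ℝ) + 1) * X ^ 2) * δ ^ 2 := by
  have hs := h.state.s_mem
  have hs0 := hs.1
  have hz : 0 < 1 - s ^ 2 := by nlinarith [hs.1, hs.2]
  have hr := h.state.rate_pos
  have hvp : 0 < v := hv ▸ by positivity
  have ht : t = s + s * δ := by rw [← hδ]; field_simp; ring
  have hd1 : -1 ≤ δ := by
    rw [← hδ, le_div_iff₀ hs0]; linarith [h.state.t_mem.1]
  have hx : (t ^ 2 - s ^ 2) / (1 - s ^ 2) = X * (δ * (2 + δ)) / ((p : ℝ) + 1) := by
    rw [ht, ← hX]; field_simp; ring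
  have hX0 : 0 ≤ X := hX ▸ div_nonneg (by positivity) hz.le
  have h1 := log_inv_rate_le h
  rw [hv, hx] at h1
  have hx0 : X * (δ * (2 + δ)) / ((p : ℝ) + 1) ≤ 0 := div_nonpos_of_nonpos_of_nonneg
    (mul_nonpos_of_nonneg_of_nonpos hX0 (mul_nonpos_of_nonpos_of_nonneg hd (by linarith)))
    (by positivity)
  have h2 := mul_le_mul_of_nonneg_left (neg_log_le_of_nonpos hx0)
    (show 0 ≤ ((p : ℝ) + 1) / 2 by positivity)
  have h3 := pade_share hvp
  have e : ((p : ℝ) + 1) / 2 * (X * (δ * (2 + δ)) / ((p : ℝ) + 1) +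
      (X * (δ * (2 + δ)) / ((p : ℝ) + 1)) ^ 2 / 2) =
      X * δ + X / 2 * δ ^ 2 + 1 / ((p : ℝ) + 1) * X ^ 2 * δ ^ 2 * ((2 + δ) / 2) ^ 2 := by
    field_simp
  have h4 := mul_le_of_le_one_right (show 0 ≤ 1 / ((p : ℝ) + 1) * X ^ 2 * δ ^ 2 by positivity)
    (pow_le_one₀ (show 0 ≤ (2 + δ) / 2 by linarith) (show (2 + δ) / 2 ≤ 1 by linarith) (n := 2))
  linarith

/-- The cut to second order, after the abscissa of the circle. -/
theorem cut_pos {ell s t a r q v δ X : ℝ} (h : FlatState p ell s t a r q) (hv : 1 / r = v)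
    (hδ : (t - s) / s = δ) (hX : ((p : ℝ) + 1) * s ^ 2 / (1 - s ^ 2) = X) (hd : 0 ≤ δ)
    (hk : (1 + δ / 2) ^ 2 ≤ 9 / 8 * (1 - X * (δ * (2 + δ)) / ((p : ℝ) + 1))) :
    (v - 1) - (2 * v + 1) / (2 * (v + 2)) * ((v - 1) ^ 2 / v) ≤
      ell + X * δ + (X / 2 + 9 / 8 * (1 / ((p : ℝ) + 1)) * X ^ 2) * δ ^ 2 := by
  have hs := h.state.s_mem
  have hs0 := hs.1
  have hz : 0 < 1 - s ^ 2 := by nlinarith [hs.1, hs.2]
  have hr := h.state.rate_pos
  have hvp : 0 < v := hv ▸ by positivity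
  have ht : t = s + s * δ := by rw [← hδ]; field_simp; ring
  have hx : (t ^ 2 - s ^ 2) / (1 - s ^ 2) = X * (δ * (2 + δ)) / ((p : ℝ) + 1) := by
    rw [ht, ← hX]; field_simp; ring
  have hX0 : 0 ≤ X := hX ▸ div_nonneg (by positivity) hz.le
  have hx0 : 0 ≤ X * (δ * (2 + δ)) / ((p : ℝ) + 1) := by positivity
  have hx1 : X * (δ * (2 + δ)) / ((p : ℝ) + 1) < 1 := by
    rw [← hx, div_lt_one hz]
    nlinarith [h.state.t_mem.1, h.state.t_mem.2]
  have h1 := log_inv_rate_le h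
  rw [hv, hx] at h1
  have h2 := mul_le_mul_of_nonneg_left (neg_log_le_of_nonneg hx0 hx1)
    (show 0 ≤ ((p : ℝ) + 1) / 2 by positivity)
  have h3 := pade_share hvp
  obtain ⟨x, hxe⟩ : ∃ x, X * (δ * (2 + δ)) / ((p : ℝ) + 1) = x := ⟨_, rfl⟩
  rw [hxe] at hx1 h1 h2 hk
  have h4 : (1 + δ / 2) ^ 2 / (1 - x) ≤ 9 / 8 := by
    rw [div_le_iff₀ (by linarith)]; linarith
  have h5 := mul_le_mul_of_nonneg_left h4
    (show 0 ≤ 1 / ((p : ℝ) + 1) * X ^ 2 * δ ^ 2 by positivity)
  have e : ((p : ℝ) + 1) / 2 * (x + x ^ 2 / (2 * (1 - x))) =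
      X * δ + X / 2 * δ ^ 2 +
        1 / ((p : ℝ) + 1) * X ^ 2 * δ ^ 2 * ((1 + δ / 2) ^ 2 / (1 - x)) := by
    have : 1 - x ≠ 0 := by linarith
    subst hxe
    field_simp
  linarith

/-- The tail chord at a base `u ≤ s` before `t`, with the sharp mass above `s`. -/
theorem tail_sharp {ell s t a r q v : ℝ} (h : FlatState p ell s t a r q) {u L : ℝ}
    (hu : u ∈ Ico (0 : ℝ) t) (hv : 1 / r = v)
    (hL : L ≤ Real.log (arc u ^ (p + 1)) - Real.log (arc s ^ (p + 1))) :
    v * (L + Real.log v - ell) ≤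
      (t - u) / s * (((((p : ℝ) + 2) * s ^ 2) + 1) / (1 - s ^ 2)) := by
  have hs := h.state.s_mem
  have hs' := hs.1
  have hz : 0 < 1 - s ^ 2 := by nlinarith [hs.1, hs.2]
  have hr := h.state.rate_pos
  have hcs := pow_pos h.state.arc_pos' (p + 1)
  have hvp : 0 < v := hv ▸ by positivity
  have ea : a ^ (p + 1) = arc s ^ (p + 1) / v := by
    rw [← hv, h.state.rate_eq]
    field_simp
  have h1 := h.tailChord u hu
  rw [ea, Real.log_div hcs.ne' hvp.ne'] at h1
  have hd : 0 ≤ t - u := (sub_pos.2 hu.2).le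
  rcases le_or_gt (L + Real.log v - ell) 0 with hn | hn
  · exact (mul_nonpos_of_nonneg_of_nonpos hvp.le hn).trans
      (mul_nonneg (div_nonneg hd hs.1.le) (div_nonneg (by positivity) hz.le))
  have hT := circHigh_ge_sharp (p := p) (Ioo_subset_Icc_self hs)
  rw [show arc s ^ (p + 3) = arc s ^ (p + 1) * (1 - s ^ 2) by
    rw [← sq_arc (Ioo_subset_Icc_self hs)]; ring] at hT
  have hden : 0 < ((p : ℝ) + 2) * s ^ 2 + 1 := by positivity
  have hT0 : 0 < arc s ^ (p + 1) * (1 - s ^ 2) * (s / (((p : ℝ) + 2) * s ^ 2 + 1)) :=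
    mul_pos (mul_pos hcs hz) (div_pos hs.1 hden)
  have h2 := (mul_le_mul (show L + Real.log v - ell ≤ Real.log (arc u ^ (p + 1)) - ell -
    (Real.log (arc s ^ (p + 1)) - Real.log v) by linarith) hT hT0.le (by linarith)).trans h1
  refine le_of_mul_le_mul_left ?_ (div_pos hT0 hvp)
  refine le_trans (le_of_eq ?_) (h2.trans (le_of_eq ?_))
  · field_simp
  · field_simp

/-- The tail chord at the abscissa of the circle, linear in the value. -/
theorem value_le {ell s t a r q v δ X : ℝ} (h : FlatState p ell s t a r q) (hv : 1 / r = v)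
    (hδ : (t - s) / s = δ)
    (hX : ((p : ℝ) + 1) * s ^ 2 / (1 - s ^ 2) = X) (hd : 0 < δ) :
    (v - 1) * (1 - ell) ≤ ell + ((1 + 2 * (1 / ((p : ℝ) + 1))) * X + 1) * δ := by
  have hs := h.state.s_mem
  have hs0 := hs.1
  have hz : 0 < 1 - s ^ 2 := by nlinarith [hs.1, hs.2]
  have hr := h.state.rate_pos
  have hvp : 0 < v := hv ▸ by positivity
  have ht : s < t := by have := (lt_div_iff₀ hs.1).1 (hδ ▸ hd); linarith
  have h1 := tail_sharp h (u := s) (L := 0) ⟨hs.1.le, ht⟩ hv (by simp)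
  have h2 : v - 1 ≤ v * Real.log v := by
    have := mul_le_mul_of_nonneg_left (Real.one_sub_inv_le_log_of_pos hvp) hvp.le
    rwa [mul_sub, mul_one, mul_inv_cancel₀ hvp.ne'] at this
  have e : (t - s) / s * ((((p : ℝ) + 2) * s ^ 2 + 1) / (1 - s ^ 2)) =
      ((1 + 2 * (1 / ((p : ℝ) + 1))) * X + 1) * δ := by
    rw [← hδ, ← hX]; field_simp; ring
  rw [e] at h1
  linarith

/-- The hull at the end of the circle: a lower bound of the reciprocal of the speed. -/
theorem inv_rate_ge {ell s t a r q v : ℝ} (h : FlatState p ell s t a r q) (hv : 1 / r = v) :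
    (1 - t) * arc s ^ (p + 1) ≤ v * (((p : ℝ) + 2) * circHigh p s) := by
  have hs := h.state.s_mem
  have hr := h.state.rate_pos
  have ha := h.state.pos
  have hcs := pow_pos h.state.arc_pos' (p + 1)
  have h1 := h.hullHigh 1 ⟨h.state.t_mem.2, le_rfl⟩
  have e1 : arc 1 = 0 := by simp [arc]
  have e2 : circHigh p 1 = 0 := by simp [circHigh]
  rw [e1, e2, mul_zero, mul_zero, add_zero] at h1
  have h2 := mul_linMean p a 0
  rw [zero_pow (by omega), zero_sub, pow_succ a (p + 1)] at h2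
  have h3 : ((p : ℝ) + 2) * linMean p a 0 = a ^ (p + 1) :=
    mul_right_cancel₀ (show -a ≠ 0 by linarith) (by linear_combination h2)
  have h4 := mul_le_mul_of_nonneg_left h1 (show 0 ≤ v * ((p : ℝ) + 2) by
    have : 0 < v := hv ▸ by positivity
    positivity)
  have e : v * ((p : ℝ) + 2) * ((1 - t) * linMean p a 0) = (1 - t) * arc s ^ (p + 1) := by
    calc v * ((p : ℝ) + 2) * ((1 - t) * linMean p a 0)
        = (1 - t) * (v * (((p : ℝ) + 2) * linMean p a 0)) := by ring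
      _ = (1 - t) * arc s ^ (p + 1) := by
          rw [h3, ← hv, h.state.rate_eq]
          field_simp
  linarith

end Vale.Agent.P237.Petty.Cor.TinyMid
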