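import Vale.Agent.P237.Petty.Cor.TinyMid.Eval
import Vale.Agent.P237.Petty.Cor.TinyMid.Facts
import Vale.Agent.P237.Petty.Cor.TinyMid.Lower
import Vale.Agent.P237.Petty.Cor.TinyMid.Algebra

/-!
# P237: what the cases use of a state
-/

namespace Vale.Agent.P237.Petty.Cor.TinyMid

open Set
open Ident (half rate)
open Lift (circLow circHigh)

variable {p : ℕ}

/-- The bound of the quotient of the mass above. -/
noncomputable def boxQ (p : ℕ) (X : ℝ) : ℝ :=
  ((1 + 3 * eps p) * X + 2 * (1 + eps p * X)) /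
    ((1 + 2 * eps p) * X * ((1 + 2 * eps p) * X + 3 * (1 + eps p * X)))

/-- The slope of the tail chord. -/
noncomputable def slopeX (p : ℕ) (X : ℝ) : ℝ := (1 + eps p) * X + (1 + eps p * X)

/-- The bound of `exp ell - 1` over `ell`. -/
noncomputable def expFac (p : ℕ) : ℝ := 1 + eps p / 4

/-- A state of the cell. -/
structure St (p : ℕ) (L s X v u δ : ℝ) : Prop where
  s_mem : s ∈ Ioo (0 : ℝ) 1
  L_mem : L ∈ Icc 0 (topVal p)
  X_eq : sqTan p s = X
  X_pos : 0 < X
  v_pos : 0 < v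
  v_eq : v = 1 + u
  cut_neg : δ ≤ 0 → (v - 1) - (2 * v + 1) / (2 * (v + 2)) * ((v - 1) ^ 2 / v) ≤
    L + X * δ + (X / 2 + eps p * X ^ 2) * δ ^ 2
  cut_pos : 0 ≤ δ → (1 + δ / 2) ^ 2 ≤ 9 / 8 * (1 - eps p * X * (δ * (2 + δ))) →
    (v - 1) - (2 * v + 1) / (2 * (v + 2)) * ((v - 1) ^ 2 / v) ≤
      L + X * δ + (X / 2 + 9 / 8 * eps p * X ^ 2) * δ ^ 2
  disp : -δ ≤ L * expFac p * boxQ p X
  slack : δ ≤ 0 → -(L ^ 2 * (63 / 125) * boxQ p X) ≤ δ + L * hiQuot p s
  hi_ge : 1 / slopeX p X ≤ hiQuot p s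
  u_le_neg : δ ≤ 0 → u ≤ L * expFac p
  value : 0 < δ → u ≤ expFac p * (L + slopeX p X * δ)
  chord : 0 < δ → ∀ c ∈ Icc (0 : ℝ) 1,
    v * (X * (1 - c ^ 2) / (2 * (1 + eps p * X) - (1 + c ^ 2) * (eps p * X)) + Real.log v - L) ≤
      (δ + (1 - c)) * slopeX p X
  low : 0 < δ → ∀ H, circLow p s ≤ H * (s * arc s ^ (p + 1)) →
    δ ≤ L * Real.exp (L / 2) * H * √v
  d_lt : δ * (eps p * X * (689 / 400 * (1 + eps p * X) + eps p * X)) <
    169 / 400 * (1 + eps p * X) + eps p * X
  d_ge : 2 / (1 + eps p * X + 3 * (eps p * X)) *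
    (1 - v * ((1 + eps p) / eps p * boxQ p X * (1 + eps p * X + 3 * (eps p * X)) / 2)) ≤ δ

theorem topVal_le (h1 : 18 ≤ p) (h2 : p ≤ 97) : topVal p ≤ 1 / 80 ∧ topVal p ≤ eps p / 4 ∧
    1 / (1 - topVal p) ≤ expFac p := by
  have he := eps_pos p
  have he1 : eps p ≤ 1 / 19 := (eps_mem h1 h2).2
  rw [topVal, expFac]
  refine ⟨?_, ?_, ?_⟩
  · rw [div_le_iff₀ (by linarith)]; linarith
  · rw [div_le_iff₀ (by linarith)]
    nlinarith
  · have h : 1 - eps p / (4 * (1 + eps p)) = (4 + 3 * eps p) / (4 * (1 + eps p)) := by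
      field_simp; ring
    rw [h, one_div_div, div_le_iff₀ (by linarith)]
    nlinarith

theorem st_of_flat (h1 : 18 ≤ p) (h2 : p ≤ 97) {L s t a r q : ℝ}
    (hL : L ∈ Icc 0 (1 / 4 / ((p : ℝ) + 2))) (h : FlatState p L s t a r q) :
    St p L s (sqTan p s) (1 / r) (1 / r - 1) ((t - s) / s) := by
  have hs := h.state.s_mem
  have hs0 := hs.1
  have hz : 0 < 1 - s ^ 2 := by nlinarith [hs.1, hs.2]
  have hr := h.state.rate_pos
  have hm : (0 : ℝ) < (p : ℝ) + 1 := by positivity
  have hcs := pow_pos h.state.arc_pos' (p + 1)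
  obtain ⟨ht1, ht2, ht3⟩ := topVal_le h1 h2
  rw [← topVal_eq] at hL
  have he := eps_pos p
  have hX : 0 < sqTan p s := div_pos (by positivity) hz
  have hbox : boxQ p (sqTan p s) = (1 - s ^ 2) * ((((p : ℝ) + 4) * s ^ 2 + 2) /
      (((p : ℝ) + 3) * s ^ 2 * (((p : ℝ) + 3) * s ^ 2 + 3))) := by
    rw [boxQ, eps, sqTan]; field_simp; ring
  have hq : 0 ≤ boxQ p (sqTan p s) := by rw [hbox]; positivity
  have hH : hiQuot p s ≤ boxQ p (sqTan p s) := by
    rw [hiQuot, div_le_iff₀ (mul_pos hs0 hcs), hbox]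
    refine (circHigh_le (p := p) ⟨hs.1, hs.2.le⟩).trans (le_of_eq ?_)
    rw [show arc s ^ (p + 3) = arc s ^ (p + 1) * (1 - s ^ 2) by
      rw [← Tiny.sq_arc (Ioo_subset_Icc_self hs)]; ring]
    field_simp
  have hH0 : 0 ≤ hiQuot p s := div_nonneg (intervalIntegral.integral_nonneg hs.2.le fun v _ =>
    pow_nonneg (Real.sqrt_nonneg _) _) (mul_pos hs0 hcs).le
  obtain ⟨hx1, hx2⟩ := value_exp hL.1 hL.2 ht1
  have hx1' : Real.exp L - 1 ≤ L * expFac p := by
    refine hx1.trans ?_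
    rw [div_eq_mul_one_div]
    exact mul_le_mul_of_nonneg_left ht3 hL.1
  have hsl : slopeX p (sqTan p s) = (((p : ℝ) + 2) * s ^ 2 + 1) / (1 - s ^ 2) := by
    rw [slopeX, eps, sqTan]; field_simp; ring
  have hd : -((t - s) / s) ≤ (Real.exp L - 1) * hiQuot p s := by
    have := h.disp_ge hL.1
    rw [hiQuot, neg_div', neg_sub, ← mul_div_assoc, div_le_div_iff₀ hs0 (mul_pos hs0 hcs)]
    linear_combination mul_le_mul_of_nonneg_right this hs0.le
  refine
    { s_mem := hs
      L_mem := hL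
      X_eq := rfl
      X_pos := hX
      v_pos := by positivity
      v_eq := by ring
      cut_neg := fun hd0 => by rw [eps]; exact cut_neg h rfl rfl rfl hd0
      cut_pos := fun hd0 hk => by
        rw [eps] at hk ⊢
        exact cut_pos h rfl rfl rfl hd0 (by linear_combination hk)
      disp := hd.trans (mul_le_mul hx1' hH hH0 (mul_nonneg hL.1 (by rw [expFac]; positivity)))
      slack := fun hd0 => ?_
      hi_ge := ?_
      u_le_neg := fun hd0 => ?_
      value := fun hd0 => ?_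
      chord := fun hd0 c hc => ?_
      low := fun hd0 H hH => Tiny.box_hi h hL.1 rfl rfl hd0 hH
      d_lt := ?_
      d_ge := ?_ }
  · have h4 := mul_le_mul_of_nonneg_right hx2 hH0
    have h5 := mul_le_mul_of_nonneg_left hH (show 0 ≤ L ^ 2 * (63 / 125) by positivity)
    linear_combination hd + h4 + h5
  · have := circHigh_ge_sharp (p := p) (Ioo_subset_Icc_self hs)
    rw [show arc s ^ (p + 3) = arc s ^ (p + 1) * (1 - s ^ 2) by
      rw [← Tiny.sq_arc (Ioo_subset_Icc_self hs)]; ring] at this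
    rw [hiQuot, hsl, le_div_iff₀ (mul_pos hs0 hcs)]
    refine le_trans (le_of_eq ?_) this
    field_simp
  · have ht : t ≤ s := by
      rw [div_le_iff₀ hs0] at hd0; linarith
    have h3 := log_inv_rate_le_ell h ht
    have := (Real.log_le_iff_le_exp (by positivity)).1 h3
    linarith
  · have h3 := value_le h rfl rfl rfl hd0
    have hb : 0 < 1 - L := by linarith [hL.2]
    rw [← eps, ← sqTan] at h3
    have h4 : 1 / r - 1 ≤ (L + slopeX p (sqTan p s) * ((t - s) / s)) / (1 - L) := by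
      rw [le_div_iff₀ hb, slopeX]
      linear_combination h3
    refine h4.trans ?_
    rw [mul_comm (expFac p), div_eq_mul_one_div]
    refine mul_le_mul_of_nonneg_left (le_trans ?_ ht3) (add_nonneg hL.1 (mul_nonneg ?_ hd0.le))
    · exact one_div_le_one_div_of_le (by linarith) (by linarith [hL.2])
    · rw [slopeX]; positivity
  · have hst : s < t := by
      rw [div_pos_iff_of_pos_right hs0] at hd0; linarith
    have hu : c * s ∈ Ico (0 : ℝ) t :=
      ⟨mul_nonneg hc.1 hs0.le, lt_of_le_of_lt (mul_le_of_le_one_left hs0.le hc.2) hst⟩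
    refine le_trans (le_of_eq ?_) ((tail_sharp h hu rfl (Tiny.log_ratio_ge hs hc)).trans
      (le_of_eq ?_))
    · congr 1
      rw [sqTan, eps]
      field_simp
      ring
    · rw [hsl]
      field_simp
      ring
  · have ht := h.state.t_mem.2
    have e : eps p * sqTan p s = s ^ 2 / (1 - s ^ 2) := by rw [eps, sqTan]; field_simp
    rw [e, show 1 + s ^ 2 / (1 - s ^ 2) = 1 / (1 - s ^ 2) by field_simp; ring]
    have h3 : (t - s) * (s * (689 / 400 + s ^ 2)) < (169 / 400 + s ^ 2) * (1 - s ^ 2) := by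
      have h4 : (t - s) * (s * (689 / 400 + s ^ 2)) < (1 - s) * (s * (689 / 400 + s ^ 2)) :=
        mul_lt_mul_of_pos_right (by linarith) (by positivity)
      nlinarith [mul_nonneg (sub_nonneg.2 hs.2.le) (sq_nonneg (13 / 20 - s))]
    rw [← sub_pos] at h3 ⊢
    have key : 169 / 400 * (1 / (1 - s ^ 2)) + s ^ 2 / (1 - s ^ 2) -
        (t - s) / s * (s ^ 2 / (1 - s ^ 2) * (689 / 400 * (1 / (1 - s ^ 2)) + s ^ 2 / (1 - s ^ 2))) =
      ((169 / 400 + s ^ 2) * (1 - s ^ 2) - (t - s) * (s * (689 / 400 + s ^ 2))) /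
        (1 - s ^ 2) ^ 2 := by
      field_simp
    rw [key]
    positivity
  · have h3 := inv_rate_ge h rfl
    have hv : 0 < 1 / r := by positivity
    have h4 := mul_le_mul_of_nonneg_left ((circHigh_le (p := p) ⟨hs.1, hs.2.le⟩))
      (show 0 ≤ 1 / r * ((p : ℝ) + 2) by positivity)
    rw [show arc s ^ (p + 3) = arc s ^ (p + 1) * (1 - s ^ 2) by
      rw [← Tiny.sq_arc (Ioo_subset_Icc_self hs)]; ring] at h4
    have h5 : 1 - t ≤ 1 / r * ((p : ℝ) + 2) * (s * boxQ p (sqTan p s)) := by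
      refine le_of_mul_le_mul_right ?_ hcs
      refine (h3.trans ((le_of_eq (by ring)).trans h4)).trans (le_of_eq ?_)
      rw [hbox]; field_simp
    have h6 : 2 * (1 - s ^ 2) * s ≤ (1 - s) * (1 + 3 * s ^ 2) := by
      nlinarith [mul_nonneg (sub_nonneg.2 hs.2.le) (sq_nonneg (1 - s))]
    rw [show 1 + eps p * sqTan p s + 3 * (eps p * sqTan p s) = (1 + 3 * s ^ 2) / (1 - s ^ 2) by
      rw [eps, sqTan]; field_simp; ring, show (1 + eps p) / eps p = (p : ℝ) + 2 by
      rw [eps]; field_simp; ring, le_div_iff₀ hs0]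
    rw [div_div_eq_mul_div]
    have e : 2 * (1 - s ^ 2) / (1 + 3 * s ^ 2) * (1 - 1 / r * (((p : ℝ) + 2) *
        boxQ p (sqTan p s) * ((1 + 3 * s ^ 2) / (1 - s ^ 2)) / 2)) * s =
      2 * (1 - s ^ 2) * s / (1 + 3 * s ^ 2) -
        1 / r * ((p : ℝ) + 2) * (s * boxQ p (sqTan p s)) := by
      field_simp
    rw [e]
    have h7 : 2 * (1 - s ^ 2) * s / (1 + 3 * s ^ 2) ≤ 1 - s := by
      rw [div_le_iff₀ (by positivity)]; exact h6
    linarith

/-- The three bounds of the shadow: Pade, the logarithm, the absence of mass. -/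
theorem excess_ge (h1 : 18 ≤ p) (h2 : p ≤ 97) {L s t a r q X v u δ : ℝ}
    (h : FlatState p L s t a r q) (hv : 1 / r = v) (hu : 1 / r - 1 = u) (hδ : (t - s) / s = δ)
    (hX : sqTan p s = X) :
    ∃ B0 : ℝ, scale p s * excess p L s t a r = B0 + (fisherQ p X v u δ +
        (33 / 250 * (1 + 2 * (eps p * X)) + (33 / 250 - 6 / 125) * X + 6 / 125 * (X * X)) /
          Ident.b0 p * δ ^ 2 -
        2 * ((33 / 250 + 6 / 125 * X) / Ident.b0 p) * (u * δ)) ∧
      (∀ sh, sh ≤ shadR p s * -((2 * v + 1) / (2 * (v + 2)) * (u ^ 2 / v)) ∨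
          sh ≤ shadR p s * (Real.log v - u) ∨ sh ≤ shadR p s * (-(1 / eps p) - u) →
        sh + keptW p s * (L - u + X * δ) + slopeD p s * (δ + L * hiQuot p s) +
          L * (kapS p s * u + kapD p s * δ) + L ^ 2 * (scale p s * remR p s) ≤ B0) := by
  refine ⟨scale p s * (((p : ℝ) + 1) * Ident.b0 p * (1 / a - 1 / arc s)) - shadR p s * u +
        keptW p s * (L - u + X * δ) + slopeD p s * (δ + L * hiQuot p s) +
        L * (kapS p s * u + kapD p s * δ) + L ^ 2 * (scale p s * remR p s), ?_, fun sh hsh => ?_⟩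
  · rw [excess_eq h hu hδ hX, show v = 1 + u by rw [← hu, ← hv]; ring]
    ring
  · have hs := h.state.s_mem
    have hS := scale_pos p hs
    have hc := h.state.arc_pos'
    have hb := Ident.b0_pos p
    have hm : (0 : ℝ) < (p : ℝ) + 1 := by positivity
    suffices sh ≤ scale p s * (((p : ℝ) + 1) * Ident.b0 p * (1 / a - 1 / arc s)) - shadR p s * u by
      linarith
    rcases hsh with h3 | h3 | h3
    · refine h3.trans ?_
      have h4 := mul_le_mul_of_nonneg_left (shadow_ge_pade h hm.le) hS.le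
      rw [hv, show v - 1 = u by rw [← hu, ← hv],
        show ((p : ℝ) + 1) * Ident.b0 p / ((p : ℝ) + 1) / arc s = Ident.b0 p / arc s by
          field_simp] at h4
      rw [shadR]
      linarith
    · refine h3.trans ?_
      have h4 := mul_le_mul_of_nonneg_left h.inv_excess
        (mul_nonneg (mul_nonneg hS.le hm.le) hb.le)
      have e : scale p s * ((p + 1) : ℝ) * Ident.b0 p * (-Real.log r / (((p : ℝ) + 1) * arc s)) =
          shadR p s * Real.log v := by
        rw [← hv, one_div r, Real.log_inv, shadR]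
        field_simp
      linarith
    · refine h3.trans ?_
      have h4 : -(1 / arc s) ≤ 1 / a - 1 / arc s := by
        have := h.state.pos
        have : 0 ≤ 1 / a := by positivity
        linarith
      have h5 := mul_le_mul_of_nonneg_left h4 (mul_nonneg (mul_nonneg hS.le hm.le) hb.le)
      have e : scale p s * ((p + 1) : ℝ) * Ident.b0 p * -(1 / arc s) =
          shadR p s * -(1 / eps p) := by
        rw [eps, one_div_one_div, shadR]
        field_simp
      linarith

end Vale.Agent.P237.Petty.Cor.TinyMid
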