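import Vale.Agent.P237.Petty.Cor.TinyMid.BulkExprs
import Vale.Agent.P237.Petty.Cor.TinyMid.State
import Vale.Agent.P237.Petty.Cor.TinyMid.Cases

/-!
# P237: a piece below `X = 81 / 20` from its checks
-/

namespace Vale.Agent.P237.Petty.Cor.TinyMid

open Set
open Ident (half rate)
open Lift (circLow circHigh)
open Vale.Agent.P100.Bernstein

variable {p : ℕ} {L s X v u δ z τ σ E : ℝ} {o : Expr}

/-- The Fisher coefficient. -/
noncomputable def cA (p : ℕ) (X : ℝ) : ℝ :=
  1 / Ident.b0 p * (73 / 25) * (2 * (1 / 8 - 187 / 1000 * eps p) -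
    (1 / 8 - 63 / 1000 * eps p) * (529 / 2400) * eps p * X)

/-- The same without the cross term. -/
noncomputable def cA0 (p : ℕ) : ℝ :=
  1 / Ident.b0 p * (73 / 25) * 2 * (1 / 8 - 187 / 1000 * eps p)

/-- The coefficient of the square of the displacement. -/
noncomputable def cB (p : ℕ) (X : ℝ) : ℝ :=
  1 / Ident.b0 p * (33 / 250 * (1 + 2 * eps p * X) +
    (33 / 250 - 6 / 125 - (1 / 8 - 63 / 1000 * eps p) * (2304 / 625) * (1 + 3 * eps p)) * X +
    6 / 125 * (X * X))

/-- Half the negated coefficient of the product. -/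
noncomputable def cC (p : ℕ) (X : ℝ) : ℝ := 1 / Ident.b0 p * (33 / 250 + 6 / 125 * X)

theorem eval_coefs (hs : s ∈ Ioo (0 : ℝ) 1) (ho : o.eval (pt p z τ σ) = oVar p s) :
    (xA o).eval (pt p z τ σ) = cA p (sqTan p s) ∧ (xB o).eval (pt p z τ σ) = cB p (sqTan p s) ∧
      (xC o).eval (pt p z τ σ) = cC p (sqTan p s) ∧
      (xN * .frac 73 25 * 2 * nuL).eval (pt p z τ σ) = cA0 p := by
  simp [xA, xB, xC, cA, cA0, cB, cC, nuL, nuH, eval_xN, eval_xX hs ho, eval_ee]

/-- The bound of the excess with Pade's share. -/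
theorem formLow_le (h1 : 18 ≤ p) (h2 : p ≤ 97) {t a r q : ℝ} (h : FlatState p L s t a r q)
    (hL : L ∈ Icc 0 (1 / 4 / ((p : ℝ) + 2))) :
    formLow (keptW p s) (slopeD p s) (kapS p s) (kapD p s) (cA p (sqTan p s)) (shadR p s)
        (cB p (sqTan p s)) (cC p (sqTan p s)) (scale p s * remR p s) (sqTan p s) (hiQuot p s) L
        (1 / r) (1 / r - 1) ((t - s) / s) ≤ scale p s * excess p L s t a r := by
  have S := st_of_flat h1 h2 hL h
  obtain ⟨B0, e, hB⟩ := excess_ge h1 h2 h rfl rfl rfl rfl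
  obtain ⟨f, -⟩ := eval_fisher (o := .var 0) (z := oVar p s) (τ := 0) (σ := 0) h1 h2 S.s_mem
    (eval_oo p _ _ _) (u := 1 / r - 1) (δ := (t - s) / s) S.v_pos
  obtain ⟨ea, eb, ec, -⟩ := eval_coefs (o := .var 0) (z := oVar p s) (τ := 0) (σ := 0) S.s_mem
    (eval_oo p _ _ _)
  rw [ea, eb, ec] at f
  have g := hB _ (Or.inl le_rfl)
  rw [e, formLow]
  linarith

/-- All expressions of a list are nonnegative on the square of the parameters. -/
def AllNonneg (l : List Expr) (p : ℕ) (z : ℝ) : Prop :=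
  ∀ τ ∈ Icc (0 : ℝ) 1, ∀ σ ∈ Icc (0 : ℝ) 1, ∀ e ∈ l, 0 ≤ e.eval (pt p z τ σ)

theorem keptW_data (hp : 18 ≤ p) (hs : s ∈ Ioo (0 : ℝ) 1) {t : Bool} (ht : Switch p t s) :
    0 ≤ keptW p s / topVal p ∧ keptW p s / topVal p * topVal p = keptW p s ∧
      0 ≤ slopeD p s / topVal p ∧ slopeD p s / topVal p * topVal p = slopeD p s ∧
      0 ≤ keptW p s ∧ 0 ≤ slopeD p s := by
  have he := eps_pos p
  have hT : 0 < topVal p := by rw [topVal]; positivity
  have hS := scale_pos p hs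
  have hc : 0 < arc s := arc_pos ⟨by linarith [hs.1], hs.2⟩
  have hc1 : arc s ≤ 1 := Real.sqrt_le_one.2 (by nlinarith)
  have hb := Ident.b0_pos p
  have hb1 := b0_le_one p
  have hq : 0 ≤ sqCoef p := by rw [sqCoef]; positivity
  have hk : 0 ≤ keptW p s ∧ 0 ≤ slopeD p s := by
    rw [keptW, slopeD, dSw, dSw', wS]
    cases t <;> simp [Switch] at ht
    · rw [Tail.sqp_of_nonpos (by linarith), Tail.sqp'_of_nonpos (by linarith)]
      constructor <;> simp <;> positivity
    · rw [Tail.sqp_of_nonneg (by linarith), Tail.sqp', max_eq_left (by linarith)]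
      refine ⟨mul_nonneg hS.le ?_, mul_nonneg hS.le (mul_nonneg hs.1.le ?_)⟩
      · rw [show sqCoef p * (arc s - Ident.b0 p) ^ 2 * (arc s + 2 * Ident.b0 p) / arc s -
            181 / 250 * sqCoef p * (Ident.b0 p - arc s) ^ 2 * (arc s + 2 * Ident.b0 p) / arc s =
          69 / 250 * sqCoef p * (arc s - Ident.b0 p) ^ 2 * (arc s + 2 * Ident.b0 p) / arc s by
            ring]
        positivity
      · have := sub_nonneg.2 (show arc s ≤ Ident.b0 p by linarith)
        have := hs.1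
        positivity
  exact ⟨div_nonneg hk.1 hT.le, div_mul_cancel₀ _ hT.ne', div_nonneg hk.2 hT.le,
    div_mul_cancel₀ _ hT.ne', hk.1, hk.2⟩

theorem eval_vh (hs : s ∈ Ioo (0 : ℝ) 1) (ho : o.eval (pt p z τ σ) = oVar p s) {t : Bool}
    (ht : Switch p t s) : (xVh t o).eval (pt p z τ σ) = keptW p s / topVal p ∧
      (xSh t o).eval (pt p z τ σ) = slopeD p s / topVal p := by
  have he := eps_pos p
  have hT : topVal p ≠ 0 := by rw [topVal]; positivity
  rw [eq_div_iff hT, eq_div_iff hT]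
  exact ⟨eval_xVh hs ho ht, eval_xSh hs ho ht⟩

/-- The value of a rational constant. -/
noncomputable def qv (q : ℤ × ℕ) : ℝ := (q.1 : ℝ) / q.2

/-- The bound of the mass below in a piece. -/
noncomputable def Piece.hR (P : Piece) (p : ℕ) (s : ℝ) : ℝ :=
  qv P.h0 + qv P.h1 * (oVar p s - qv P.w0)

theorem eval_xH (P : Piece) (ho : o.eval (pt p z τ σ) = oVar p s) :
    (xH P o).eval (pt p z τ σ) = P.hR p s ∧
      (xH1 P o).eval (pt p z τ σ) = (P.rn : ℝ) / P.rd * P.hR p s := by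
  simp [xH, xH1, cst, qv, Piece.hR, ho]

/-- The numerator of the pinned box. -/
noncomputable def tnR (p : ℕ) (X : ℝ) : ℝ := (1 + 3 * eps p) * X + 2 * (1 + eps p * X)

/-- Its denominator. -/
noncomputable def tdR (p : ℕ) (X : ℝ) : ℝ :=
  (1 + 2 * eps p) * X * ((1 + 2 * eps p) * X + 3 * (1 + eps p * X))

theorem eval_box (hs : s ∈ Ioo (0 : ℝ) 1) (ho : o.eval (pt p z τ σ) = oVar p s) :
    (xTn o).eval (pt p z τ σ) = boxQ p (sqTan p s) * tdR p (sqTan p s) ∧
      (xTd o).eval (pt p z τ σ) = tdR p (sqTan p s) ∧ 0 < tdR p (sqTan p s) ∧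
      (xXp o).eval (pt p z τ σ) = slopeX p (sqTan p s) ∧ xE1.eval (pt p z τ σ) = expFac p := by
  have hz : 0 < 1 - s ^ 2 := by nlinarith [hs.1, hs.2]
  have hX : 0 < sqTan p s := div_pos (mul_pos (by positivity) (pow_pos hs.1 2)) hz
  have he := eps_pos p
  have hT : 0 < tdR p (sqTan p s) := by rw [tdR]; positivity
  refine ⟨?_, ?_, hT, ?_, ?_⟩
  · rw [boxQ, show (1 + 2 * eps p) * sqTan p s * ((1 + 2 * eps p) * sqTan p s +
      3 * (1 + eps p * sqTan p s)) = tdR p (sqTan p s) from rfl, div_mul_cancel₀ _ hT.ne']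
    simp [xTn, xQ, eval_xX hs ho, eval_ee]
  · simp [xTd, xQ, tdR, eval_xX hs ho, eval_ee]
  · simp [xXp, xQ, slopeX, eval_xX hs ho, eval_ee]
  · simp [xE1, expFac, eval_ee]; ring

theorem St.pinned (h1 : 18 ≤ p) (h2 : p ≤ 97) (S : St p L s X v u δ) (hd : δ ≤ 0) :
    (∃ τ ∈ Icc (0 : ℝ) 1, δ = -(τ * expFac p * boxQ p X) * L) ∧
      X * (expFac p * boxQ p X) ≤ 1 := by
  have hX := S.X_pos
  have he := eps_pos p
  have he1 : eps p ≤ 1 / 19 := (eps_mem h1 h2).2
  have hF : 0 < expFac p := by rw [expFac]; positivity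
  have hq : 0 < boxQ p X := by rw [boxQ]; positivity
  refine ⟨?_, ?_⟩
  · rcases S.L_mem.1.eq_or_lt with h | h
    · refine ⟨0, ⟨le_rfl, zero_le_one⟩, ?_⟩
      have := S.disp
      rw [← h] at this ⊢
      linarith
    · refine ⟨-δ / (L * expFac p * boxQ p X), ⟨div_nonneg (by linarith) (by positivity),
        (div_le_one (by positivity)).2 S.disp⟩, ?_⟩
      field_simp
  · rw [boxQ, expFac, ← mul_div_assoc, ← mul_div_assoc, div_le_one (by positivity)]
    nlinarith [mul_pos hX hX, mul_pos he hX, mul_pos (mul_pos hX hX) he,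
      mul_le_mul_of_nonneg_left he1 (mul_pos (mul_pos hX hX) he).le,
      mul_le_mul_of_nonneg_left he1 (mul_pos he hX).le]

theorem St.share_small (h1 : 18 ≤ p) (h2 : p ≤ 97) (S : St p L s X v u δ) (hd : δ ≤ 0) :
    u ≤ L * expFac p ∧ v ≤ 51 / 50 ∧ (0 ≤ u → (2 * v + 1) / (2 * (v + 2)) ≤ 503 / 1000) := by
  have h := S.u_le_neg hd
  have he := eps_pos p
  have he1 : eps p ≤ 1 / 19 := (eps_mem h1 h2).2
  have hT := (topVal_le h1 h2).1
  have hv : v ≤ 1 + 1 / 80 * (1 + 1 / 19 / 4) := by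
    have := mul_le_mul (S.L_mem.2.trans hT) (show expFac p ≤ 1 + 1 / 19 / 4 by
      rw [expFac]; linarith) (by rw [expFac]; positivity) (by norm_num)
    linarith [S.v_eq]
  refine ⟨h, by linarith, fun hu => ?_⟩
  rw [div_le_iff₀ (by linarith [S.v_pos])]
  linarith

theorem negList_sound (h1 : 18 ≤ p) (h2 : p ≤ 97) (P : Piece) (C : Choice)
    (S : St p L s X v u δ) (hd : δ ≤ 0)
    (hE : formLow (keptW p s) (slopeD p s) (kapS p s) (kapD p s) (cA p X) (shadR p s)
      (cB p X) (cC p X) (scale p s * remR p s) X (hiQuot p s) L v u δ ≤ E)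
    (ho : ∀ τ σ, o.eval (pt p z τ σ) = oVar p s) (ht : Switch p P.t s)
    (hK : ∀ τ σ, (xK P.h o).eval (pt p z τ σ) = kapS p s ∧
      (xKd P.h o).eval (pt p z τ σ) = kapD p s)
    (hP : ∀ τ σ, (xP P.i o).eval (pt p z τ σ) = scale p s * remR p s)
    (hk0 : 0 ≤ kapS p s) (hm : ∀ τ σ, 0 < (margin C.edge o).eval (pt p z τ σ))
    (hl : AllNonneg (negList P o C) p z) : 0 ≤ E := by
  have hs := S.s_mem
  have hXe := S.X_eq
  obtain ⟨hvh, hV, hDh, hD, hV0, hD0⟩ := keptW_data h1 hs ht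
  obtain ⟨⟨τ, hτ, hδ⟩, hXT⟩ := S.pinned h1 h2 hd
  obtain ⟨huF, hvm, hv1⟩ := S.share_small h1 h2 hd
  have hR : 0 ≤ shadR p s := mul_nonneg (scale_pos p hs).le
    (div_nonneg (Ident.b0_pos p).le (Real.sqrt_nonneg _))
  have hXd : 0 ≤ 1 + X * -(τ * expFac p * boxQ p X) := by
    nlinarith [mul_nonneg (sub_nonneg.2 hτ.2) (mul_nonneg S.X_pos.le
      (show 0 ≤ expFac p * boxQ p X by
        have := eps_pos p
        have := S.X_pos
        rw [expFac, boxQ]; positivity))]
  have hm' := hm τ 0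
  have key : ∀ σ ∈ Icc (0 : ℝ) 1, ∀ e ∈ negList P o C, 0 ≤ e.eval (pt p z τ σ) := hl τ hτ
  simp only [negList, List.mem_append, List.mem_cons, List.not_mem_nil, or_false] at key
  have hA : 0 < cA p X - shadR p s * (1 / 2) := by
    have := key 0 ⟨le_rfl, zero_le_one⟩ _ (Or.inl (Or.inl (Or.inl rfl)))
    obtain ⟨ea, -, -, -⟩ := eval_coefs hs (ho τ 0)
    simp [xA1, ea, eval_xR hs (ho τ 0), hXe] at this
    linarith
  rcases le_total u 0 with hu | hu
  · refine case_low_neg hE hV hvh S.L_mem.1 S.L_mem.2 hD0 hR S.v_eq S.v_pos hu (S.slack hd)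
      hδ hXd hA.le ?_
    obtain ⟨ea, eb, ec, -⟩ := eval_coefs hs (ho τ 0)
    obtain ⟨en, ed, hT, -, eF⟩ := eval_box hs (ho τ 0)
    obtain ⟨eV, -⟩ := eval_vh hs (ho τ 0) ht
    obtain ⟨eK, eKd⟩ := hK τ 0
    rw [hXe] at en ed hT ea eb ec
    have hM : (dM o).eval (pt p z τ 0) = -(τ * expFac p * boxQ p X) * tdR p X := by
      simp [dM, eval_tt, en, eF]
      ring
    have hL' : (nL P o).eval (pt p z τ 0) = tdR p X *
        (kapS p s - keptW p s / topVal p - 2 * cC p X * -(τ * expFac p * boxQ p X)) := by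
      simp [nL, hM, eK, eV, ec, ed]
      ring
    have hC' : (nC0 P o).eval (pt p z τ 0) = tdR p X ^ 2 *
        (keptW p s / topVal p * (1 + X * -(τ * expFac p * boxQ p X)) +
          kapD p s * -(τ * expFac p * boxQ p X) - 63 / 125 * slopeD p s * boxQ p X +
          cB p X * (-(τ * expFac p * boxQ p X)) ^ 2 + scale p s * remR p s) := by
      simp [nC0, hM, eKd, eV, eb, ed, en, hP τ 0, eval_xS hs (ho τ 0) ht,
        eval_xX hs (ho τ 0), hXe]
      ring
    cases hN : C.linN <;> simp only [hN, Bool.false_eq_true, if_false, if_true,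
      List.mem_cons, List.not_mem_nil, or_false] at key
    · right
      refine ⟨hA, ?_⟩
      have := key 0 ⟨le_rfl, zero_le_one⟩ _ (Or.inl (Or.inr rfl))
      simp only [nDisc, Expr.eval_sub, Expr.eval_mul, hL', hC', Expr.eval_ofNat] at this
      simp [xA1, ea, eval_xR hs (ho τ 0), hXe] at this
      refine sub_nonneg.1 ((mul_nonneg_iff_of_pos_left (pow_pos hT 2)).1 ?_)
      linear_combination this
    · left
      have a1 := key 0 ⟨le_rfl, zero_le_one⟩ _ (Or.inl (Or.inr (Or.inl rfl)))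
      have a2 := key 0 ⟨le_rfl, zero_le_one⟩ _ (Or.inl (Or.inr (Or.inr rfl)))
      rw [Expr.eval_neg, hL', neg_nonneg] at a1
      rw [hC'] at a2
      exact ⟨nonpos_of_mul_nonpos_right a1 hT, (mul_nonneg_iff_of_pos_left (pow_pos hT 2)).1 a2⟩
  · obtain ⟨σ, hσ, hw⟩ : ∃ σ ∈ Icc (0 : ℝ) 1, u = σ * expFac p * L := by
      rcases S.L_mem.1.eq_or_lt with h | h
      · refine ⟨0, ⟨le_rfl, zero_le_one⟩, ?_⟩
        rw [← h] at huF ⊢
        linarith
      · have hF : 0 < expFac p := by rw [expFac]; have := eps_pos p; positivity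
        refine ⟨u / (L * expFac p), ⟨div_nonneg hu (by positivity),
          (div_le_one (by positivity)).2 huF⟩, ?_⟩
        field_simp
    obtain ⟨ea, eb, ec, -⟩ := eval_coefs hs (ho τ σ)
    obtain ⟨en, ed, hT, -, eF⟩ := eval_box hs (ho τ σ)
    obtain ⟨eV, -⟩ := eval_vh hs (ho τ σ) ht
    obtain ⟨eK, eKd⟩ := hK τ σ
    rw [hXe] at en ed hT ea eb ec
    obtain ⟨lam, hlam⟩ : ∃ lam, (lamE P o C.kM).eval (pt p z τ σ) = lam := ⟨_, rfl⟩
    have hl0 : 0 ≤ lam := by
      rw [← hlam]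
      cases C.kM
      · simp only [lamE, eV]; exact hvh
      · simp only [lamE, eK]; exact hk0
    have hl1 : lam ≤ keptW p s / topVal p := by
      have := key σ hσ _ (Or.inl (Or.inl (Or.inr rfl)))
      simp [hlam, eV] at this
      linarith
    have hF' : ∀ b, (lF P o C.kM b).eval (pt p z τ σ) = tdR p X ^ 2 *
        (lam * (1 + X * -(τ * expFac p * boxQ p X)) + kapD p s * -(τ * expFac p * boxQ p X) -
          63 / 125 * slopeD p s * boxQ p X +
          (cB p X - keptW p s * (X / 2 + eps p * X ^ 2)) * (-(τ * expFac p * boxQ p X)) ^ 2 +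
          scale p s * remR p s +
          (kapS p s - lam - 2 * cC p X * -(τ * expFac p * boxQ p X)) * (σ * expFac p) +
          (cA p X - (shadR p s + keptW p s) * (503 / 1000)) * (σ * expFac p) ^ 2 *
            (lowInv b).eval (pt p z τ σ)) := fun b => by
      simp [lF, lowShare, dM, eval_tt, eval_ss, hlam, en, ed, eF, eK, eKd, eV, eb, ec, ea,
        hP τ σ, eval_ee, eval_xS hs (ho τ σ) ht, eval_xV hs (ho τ σ) ht, eval_xR hs (ho τ σ),
        eval_xX hs (ho τ σ), hXe]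
      ring
    refine case_high_neg hE hV S.L_mem.1 S.L_mem.2 hD0 (add_nonneg hR hV0) S.v_eq hu hvm (hv1 hu)
      (S.slack hd) hl0 hl1 (W := X / 2 + eps p * X ^ 2)
      (by have := S.X_pos; have := eps_pos p; positivity) (S.cut_neg hd) hδ hw ?_ ?_
    · have h50 : 0 ≤ (lF P o C.kM true).eval (pt p z τ σ) := by
        cases hN : C.posM <;> simp only [hN, Bool.false_eq_true, if_false, if_true,
          List.mem_cons, List.not_mem_nil, or_false] at key
        · exact key σ hσ _ (Or.inr (Or.inl rfl))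
        · exact key σ hσ _ (Or.inr (Or.inr rfl))
      rw [hF'] at h50
      simpa [lowInv] using (mul_nonneg_iff_of_pos_left (pow_pos hT 2)).1 h50
    · cases hN : C.posM <;> simp only [hN, Bool.false_eq_true, if_false, if_true,
        List.mem_cons, List.not_mem_nil, or_false] at key
      · right
        have h50 := key σ hσ _ (Or.inr (Or.inr rfl))
        rw [hF'] at h50
        simpa [lowInv] using (mul_nonneg_iff_of_pos_left (pow_pos hT 2)).1 h50
      · left
        have := key σ hσ _ (Or.inr (Or.inl rfl))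
        simpa [lowShare, ea, eval_xR hs (ho τ σ), eval_xV hs (ho τ σ) ht] using this

/-- What the auxiliary bounds of a piece give. -/
structure Side (p : ℕ) (P : Piece) (L s X v u δ : ℝ) : Prop where
  h_nonneg : 0 ≤ P.hR p s
  root : 0 < δ → v ≤ ((P.rn : ℝ) / P.rd) ^ 2
  d_le : 0 < δ → δ ≤ L * P.hR p s * √v ∧ δ ≤ L * ((P.rn : ℝ) / P.rd * P.hR p s)
  cut : 0 < δ → (1 + δ / 2) ^ 2 ≤ 9 / 8 * (1 - eps p * X * (δ * (2 + δ)))

theorem serE_eval {X : Expr} {x : List ℝ} : (serE X).eval x = serLow (X.eval x) := by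
  simp [serE, serLow]
  ring

theorem exp_half_le (h1 : 18 ≤ p) (h2 : p ≤ 97) (hL : L ∈ Icc 0 (topVal p)) :
    Real.exp (L / 2) ≤ 1 + eps p / 8 + eps p ^ 2 / 16 := by
  obtain ⟨-, ht, -⟩ := topVal_le h1 h2
  have he := eps_pos p
  have he1 : eps p ≤ 1 / 19 := (eps_mem h1 h2).2
  have h := mul_le_mul_of_nonneg_left
    (show 1 - L / 2 ≤ Real.exp (-(L / 2)) by linarith [Real.add_one_le_exp (-(L / 2))])
    (Real.exp_pos (L / 2)).le
  rw [← Real.exp_add, add_neg_cancel, Real.exp_zero] at h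
  refine le_of_mul_le_mul_right (h.trans ?_) (show 0 < 1 - L / 2 by linarith [hL.2])
  nlinarith [hL.1, hL.2.trans ht, sq_nonneg (eps p), mul_le_mul_of_nonneg_left (hL.2.trans ht)
    (show 0 ≤ 1 + eps p / 8 + eps p ^ 2 / 16 by positivity),
    mul_le_mul_of_nonneg_left he1 (sq_nonneg (eps p))]

theorem side_of_list (h1 : 18 ≤ p) (h2 : p ≤ 97) (P : Piece) (S : St p L s X v u δ) (hX : X ≤ 13)
    (hl : ∀ e ∈ sideList P (.var 0), 0 ≤ e.eval (pt p (oVar p s) 0 0)) : Side p P L s X v u δ := by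
  have hs := S.s_mem
  have hXe := S.X_eq
  have ho := eval_oo p (oVar p s) 0 0
  obtain ⟨-, -, -, eXp, eF⟩ := eval_box hs ho
  obtain ⟨eH, eH1⟩ := eval_xH P ho
  have he := eps_pos p
  have hX0 := S.X_pos
  simp only [sideList, List.mem_cons, List.not_mem_nil, or_false] at hl
  have a1 := hl _ (Or.inl rfl)
  have a2 := hl _ (Or.inr (Or.inl rfl))
  have a3 := hl _ (Or.inr (Or.inr rfl))
  simp only [dTop, Expr.eval_sub, Expr.eval_mul, Expr.eval_add, Expr.eval_ofNat, Expr.eval_frac,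
    Expr.eval_pow, serE_eval, eH, eH1, eXp, eF, eval_ee, eval_xX hs ho, hXe] at a1 a2 a3
  push_cast at a1 a2 a3
  have hser := (serLow_pos hX0.le).1
  have hH : 0 ≤ P.hR p s := by
    have : 0 ≤ (1 + eps p * (1 / 8) + eps p ^ 2 * (1 / 16)) * serLow X := by positivity
    linarith
  obtain ⟨-, hT4, -⟩ := topVal_le h1 h2
  have hL := S.L_mem
  have hF : 0 < expFac p := by rw [expFac]; positivity
  have hXp : 0 < slopeX p X := by rw [slopeX]; positivity
  obtain ⟨r, hr0, hr⟩ : ∃ r : ℝ, 0 ≤ r ∧ (P.rn : ℝ) / P.rd = r := ⟨_, by positivity, rfl⟩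
  rw [hr] at a2 a3
  have ha2 : ((P.rn : ℝ) ^ 2 - (P.rd : ℝ) ^ 2) / (P.rd : ℝ) ^ 2 ≤ r ^ 2 - 1 ∨ P.rd = 0 := by
    rcases Nat.eq_zero_or_pos P.rd with h | h
    · exact Or.inr h
    · left
      rw [← hr]
      field_simp
      exact le_rfl
  have hroot : expFac p * eps p * (1 + slopeX p X * (r * P.hR p s)) ≤
      (r ^ 2 - 1) * (4 * (1 + eps p)) := by
    rcases ha2 with h | h
    · linear_combination a2 + 4 * (1 + eps p) * h
    · exfalso
      have : 0 < expFac p * eps p * (1 + slopeX p X * (r * P.hR p s)) := by positivity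
      rw [h] at a2
      simp at a2
      linarith
  have hr1 : 1 ≤ r := by
    have h0 : 0 ≤ (r ^ 2 - 1) * (4 * (1 + eps p)) := le_trans (by positivity) hroot
    have := (mul_nonneg_iff_of_pos_right (show 0 < 4 * (1 + eps p) by positivity)).1 h0
    nlinarith
  have hd : 0 < δ → δ ≤ L * P.hR p s * √v := fun h => by
    have h3 := S.low h (serLow X) (hXe ▸ circLow_le_ser hs
      (show ((p : ℝ) + 1) * s ^ 2 / (1 - s ^ 2) ≤ 13 by rw [← sqTan, hXe]; exact hX))
    refine h3.trans (mul_le_mul_of_nonneg_right ?_ (Real.sqrt_nonneg _))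
    rw [mul_assoc]
    refine mul_le_mul_of_nonneg_left ?_ hL.1
    linear_combination a1 + mul_le_mul_of_nonneg_right (exp_half_le h1 h2 hL) hser.le
  have hv : 0 < δ → √v ≤ r := fun h => by
    refine root_le S.v_pos.le hr1 (K1 := topVal p * expFac p)
      (K2 := topVal p * expFac p * slopeX p X * P.hR p s) ?_ ?_ ?_ ?_
    · exact mul_nonneg (mul_nonneg (mul_nonneg (hL.1.trans hL.2) hF.le) hXp.le) hH
    · have h3 := S.value h
      have h4 := mul_le_mul_of_nonneg_left (hd h) (mul_nonneg hF.le hXp.le)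
      have h5 := mul_le_mul_of_nonneg_left hL.2
        (show 0 ≤ expFac p * (1 + slopeX p X * (P.hR p s * √v)) by positivity)
      linear_combination h3 + h4 + h5 + S.v_eq
    · rw [topVal]
      have e : eps p / (4 * (1 + eps p)) * expFac p +
          eps p / (4 * (1 + eps p)) * expFac p * slopeX p X * P.hR p s * r =
          expFac p * eps p * (1 + slopeX p X * (r * P.hR p s)) / (4 * (1 + eps p)) := by
        field_simp
      rw [e, div_le_iff₀ (by positivity)]
      exact hroot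
    · exact mul_nonneg (hL.1.trans hL.2) hF.le
  refine ⟨hH, fun h => ?_, fun h => ⟨hd h, (hd h).trans ?_⟩, fun h => ?_⟩
  · rw [hr, ← Real.sq_sqrt S.v_pos.le]
    exact pow_le_pow_left₀ (Real.sqrt_nonneg _) (hv h) 2
  · rw [hr, mul_assoc, mul_comm r]
    exact mul_le_mul_of_nonneg_left (mul_le_mul_of_nonneg_left (hv h) hH) hL.1
  · obtain ⟨D, hD⟩ : ∃ D, eps p * (1 / 4) * (r * P.hR p s) = D := ⟨_, rfl⟩
    rw [hD] at a3
    have hdD : δ ≤ D := by
      refine (hd h).trans (le_of_le_of_eq (mul_le_mul (mul_le_mul_of_nonneg_right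
        (hL.2.trans hT4) hH) (hv h) (Real.sqrt_nonneg _) (by positivity)) ?_)
      rw [← hD]; ring
    have : 0 ≤ D := h.le.trans hdD
    have h6 : δ * (2 + δ) ≤ D * (2 + D) := by gcongr
    have h7 : (1 + δ / 2) ^ 2 ≤ (1 + D / 2) ^ 2 := by gcongr
    linear_combination a3 + h7 +
      mul_le_mul_of_nonneg_left h6 (show 0 ≤ 9 / 8 * (eps p * X) by positivity)

theorem posList_sound (h1 : 18 ≤ p) (h2 : p ≤ 97) (P : Piece) (C : Choice)
    (S : St p L s X v u δ) (hd : 0 < δ) (Sd : Side p P L s X v u δ)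
    (hE : formLow (keptW p s) (slopeD p s) (kapS p s) (kapD p s) (cA p X) (shadR p s)
      (cB p X) (cC p X) (scale p s * remR p s) X (hiQuot p s) L v u δ ≤ E)
    (ho : ∀ τ σ, o.eval (pt p z τ σ) = oVar p s) (ht : Switch p P.t s)
    (hK : ∀ τ σ, (xK P.h o).eval (pt p z τ σ) = kapS p s ∧
      (xKd P.h o).eval (pt p z τ σ) = kapD p s)
    (hP : ∀ τ σ, (xP P.i o).eval (pt p z τ σ) = scale p s * remR p s)
    (hk0 : 0 ≤ kapS p s) (hm : ∀ τ σ, 0 < (margin C.edge o).eval (pt p z τ σ))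
    (hl : AllNonneg (posList P o C) p z) : 0 ≤ E := by
  have hs := S.s_mem
  have hXe := S.X_eq
  have he := eps_pos p
  have hX0 := S.X_pos
  obtain ⟨hvh, hV, hDh, hD, hV0, hD0⟩ := keptW_data h1 hs ht
  obtain ⟨hd1, hd2⟩ := Sd.d_le hd
  have hR : 0 ≤ shadR p s := mul_nonneg (scale_pos p hs).le
    (div_nonneg (Ident.b0_pos p).le (Real.sqrt_nonneg _))
  have hL : 0 < L := by
    rcases S.L_mem.1.eq_or_lt with h | h
    · rw [← h] at hd1; linarith
    · exact h
  have hXp : 0 < slopeX p X := by rw [slopeX]; positivity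
  simp only [AllNonneg, posList, List.mem_append, List.mem_cons, List.not_mem_nil, or_false] at hl
  have hH : 0 < P.hR p s := Sd.h_nonneg.lt_of_ne fun h => by rw [← h] at hd1; linarith
  have hA : 0 < cA p X - shadR p s * (1 / 2) := by
    have := hl 0 ⟨le_rfl, zero_le_one⟩ 0 ⟨le_rfl, zero_le_one⟩ _ (Or.inl (Or.inl (Or.inl rfl)))
    obtain ⟨ea, -, -, -⟩ := eval_coefs hs (ho 0 0)
    have := hm 0 0
    simp [xA1, ea, eval_xR hs (ho 0 0), hXe] at *
    linarith
  rcases le_total u 0 with hu | hu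
  · have hv1 : v ≤ 1 := by linarith [S.v_eq]
    obtain ⟨τ, hτ, hδ⟩ : ∃ τ ∈ Icc (0 : ℝ) 1, δ = τ * P.hR p s * L := by
      refine ⟨δ / (L * P.hR p s), ⟨by positivity, (div_le_one (by positivity)).2
        (hd1.trans ?_)⟩, by field_simp⟩
      exact mul_le_of_le_one_right (by positivity) (Real.sqrt_le_one.2 hv1)
    refine case_low_pos hE hV hvh S.L_mem.1 S.L_mem.2 hR S.v_eq S.v_pos hu hD hDh hXp S.hi_ge
      hδ hd.le hX0.le hA.le ?_
    obtain ⟨ea, eb, ec, -⟩ := eval_coefs hs (ho τ 0)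
    obtain ⟨-, -, -, eXp, eF⟩ := eval_box hs (ho τ 0)
    obtain ⟨eV, eS⟩ := eval_vh hs (ho τ 0) ht
    obtain ⟨eK, eKd⟩ := hK τ 0
    obtain ⟨eH, -⟩ := eval_xH P (ho τ 0)
    rw [hXe] at eXp ea eb ec
    have hM : (dP P o).eval (pt p z τ 0) = τ * P.hR p s := by simp [dP, eval_tt, eH]
    have hL' : (pL P o).eval (pt p z τ 0) =
        kapS p s - keptW p s / topVal p - 2 * cC p X * (τ * P.hR p s) := by
      simp [pL, hM, eK, eV, ec]
    have hC' : (pC0 P o).eval (pt p z τ 0) = (keptW p s / topVal p * (1 + X * (τ * P.hR p s)) +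
        kapD p s * (τ * P.hR p s) + cB p X * (τ * P.hR p s) ^ 2 + scale p s * remR p s) *
          slopeX p X + slopeD p s / topVal p * (τ * P.hR p s * slopeX p X + 1) := by
      simp only [pC0, Expr.eval_add, Expr.eval_mul, Expr.eval_ofNat, hM, eKd, eV, eS, eb, eXp,
        hP τ 0, eval_xX hs (ho τ 0), hXe]
      push_cast
      ring
    have key := hl τ hτ 0 ⟨le_rfl, zero_le_one⟩
    cases hN : C.linP <;> simp only [hN, Bool.false_eq_true, if_false, if_true,
      List.mem_cons, List.not_mem_nil, or_false] at key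
    · right
      refine ⟨hA, ?_⟩
      have := key _ (Or.inl (Or.inr rfl))
      simp only [pDisc, Expr.eval_sub, Expr.eval_mul, hL', hC', eXp, Expr.eval_ofNat] at this
      simp [xA1, ea, eval_xR hs (ho τ 0)] at this
      linear_combination this
    · left
      have a1 := key _ (Or.inl (Or.inr (Or.inl rfl)))
      have a2 := key _ (Or.inl (Or.inr (Or.inr rfl)))
      rw [Expr.eval_neg, hL', neg_nonneg] at a1
      rw [hC'] at a2
      exact ⟨a1, a2⟩
  · obtain ⟨τ, hτ, hδ⟩ : ∃ τ ∈ Icc (0 : ℝ) 1, δ = τ * ((P.rn : ℝ) / P.rd * P.hR p s) * L := by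
      have hpos : 0 < L * ((P.rn : ℝ) / P.rd * P.hR p s) := hd.trans_le hd2
      refine ⟨δ / (L * ((P.rn : ℝ) / P.rd * P.hR p s)), ⟨by positivity, (div_le_one hpos).2 hd2⟩,
        ?_⟩
      obtain ⟨G, hG⟩ : ∃ G, (P.rn : ℝ) / P.rd * P.hR p s = G := ⟨_, rfl⟩
      rw [hG] at hpos ⊢
      have := (mul_ne_zero_iff.1 hpos.ne').2
      field_simp
    obtain ⟨σ, hσ, hw⟩ : ∃ σ ∈ Icc (0 : ℝ) 1, u = σ * expFac p *
        (1 + slopeX p X * (τ * ((P.rn : ℝ) / P.rd * P.hR p s))) * L := by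
      have hτ0 := hτ.1
      have := Sd.h_nonneg
      have hF : 0 < expFac p := by rw [expFac]; positivity
      refine ⟨u / (expFac p * (1 + slopeX p X * (τ * ((P.rn : ℝ) / P.rd * P.hR p s))) * L),
        ⟨by positivity, (div_le_one (by positivity)).2 ((S.value hd).trans (le_of_eq ?_))⟩,
        by field_simp⟩
      rw [hδ]; ring
    obtain ⟨ea, eb, ec, -⟩ := eval_coefs hs (ho τ σ)
    obtain ⟨-, -, -, eXp, eF⟩ := eval_box hs (ho τ σ)
    obtain ⟨eV, eS⟩ := eval_vh hs (ho τ σ) ht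
    obtain ⟨eK, eKd⟩ := hK τ σ
    obtain ⟨-, eH⟩ := eval_xH P (ho τ σ)
    rw [hXe] at eXp ea eb ec
    obtain ⟨lam, hlam⟩ : ∃ lam, (lamE P o C.kP).eval (pt p z τ σ) = lam := ⟨_, rfl⟩
    have hl0 : 0 ≤ lam := by
      rw [← hlam]
      cases C.kP
      · simp only [lamE, eV]; exact hvh
      · simp only [lamE, eK]; exact hk0
    have hl1 : lam ≤ keptW p s / topVal p := by
      have := hl τ hτ σ hσ _ (Or.inl (Or.inl (Or.inr rfl)))
      simp [hlam, eV] at this
      linarith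
    obtain ⟨rn, hrn⟩ : ∃ rn : ℝ, (P.rn : ℝ) = rn := ⟨_, rfl⟩
    obtain ⟨rd, hrd⟩ : ∃ rd : ℝ, (P.rd : ℝ) = rd := ⟨_, rfl⟩
    obtain ⟨d, hd'⟩ : ∃ d, τ * ((P.rn : ℝ) / P.rd * P.hR p s) = d := ⟨_, rfl⟩
    have hF' : ∀ b, (hF P o C.kP b).eval (pt p z τ σ) =
        (lam * (1 + X * d) + kapD p s * d +
          (cB p X - keptW p s * (X / 2 + 9 / 8 * eps p * X ^ 2)) * d ^ 2 +
          scale p s * remR p s) * slopeX p X + slopeD p s / topVal p * (d * slopeX p X + 1) +
          (kapS p s - lam - 2 * cC p X * d) * slopeX p X *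
            (σ * expFac p * (1 + slopeX p X * d)) +
          (cA p X - (shadR p s + keptW p s) *
            ((2 * rn ^ 2 + rd ^ 2) / (2 * (rn ^ 2 + 2 * rd ^ 2)))) *
            (σ * expFac p * (1 + slopeX p X * d)) ^ 2 * slopeX p X *
            (highInv P b).eval (pt p z τ σ) := fun b => by
      rw [← hd']
      simp [hF, highShare, dQ, wQ, eval_tt, eval_ss, hlam, eF, eXp, eH, eK, eKd, eS, eb, ec, ea,
        hP τ σ, eval_ee, eval_xV hs (ho τ σ) ht, eval_xR hs (ho τ σ),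
        eval_xX hs (ho τ σ), hXe, ← hrn, ← hrd]
      ring
    rw [hd'] at hδ hw
    have hv : v ≤ (rn / rd) ^ 2 := by rw [← hrn, ← hrd]; exact Sd.root hd
    have hrd0 : rd ≠ 0 := fun h => by
      rw [h] at hv; simp at hv; linarith [S.v_pos]
    refine case_high_pos hE hV S.L_mem.1 S.L_mem.2 (add_nonneg hR hV0) S.v_eq hu hv
      (share_le S.v_pos hv) hD hDh hXp S.hi_ge hl0 hl1 (W := X / 2 + 9 / 8 * eps p * X ^ 2)
      (by positivity) (S.cut_pos hd.le (Sd.cut hd)) hδ hd.le hw ?_ ?_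
    · have h50 : 0 ≤ (hF P o C.kP true).eval (pt p z τ σ) := by
        have key := hl τ hτ σ hσ
        cases hN : C.posP <;> simp only [hN, Bool.false_eq_true, if_false, if_true,
          List.mem_cons, List.not_mem_nil, or_false] at key
        · exact key _ (Or.inr (Or.inl rfl))
        · exact key _ (Or.inr (Or.inr rfl))
      rw [hF'] at h50
      refine h50.trans (le_of_eq ?_)
      simp [highInv, hrn, hrd]
      field_simp
    · have key := hl τ hτ σ hσ
      cases hN : C.posP <;> simp only [hN, Bool.false_eq_true, if_false, if_true,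
        List.mem_cons, List.not_mem_nil, or_false] at key
      · right
        have h50 := key _ (Or.inr (Or.inr rfl))
        rw [hF'] at h50
        refine h50.trans (le_of_eq ?_)
        simp only [highInv, Expr.eval_ofNat]
        push_cast
        rw [show (2 * (rn / rd) ^ 2 + 1) / (2 * ((rn / rd) ^ 2 + 2)) =
          (2 * rn ^ 2 + rd ^ 2) / (2 * (rn ^ 2 + 2 * rd ^ 2)) by field_simp]
        ring
      · left
        have := key _ (Or.inr (Or.inl rfl))
        simp [highShare, ea, eval_xR hs (ho τ σ), eval_xV hs (ho τ σ) ht, hrn, hrd] at this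
        have e : (2 * (rn / rd) ^ 2 + 1) / (2 * ((rn / rd) ^ 2 + 2)) =
            (2 * rn ^ 2 + rd ^ 2) / (2 * (rn ^ 2 + 2 * rd ^ 2)) := by field_simp
        rw [e]
        linarith

theorem smallList_sound (h1 : 18 ≤ p) (h2 : p ≤ 97) (P : Piece)
    (S : St p L s X v u δ) (hd : δ ≤ 0)
    (hE : formLow (keptW p s) (slopeD p s) (kapS p s) (kapD p s) (cA p X) (shadR p s)
      (cB p X) (cC p X) (scale p s * remR p s) X (hiQuot p s) L v u δ ≤ E)
    (ho : ∀ τ σ, o.eval (pt p z τ σ) = oVar p s) (hb : P.t = false) (ht : Switch p P.t s)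
    (hK : ∀ τ σ, (xK P.h o).eval (pt p z τ σ) = kapS p s ∧
      (xKd P.h o).eval (pt p z τ σ) = kapD p s)
    (hP : ∀ τ σ, (xP P.i o).eval (pt p z τ σ) = scale p s * remR p s)
    (hk0 : 0 ≤ kapS p s) (hl : ∀ e ∈ smallList P o, 0 ≤ e.eval (pt p z 0 0)) : 0 ≤ E := by
  have hs := S.s_mem
  have hXe := S.X_eq
  obtain ⟨hvh, hV, hDh, hD, hV0, hD0⟩ := keptW_data h1 hs ht
  obtain ⟨⟨τ, hτ, hδ⟩, hXT⟩ := S.pinned h1 h2 hd
  obtain ⟨huF, hvm, hv1⟩ := S.share_small h1 h2 hd
  have hR : 0 ≤ shadR p s := mul_nonneg (scale_pos p hs).le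
    (div_nonneg (Ident.b0_pos p).le (Real.sqrt_nonneg _))
  obtain ⟨ea, eb, ec, -⟩ := eval_coefs hs (ho 0 0)
  obtain ⟨eV, -⟩ := eval_vh hs (ho 0 0) ht
  obtain ⟨eK, eKd⟩ := hK 0 0
  rw [hXe] at ea eb ec
  have hS0 : slopeD p s = 0 := by
    rw [← eval_xS hs (ho 0 0) ht, hb]; simp [xS]
  rw [hS0] at hE
  have key := hl
  simp only [smallList, List.forall_mem_cons, List.forall_mem_nil, Expr.eval_sub, Expr.eval_mul,
    Expr.eval_add, detS, xB1, xA1, lowShare, Expr.eval_frac, Expr.eval_ofNat, eV, eK, eKd, ea, eb,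
    ec, eval_xR hs (ho 0 0), eval_xV hs (ho 0 0) ht, eval_xX hs (ho 0 0), eval_ee, hP 0 0, hXe]
    at key
  obtain ⟨k1, k2, k3, k4, k5, k6, k7, k8, -⟩ := key
  push_cast at k1 k2 k3 k4 k5 k6 k7 k8
  rcases le_total u 0 with hu | hu
  · refine case_small_low hE hV hvh S.L_mem.1 S.L_mem.2 hR S.v_eq S.v_pos hu ?_ (by linarith)
      (by linarith) (by linarith) (by linear_combination k4)
    rw [hδ]
    nlinarith [mul_nonneg (mul_nonneg hτ.1 S.L_mem.1) (sub_nonneg.2 hXT),
      mul_nonneg (sub_nonneg.2 hτ.2) S.L_mem.1]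
  · exact case_small_high hE hV S.L_mem.1 S.L_mem.2 (add_nonneg hR hV0) S.v_eq hu hd (hv1 hu) hk0
      (by linarith) (by rw [cC]; have := Ident.b0_pos p; have := S.X_pos; positivity)
      (W := X / 2 + eps p * X ^ 2) (by have := eps_pos p; have := S.X_pos; positivity)
      (S.cut_neg hd) (by linarith) (by linear_combination k7 + (by norm_num : (0:ℝ) < 1 / 1000))
      (by linear_combination k8)

end Vale.Agent.P237.Petty.Cor.TinyMid
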