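import Vale.Agent.P237.Petty.Cor.TinyMid.TailExprs

/-!
# P237: the bands of `81 / 20 ≤ X ≤ 20` and their certificates below `5 / 4`
-/

namespace Vale.Agent.P237.Petty.Cor.TinyMid

open Vale.Agent.P100.Bernstein

/-- The bands of the abscissae. -/
def band : ℕ → Band
  | 0 => ⟨(81, 20), (5, 1), some ((4513, 1000), (113, 50)), 6, 0⟩
  | 1 => ⟨(5, 1), (6, 1), some ((333, 50), (3481, 1000)), 6, 0⟩
  | 2 => ⟨(6, 1), (7, 1), some ((10141, 1000), (5451, 1000)), 6, 0⟩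
  | 3 => ⟨(7, 1), (8, 1), some ((1949, 125), (2147, 250)), 6, 1⟩
  | 4 => ⟨(8, 1), (9, 1), some ((1209, 50), (2721, 200)), 6, 1⟩
  | 5 => ⟨(9, 1), (10, 1), some ((7557, 200), (21643, 1000)), 9, 2⟩
  | 6 => ⟨(10, 1), (11, 1), some ((14857, 250), (4314, 125)), 9, 2⟩
  | 7 => ⟨(11, 1), (12, 1), some ((4697, 50), (27513, 500)), 9, 2⟩
  | 8 => ⟨(12, 1), (13, 1), some ((74483, 500), (87481, 1000)), 9, 2⟩
  | _ => ⟨(13, 1), (20, 1), none, 9, 2⟩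

/-- The segments of the values in a band. -/
def seg : ℕ → ℕ → Seg
  | 0, 0 => ⟨1, 1, true, 6, 5⟩
  | 0, 1 => ⟨3, 4, true, 27, 20⟩
  | 0, 2 => ⟨3, 5, false, 8, 5⟩
  | 0, _ => ⟨1, 2, false, 43, 20⟩
  | 1, 0 => ⟨1, 1, true, 6, 5⟩
  | 1, 1 => ⟨3, 4, true, 27, 20⟩
  | 1, 2 => ⟨3, 5, false, 8, 5⟩
  | 1, _ => ⟨1, 2, false, 43, 20⟩
  | 2, 0 => ⟨1, 1, false, 6, 5⟩
  | 2, 1 => ⟨3, 4, true, 27, 20⟩
  | 2, 2 => ⟨3, 5, false, 8, 5⟩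
  | 2, _ => ⟨1, 2, false, 43, 20⟩
  | 3, 0 => ⟨1, 1, false, 6, 5⟩
  | 3, 1 => ⟨3, 4, false, 27, 20⟩
  | 3, 2 => ⟨3, 5, false, 8, 5⟩
  | 3, _ => ⟨1, 2, false, 43, 20⟩
  | 4, 0 => ⟨1, 1, false, 6, 5⟩
  | 4, 1 => ⟨3, 4, false, 27, 20⟩
  | 4, 2 => ⟨3, 5, false, 8, 5⟩
  | 4, _ => ⟨1, 2, false, 43, 20⟩
  | 5, 0 => ⟨1, 1, false, 6, 5⟩
  | 5, 1 => ⟨3, 4, false, 27, 20⟩
  | 5, 2 => ⟨3, 5, false, 8, 5⟩
  | 5, _ => ⟨1, 2, false, 49, 20⟩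
  | 6, 0 => ⟨1, 1, false, 6, 5⟩
  | 6, 1 => ⟨3, 4, false, 27, 20⟩
  | 6, 2 => ⟨3, 5, false, 8, 5⟩
  | 6, _ => ⟨1, 2, false, 49, 20⟩
  | 7, 0 => ⟨1, 1, false, 6, 5⟩
  | 7, 1 => ⟨3, 4, false, 27, 20⟩
  | 7, 2 => ⟨3, 5, false, 8, 5⟩
  | 7, _ => ⟨1, 2, false, 49, 20⟩
  | 8, 0 => ⟨1, 1, false, 6, 5⟩
  | 8, 1 => ⟨3, 4, false, 27, 20⟩
  | 8, 2 => ⟨3, 5, false, 8, 5⟩
  | 8, _ => ⟨1, 2, false, 49, 20⟩
  | _, 0 => ⟨1, 1, false, 6, 5⟩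
  | _, 1 => ⟨1, 1, false, 27, 20⟩
  | _, 2 => ⟨3, 5, false, 8, 5⟩
  | _, _ => ⟨1, 2, false, 49, 20⟩

/-- Band 0: values near one. -/
theorem bandNear0 : coverTree (listNear (band 0).hl ++ (band 0).vio)
    [⟨1927, 2469, 1000⟩, ⟨19, 98, 1862⟩, ⟨0, 1, 1⟩, ⟨0, 0, 1⟩, ⟨0, 0, 1⟩]
    (.split 1 (.leaf 1) (.split 1 (.split 1 (.leaf 0) (.leaf 2)) (.leaf 2))) = true := by
  decide +kernel

/-- Band 0: positive displacements below one. -/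
theorem bandLa0 : coverTree (listLa (band 0).hl ++ (band 0).vio)
    [⟨1927, 2469, 1000⟩, ⟨19, 98, 1862⟩, ⟨0, 1, 1⟩, ⟨0, 0, 1⟩, ⟨0, 0, 1⟩]
    (.leaf 1) = true := by
  decide +kernel

/-- Band 0: the largest value. -/
theorem bandCap0 : coverTree (listCap (band 0).hl (band 0).cap ++ (band 0).vio)
    [⟨1927, 2469, 1000⟩, ⟨19, 98, 1862⟩, ⟨0, 1, 1⟩, ⟨0, 0, 1⟩, ⟨0, 0, 1⟩]
    (.leaf 0) = true := by
  decide +kernel

/-- Band 1: values near one. -/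
theorem bandNear1 : coverTree (listNear (band 1).hl ++ (band 1).vio)
    [⟨1177, 1478, 500⟩, ⟨19, 98, 1862⟩, ⟨0, 1, 1⟩, ⟨0, 0, 1⟩, ⟨0, 0, 1⟩]
    (.split 1 (.leaf 1) (.leaf 2)) = true := by
  decide +kernel

/-- Band 1: positive displacements below one. -/
theorem bandLa1 : coverTree (listLa (band 1).hl ++ (band 1).vio)
    [⟨1177, 1478, 500⟩, ⟨19, 98, 1862⟩, ⟨0, 1, 1⟩, ⟨0, 0, 1⟩, ⟨0, 0, 1⟩]
    (.leaf 1) = true := by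
  decide +kernel

/-- Band 1: the largest value. -/
theorem bandCap1 : coverTree (listCap (band 1).hl (band 1).cap ++ (band 1).vio)
    [⟨1177, 1478, 500⟩, ⟨19, 98, 1862⟩, ⟨0, 1, 1⟩, ⟨0, 0, 1⟩, ⟨0, 0, 1⟩]
    (.leaf 0) = true := by
  decide +kernel

/-- Band 2: values near one. -/
theorem bandNear2 : coverTree (listNear (band 2).hl ++ (band 2).vio)
    [⟨1397, 1720, 500⟩, ⟨19, 98, 1862⟩, ⟨0, 1, 1⟩, ⟨0, 0, 1⟩, ⟨0, 0, 1⟩]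
    (.split 1 (.leaf 0) (.leaf 2)) = true := by
  decide +kernel

/-- Band 2: positive displacements below one. -/
theorem bandLa2 : coverTree (listLa (band 2).hl ++ (band 2).vio)
    [⟨1397, 1720, 500⟩, ⟨19, 98, 1862⟩, ⟨0, 1, 1⟩, ⟨0, 0, 1⟩, ⟨0, 0, 1⟩]
    (.leaf 1) = true := by
  decide +kernel

/-- Band 2: the largest value. -/
theorem bandCap2 : coverTree (listCap (band 2).hl (band 2).cap ++ (band 2).vio)
    [⟨1397, 1720, 500⟩, ⟨19, 98, 1862⟩, ⟨0, 1, 1⟩, ⟨0, 0, 1⟩, ⟨0, 0, 1⟩]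
    (.leaf 0) = true := by
  decide +kernel

/-- Band 3: values near one. -/
theorem bandNear3 : coverTree (listNear (band 3).hl ++ (band 3).vio)
    [⟨1613, 1961, 500⟩, ⟨19, 98, 1862⟩, ⟨0, 1, 1⟩, ⟨0, 0, 1⟩, ⟨0, 0, 1⟩]
    (.split 1 (.leaf 0) (.leaf 2)) = true := by
  decide +kernel

/-- Band 3: positive displacements below one. -/
theorem bandLa3 : coverTree (listLa (band 3).hl ++ (band 3).vio)
    [⟨1613, 1961, 500⟩, ⟨19, 98, 1862⟩, ⟨0, 1, 1⟩, ⟨0, 0, 1⟩, ⟨0, 0, 1⟩]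
    (.leaf 1) = true := by
  decide +kernel

/-- Band 3: the largest value. -/
theorem bandCap3 : coverTree (listCap (band 3).hl (band 3).cap ++ (band 3).vio)
    [⟨1613, 1961, 500⟩, ⟨19, 98, 1862⟩, ⟨0, 1, 1⟩, ⟨0, 0, 1⟩, ⟨0, 0, 1⟩]
    (.leaf 0) = true := by
  decide +kernel

/-- Band 4: values near one. -/
theorem bandNear4 : coverTree (listNear (band 4).hl ++ (band 4).vio)
    [⟨3649, 4402, 1000⟩, ⟨19, 98, 1862⟩, ⟨0, 1, 1⟩, ⟨0, 0, 1⟩, ⟨0, 0, 1⟩]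
    (.split 1 (.leaf 0) (.leaf 2)) = true := by
  decide +kernel

/-- Band 4: positive displacements below one. -/
theorem bandLa4 : coverTree (listLa (band 4).hl ++ (band 4).vio)
    [⟨3649, 4402, 1000⟩, ⟨19, 98, 1862⟩, ⟨0, 1, 1⟩, ⟨0, 0, 1⟩, ⟨0, 0, 1⟩]
    (.leaf 1) = true := by
  decide +kernel

/-- Band 4: the largest value. -/
theorem bandCap4 : coverTree (listCap (band 4).hl (band 4).cap ++ (band 4).vio)
    [⟨3649, 4402, 1000⟩, ⟨19, 98, 1862⟩, ⟨0, 1, 1⟩, ⟨0, 0, 1⟩, ⟨0, 0, 1⟩]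
    (.leaf 0) = true := by
  decide +kernel

/-- Band 5: values near one. -/
theorem bandNear5 : coverTree (listNear (band 5).hl ++ (band 5).vio)
    [⟨4065, 4879, 1000⟩, ⟨19, 98, 1862⟩, ⟨0, 1, 1⟩, ⟨0, 0, 1⟩, ⟨0, 0, 1⟩]
    (.split 1 (.leaf 0) (.split 0 (.leaf 2) (.split 1 (.leaf 2) (.split 1 (.leaf 2) (.leaf 4))))) = true := by
  decide +kernel

/-- Band 5: positive displacements below one. -/
theorem bandLa5 : coverTree (listLa (band 5).hl ++ (band 5).vio)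
    [⟨4065, 4879, 1000⟩, ⟨19, 98, 1862⟩, ⟨0, 1, 1⟩, ⟨0, 0, 1⟩, ⟨0, 0, 1⟩]
    (.leaf 0) = true := by
  decide +kernel

/-- Band 5: the largest value. -/
theorem bandCap5 : coverTree (listCap (band 5).hl (band 5).cap ++ (band 5).vio)
    [⟨4065, 4879, 1000⟩, ⟨19, 98, 1862⟩, ⟨0, 1, 1⟩, ⟨0, 0, 1⟩, ⟨0, 0, 1⟩]
    (.leaf 1) = true := by
  decide +kernel

/-- Band 6: values near one. -/
theorem bandNear6 : coverTree (listNear (band 6).hl ++ (band 6).vio)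
    [⟨4473, 5354, 1000⟩, ⟨19, 98, 1862⟩, ⟨0, 1, 1⟩, ⟨0, 0, 1⟩, ⟨0, 0, 1⟩]
    (.split 1 (.leaf 0) (.split 1 (.leaf 2) (.split 1 (.leaf 2) (.leaf 4)))) = true := by
  decide +kernel

/-- Band 6: positive displacements below one. -/
theorem bandLa6 : coverTree (listLa (band 6).hl ++ (band 6).vio)
    [⟨4473, 5354, 1000⟩, ⟨19, 98, 1862⟩, ⟨0, 1, 1⟩, ⟨0, 0, 1⟩, ⟨0, 0, 1⟩]
    (.leaf 0) = true := by
  decide +kernel

/-- Band 6: the largest value. -/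
theorem bandCap6 : coverTree (listCap (band 6).hl (band 6).cap ++ (band 6).vio)
    [⟨4473, 5354, 1000⟩, ⟨19, 98, 1862⟩, ⟨0, 1, 1⟩, ⟨0, 0, 1⟩, ⟨0, 0, 1⟩]
    (.leaf 1) = true := by
  decide +kernel

/-- Band 7: values near one. -/
theorem bandNear7 : coverTree (listNear (band 7).hl ++ (band 7).vio)
    [⟨4874, 5827, 1000⟩, ⟨19, 98, 1862⟩, ⟨0, 1, 1⟩, ⟨0, 0, 1⟩, ⟨0, 0, 1⟩]
    (.split 1 (.leaf 0) (.split 1 (.leaf 2) (.leaf 4))) = true := by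
  decide +kernel

/-- Band 7: positive displacements below one. -/
theorem bandLa7 : coverTree (listLa (band 7).hl ++ (band 7).vio)
    [⟨4874, 5827, 1000⟩, ⟨19, 98, 1862⟩, ⟨0, 1, 1⟩, ⟨0, 0, 1⟩, ⟨0, 0, 1⟩]
    (.leaf 0) = true := by
  decide +kernel

/-- Band 7: the largest value. -/
theorem bandCap7 : coverTree (listCap (band 7).hl (band 7).cap ++ (band 7).vio)
    [⟨4874, 5827, 1000⟩, ⟨19, 98, 1862⟩, ⟨0, 1, 1⟩, ⟨0, 0, 1⟩, ⟨0, 0, 1⟩]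
    (.leaf 1) = true := by
  decide +kernel

/-- Band 8: values near one. -/
theorem bandNear8 : coverTree (listNear (band 8).hl ++ (band 8).vio)
    [⟨5269, 6298, 1000⟩, ⟨19, 98, 1862⟩, ⟨0, 1, 1⟩, ⟨0, 0, 1⟩, ⟨0, 0, 1⟩]
    (.split 1 (.leaf 0) (.split 1 (.leaf 2) (.leaf 4))) = true := by
  decide +kernel

/-- Band 8: positive displacements below one. -/
theorem bandLa8 : coverTree (listLa (band 8).hl ++ (band 8).vio)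
    [⟨5269, 6298, 1000⟩, ⟨19, 98, 1862⟩, ⟨0, 1, 1⟩, ⟨0, 0, 1⟩, ⟨0, 0, 1⟩]
    (.leaf 0) = true := by
  decide +kernel

/-- Band 8: the largest value. -/
theorem bandCap8 : coverTree (listCap (band 8).hl (band 8).cap ++ (band 8).vio)
    [⟨5269, 6298, 1000⟩, ⟨19, 98, 1862⟩, ⟨0, 1, 1⟩, ⟨0, 0, 1⟩, ⟨0, 0, 1⟩]
    (.leaf 1) = true := by
  decide +kernel

/-- Band 9: values near one. -/
theorem bandNear9 : coverTree (listNear (band 9).hl ++ (band 9).vio)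
    [⟨5657, 9537, 1000⟩, ⟨19, 98, 1862⟩, ⟨0, 1, 1⟩, ⟨0, 0, 1⟩, ⟨0, 0, 1⟩]
    (.split 1 (.leaf 0) (.split 1 (.leaf 2) (.leaf 4))) = true := by
  decide +kernel

/-- Band 9: positive displacements below one. -/
theorem bandLa9 : coverTree (listLa (band 9).hl ++ (band 9).vio)
    [⟨5657, 9537, 1000⟩, ⟨19, 98, 1862⟩, ⟨0, 1, 1⟩, ⟨0, 0, 1⟩, ⟨0, 0, 1⟩]
    (.leaf 0) = true := by
  decide +kernel

/-- Band 9: the largest value. -/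
theorem bandCap9 : coverTree (listCap (band 9).hl (band 9).cap ++ (band 9).vio)
    [⟨5657, 9537, 1000⟩, ⟨19, 98, 1862⟩, ⟨0, 1, 1⟩, ⟨0, 0, 1⟩, ⟨0, 0, 1⟩]
    (.leaf 0) = true := by
  decide +kernel

end Vale.Agent.P237.Petty.Cor.TinyMid
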