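import Vale.Agent.P237.Petty.Cor.TinyMid.CertBand

/-!
# P237: certificates of the segments of the values, bands 0 to 2
-/

namespace Vale.Agent.P237.Petty.Cor.TinyMid

open Vale.Agent.P100.Bernstein

/-- Band 0, segment 0. -/
def bandSeg00 : coverTree (listMid (seg 0 0) (band 0).hl (band 0).sgn ++ (band 0).vio)
    [⟨1927, 2469, 1000⟩, ⟨19, 98, 1862⟩, ⟨0, 1, 1⟩, ⟨5, 6, 4⟩, ⟨0, 0, 1⟩]
    (.split 1 (.split 3 (.split 1 (.leaf 1) (.leaf 0)) (.leaf 1)) (.leaf 0)) = true := by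
  decide +kernel

/-- Band 0, segment 1. -/
def bandSeg01 : coverTree (listMid (seg 0 1) (band 0).hl (band 0).sgn ++ (band 0).vio)
    [⟨1927, 2469, 1000⟩, ⟨19, 98, 1862⟩, ⟨0, 1, 1⟩, ⟨3, 4, 2⟩, ⟨0, 0, 1⟩]
    (.split 3 (.split 1 (.leaf 1) (.split 3 (.split 0 (.split 1 (.leaf 1) (.split 3 (.leaf 0) (.leaf 1))) (.split 1 (.split 3 (.leaf 0) (.leaf 1)) (.leaf 0))) (.leaf 1))) (.leaf 1)) = true := by
  decide +kernel

/-- Band 0, segment 2. -/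
def bandSeg02 : coverTree (listMid (seg 0 2) (band 0).hl (band 0).sgn ++ (band 0).vio)
    [⟨1927, 2469, 1000⟩, ⟨19, 98, 1862⟩, ⟨0, 1, 1⟩, ⟨2, 3, 1⟩, ⟨0, 0, 1⟩]
    (.leaf 1) = true := by
  decide +kernel

/-- Band 0, segment 3. -/
def bandSeg03 : coverTree (listMid (seg 0 3) (band 0).hl (band 0).sgn ++ (band 0).vio)
    [⟨1927, 2469, 1000⟩, ⟨19, 98, 1862⟩, ⟨0, 1, 1⟩, ⟨3, 6, 1⟩, ⟨0, 0, 1⟩]
    (.leaf 1) = true := by
  decide +kernel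

/-- Band 1, segment 0. -/
def bandSeg10 : coverTree (listMid (seg 1 0) (band 1).hl (band 1).sgn ++ (band 1).vio)
    [⟨1177, 1478, 500⟩, ⟨19, 98, 1862⟩, ⟨0, 1, 1⟩, ⟨5, 6, 4⟩, ⟨0, 0, 1⟩]
    (.split 3 (.leaf 0) (.split 1 (.split 1 (.split 1 (.leaf 1) (.leaf 0)) (.leaf 0)) (.leaf 0))) = true := by
  decide +kernel

/-- Band 1, segment 1. -/
def bandSeg11 : coverTree (listMid (seg 1 1) (band 1).hl (band 1).sgn ++ (band 1).vio)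
    [⟨1177, 1478, 500⟩, ⟨19, 98, 1862⟩, ⟨0, 1, 1⟩, ⟨3, 4, 2⟩, ⟨0, 0, 1⟩]
    (.split 3 (.split 1 (.split 0 (.leaf 1) (.split 1 (.leaf 1) (.split 3 (.split 1 (.leaf 1) (.leaf 0)) (.leaf 1)))) (.split 0 (.split 3 (.leaf 0) (.split 1 (.leaf 1) (.split 0 (.split 3 (.leaf 0) (.leaf 1)) (.leaf 0)))) (.leaf 0))) (.split 1 (.leaf 1) (.split 0 (.leaf 1) (.split 1 (.leaf 1) (.split 3 (.split 0 (.split 1 (.leaf 1) (.leaf 0)) (.leaf 0)) (.split 0 (.leaf 1) (.split 0 (.leaf 1) (.leaf 4)))))))) = true := by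
  decide +kernel

/-- Band 1, segment 2. -/
def bandSeg12 : coverTree (listMid (seg 1 2) (band 1).hl (band 1).sgn ++ (band 1).vio)
    [⟨1177, 1478, 500⟩, ⟨19, 98, 1862⟩, ⟨0, 1, 1⟩, ⟨2, 3, 1⟩, ⟨0, 0, 1⟩]
    (.leaf 1) = true := by
  decide +kernel

/-- Band 1, segment 3. -/
def bandSeg13 : coverTree (listMid (seg 1 3) (band 1).hl (band 1).sgn ++ (band 1).vio)
    [⟨1177, 1478, 500⟩, ⟨19, 98, 1862⟩, ⟨0, 1, 1⟩, ⟨3, 6, 1⟩, ⟨0, 0, 1⟩]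
    (.leaf 1) = true := by
  decide +kernel

/-- Band 2, segment 0. -/
def bandSeg20 : coverTree (listMid (seg 2 0) (band 2).hl (band 2).sgn ++ (band 2).vio)
    [⟨1397, 1720, 500⟩, ⟨19, 98, 1862⟩, ⟨0, 1, 1⟩, ⟨5, 6, 4⟩, ⟨0, 0, 1⟩]
    (.leaf 0) = true := by
  decide +kernel

/-- Band 2, segment 1. -/
def bandSeg21 : coverTree (listMid (seg 2 1) (band 2).hl (band 2).sgn ++ (band 2).vio)
    [⟨1397, 1720, 500⟩, ⟨19, 98, 1862⟩, ⟨0, 1, 1⟩, ⟨3, 4, 2⟩, ⟨0, 0, 1⟩]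
    (.split 1 (.split 3 (.split 1 (.split 0 (.leaf 1) (.split 3 (.split 1 (.leaf 1) (.leaf 0)) (.leaf 1))) (.split 0 (.split 3 (.leaf 0) (.split 0 (.leaf 1) (.split 1 (.leaf 1) (.leaf 0)))) (.leaf 0))) (.split 0 (.leaf 1) (.split 1 (.leaf 1) (.split 3 (.split 1 (.leaf 1) (.leaf 0)) (.leaf 1))))) (.split 3 (.leaf 0) (.split 0 (.split 1 (.split 3 (.split 0 (.leaf 1) (.leaf 0)) (.leaf 1)) (.split 3 (.leaf 0) (.split 0 (.split 1 (.leaf 1) (.split 0 (.leaf 1) (.leaf 0))) (.leaf 0)))) (.split 1 (.split 3 (.leaf 0) (.split 0 (.split 1 (.leaf 1) (.leaf 0)) (.leaf 0))) (.leaf 0))))) = true := by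
  decide +kernel

/-- Band 2, segment 2. -/
def bandSeg22 : coverTree (listMid (seg 2 2) (band 2).hl (band 2).sgn ++ (band 2).vio)
    [⟨1397, 1720, 500⟩, ⟨19, 98, 1862⟩, ⟨0, 1, 1⟩, ⟨2, 3, 1⟩, ⟨0, 0, 1⟩]
    (.split 1 (.leaf 1) (.split 3 (.split 0 (.split 3 (.split 1 (.leaf 1) (.split 0 (.leaf 1) (.split 3 (.split 1 (.leaf 1) (.split 0 (.split 3 (.leaf 0) (.leaf 1)) (.leaf 0))) (.leaf 1)))) (.leaf 1)) (.split 3 (.split 1 (.split 0 (.leaf 1) (.split 0 (.split 3 (.split 1 (.leaf 1) (.leaf 0)) (.leaf 1)) (.leaf 4))) (.split 0 (.split 3 (.leaf 0) (.split 1 (.leaf 1) (.leaf 0))) (.leaf 0))) (.split 1 (.leaf 1) (.split 0 (.leaf 1) (.leaf 4))))) (.leaf 1))) = true := by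
  decide +kernel

/-- Band 2, segment 3. -/
def bandSeg23 : coverTree (listMid (seg 2 3) (band 2).hl (band 2).sgn ++ (band 2).vio)
    [⟨1397, 1720, 500⟩, ⟨19, 98, 1862⟩, ⟨0, 1, 1⟩, ⟨3, 6, 1⟩, ⟨0, 0, 1⟩]
    (.leaf 1) = true := by
  decide +kernel

end Vale.Agent.P237.Petty.Cor.TinyMid
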