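import Vale.Agent.P237.Petty.Cor.TinyMid.CertBand

/-!
# P237: certificates of the segments of the values, bands 3 to 4
-/

namespace Vale.Agent.P237.Petty.Cor.TinyMid

open Vale.Agent.P100.Bernstein

/-- Band 3, segment 0. -/
def bandSeg30 : coverTree (listMid (seg 3 0) (band 3).hl (band 3).sgn ++ (band 3).vio)
    [⟨1613, 1961, 500⟩, ⟨19, 98, 1862⟩, ⟨0, 1, 1⟩, ⟨5, 6, 4⟩, ⟨0, 0, 1⟩]
    (.leaf 2) = true := by
  decide +kernel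

/-- Band 3, segment 1. -/
def bandSeg31 : coverTree (listMid (seg 3 1) (band 3).hl (band 3).sgn ++ (band 3).vio)
    [⟨1613, 1961, 500⟩, ⟨19, 98, 1862⟩, ⟨0, 1, 1⟩, ⟨3, 4, 2⟩, ⟨0, 0, 1⟩]
    (.split 3 (.split 1 (.split 0 (.split 3 (.split 1 (.split 1 (.leaf 3) (.split 0 (.split 0 (.leaf 3) (.leaf 1)) (.leaf 1))) (.leaf 1)) (.split 1 (.leaf 3) (.split 0 (.split 0 (.leaf 5) (.leaf 1)) (.leaf 1)))) (.split 1 (.split 3 (.leaf 2) (.split 1 (.leaf 3) (.leaf 2))) (.leaf 2))) (.leaf 2)) (.split 1 (.split 0 (.split 1 (.leaf 3) (.split 1 (.leaf 3) (.split 0 (.split 3 (.split 0 (.leaf 3) (.leaf 1)) (.leaf 3)) (.split 3 (.leaf 1) (.split 0 (.leaf 3) (.leaf 1)))))) (.split 1 (.split 3 (.split 0 (.leaf 3) (.split 1 (.leaf 3) (.split 0 (.leaf 3) (.leaf 0)))) (.leaf 3)) (.split 3 (.leaf 2) (.split 0 (.split 1 (.leaf 3) (.leaf 1)) (.leaf 2))))) (.split 0 (.split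 1 (.split 0 (.split 3 (.leaf 1) (.split 1 (.split 0 (.leaf 3) (.leaf 1)) (.leaf 1))) (.leaf 1)) (.leaf 1)) (.leaf 2)))) = true := by
  decide +kernel

/-- Band 3, segment 2. -/
def bandSeg32 : coverTree (listMid (seg 3 2) (band 3).hl (band 3).sgn ++ (band 3).vio)
    [⟨1613, 1961, 500⟩, ⟨19, 98, 1862⟩, ⟨0, 1, 1⟩, ⟨2, 3, 1⟩, ⟨0, 0, 1⟩]
    (.split 1 (.split 3 (.split 0 (.leaf 3) (.split 1 (.leaf 3) (.split 3 (.split 1 (.leaf 3) (.split 0 (.split 3 (.split 1 (.leaf 3) (.leaf 1)) (.leaf 3)) (.leaf 2))) (.leaf 3)))) (.leaf 3)) (.split 3 (.split 0 (.split 3 (.split 0 (.split 1 (.split 1 (.leaf 3) (.split 3 (.split 0 (.split 1 (.leaf 3) (.leaf 1)) (.leaf 1)) (.leaf 3))) (.split 1 (.split 0 (.split 3 (.leaf 1) (.split 1 (.leaf 3) (.leaf 1))) (.leaf 1)) (.leaf 1))) (.split 1 (.split 1 (.split 3 (.leaf 1) (.leaf 3)) (.leaf 1)) (.leaf 1))) (.split 1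 (.leaf 3) (.split 0 (.split 1 (.leaf 3) (.split 3 (.leaf 1) (.split 0 (.leaf 3) (.leaf 1)))) (.split 1 (.split 0 (.split 3 (.leaf 1) (.leaf 3)) (.leaf 1)) (.leaf 1))))) (.split 1 (.split 3 (.leaf 2) (.split 1 (.split 0 (.leaf 3) (.split 0 (.split 3 (.leaf 2) (.leaf 3)) (.leaf 0))) (.leaf 2))) (.leaf 2))) (.split 0 (.split 1 (.leaf 3) (.split 0 (.leaf 3) (.split 3 (.split 1 (.leaf 3) (.split 0 (.split 3 (.leaf 1) (.leaf 3)) (.leaf 1))) (.leaf 3)))) (.split 1 (.split 3 (.split 0 (.leaf 3) (.split 1 (.leaf 3) (.leaf 6))) (.leaf 3)) (.split 0 (.split 3 (.split 1 (.split 0 (.split 3 (.leaf 1) (.leaf 3)) (.leaf 1)) (.leaf 1)) (.split 1 (.leaf 3) (.split 0 (.split 3 (.leaf 1) (.leaf 3)) (.leaf 1)))) (.leaf 2)))))) = true := by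
  decide +kernel

/-- Band 3, segment 3. -/
def bandSeg33 : coverTree (listMid (seg 3 3) (band 3).hl (band 3).sgn ++ (band 3).vio)
    [⟨1613, 1961, 500⟩, ⟨19, 98, 1862⟩, ⟨0, 1, 1⟩, ⟨3, 6, 1⟩, ⟨0, 0, 1⟩]
    (.split 3 (.split 1 (.leaf 3) (.split 0 (.leaf 3) (.split 3 (.split 1 (.leaf 3) (.split 0 (.leaf 3) (.leaf 6))) (.leaf 3)))) (.leaf 3)) = true := by
  decide +kernel

/-- Band 4, segment 0. -/
def bandSeg40 : coverTree (listMid (seg 4 0) (band 4).hl (band 4).sgn ++ (band 4).vio)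
    [⟨3649, 4402, 1000⟩, ⟨19, 98, 1862⟩, ⟨0, 1, 1⟩, ⟨5, 6, 4⟩, ⟨0, 0, 1⟩]
    (.leaf 2) = true := by
  decide +kernel

/-- Band 4, segment 1. -/
def bandSeg41 : coverTree (listMid (seg 4 1) (band 4).hl (band 4).sgn ++ (band 4).vio)
    [⟨3649, 4402, 1000⟩, ⟨19, 98, 1862⟩, ⟨0, 1, 1⟩, ⟨3, 4, 2⟩, ⟨0, 0, 1⟩]
    (.split 1 (.split 3 (.split 0 (.split 0 (.split 1 (.leaf 5) (.leaf 2)) (.leaf 0)) (.leaf 0)) (.split 0 (.split 1 (.split 3 (.split 0 (.leaf 3) (.split 1 (.leaf 3) (.leaf 0))) (.leaf 3)) (.split 0 (.split 0 (.leaf 5) (.leaf 2)) (.leaf 0))) (.split 1 (.split 3 (.leaf 0) (.split 1 (.leaf 3) (.leaf 0))) (.leaf 0)))) (.leaf 2)) = true := by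
  decide +kernel

/-- Band 4, segment 2. -/
def bandSeg42 : coverTree (listMid (seg 4 2) (band 4).hl (band 4).sgn ++ (band 4).vio)
    [⟨3649, 4402, 1000⟩, ⟨19, 98, 1862⟩, ⟨0, 1, 1⟩, ⟨2, 3, 1⟩, ⟨0, 0, 1⟩]
    (.split 3 (.split 1 (.split 0 (.split 1 (.leaf 3) (.split 0 (.split 3 (.split 0 (.leaf 5) (.split 1 (.leaf 3) (.split 3 (.leaf 2) (.leaf 3)))) (.leaf 3)) (.split 3 (.leaf 0) (.split 1 (.leaf 3) (.leaf 0))))) (.split 1 (.split 3 (.split 1 (.leaf 3) (.leaf 0)) (.leaf 3)) (.leaf 0))) (.split 0 (.split 1 (.split 3 (.leaf 2) (.split 0 (.split 1 (.split 0 (.leaf 3) (.split 3 (.leaf 2) (.leaf 3))) (.leaf 2)) (.leaf 0))) (.leaf 2)) (.leaf 0))) (.split 1 (.split 0 (.leaf 3) (.split 1 (.leaf 3) (.split 1 (.leaf 3) (.leaf 0)))) (.split 0 (.split 3 (.split 1 (.split 0 (.split 1 (.leaf 3) (.split 0 (.leaf 3) (.split 3 (.leaf 2) (.leaf 3)))) (.leaf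 0)) (.leaf 2)) (.split 1 (.split 0 (.leaf 3) (.leaf 0)) (.split 0 (.split 1 (.split 0 (.leaf 3) (.leaf 2)) (.leaf 2)) (.leaf 2)))) (.leaf 0)))) = true := by
  decide +kernel

/-- Band 4, segment 3. -/
def bandSeg43 : coverTree (listMid (seg 4 3) (band 4).hl (band 4).sgn ++ (band 4).vio)
    [⟨3649, 4402, 1000⟩, ⟨19, 98, 1862⟩, ⟨0, 1, 1⟩, ⟨3, 6, 1⟩, ⟨0, 0, 1⟩]
    (.split 1 (.leaf 3) (.split 3 (.split 0 (.split 1 (.leaf 3) (.split 3 (.split 0 (.split 3 (.split 1 (.leaf 3) (.split 0 (.split 3 (.split 1 (.leaf 3) (.leaf 1)) (.leaf 3)) (.split 3 (.leaf 2) (.split 1 (.leaf 3) (.leaf 2))))) (.leaf 3)) (.split 0 (.split 0 (.split 1 (.leaf 0) (.split 3 (.leaf 2) (.leaf 3))) (.leaf 0)) (.leaf 0))) (.leaf 3))) (.split 3 (.split 1 (.split 0 (.split 1 (.leaf 3) (.leaf 0)) (.leaf 0)) (.leaf 0)) (.split 1 (.leaf 3) (.leaf 4)))) (.leaf 4))) = true := by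
  decide +kernel

end Vale.Agent.P237.Petty.Cor.TinyMid
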