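import Vale.Agent.P237.Petty.Cor.TinyMid.CertBand

/-!
# P237: certificates of the segments of the values, bands 5 to 9
-/

namespace Vale.Agent.P237.Petty.Cor.TinyMid

open Vale.Agent.P100.Bernstein

/-- Band 5, segment 0. -/
def bandSeg50 : coverTree (listMid (seg 5 0) (band 5).hl (band 5).sgn ++ (band 5).vio)
    [⟨4065, 4879, 1000⟩, ⟨19, 98, 1862⟩, ⟨0, 1, 1⟩, ⟨5, 6, 4⟩, ⟨0, 0, 1⟩]
    (.leaf 0) = true := by
  decide +kernel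

/-- Band 5, segment 1. -/
def bandSeg51 : coverTree (listMid (seg 5 1) (band 5).hl (band 5).sgn ++ (band 5).vio)
    [⟨4065, 4879, 1000⟩, ⟨19, 98, 1862⟩, ⟨0, 1, 1⟩, ⟨3, 4, 2⟩, ⟨0, 0, 1⟩]
    (.split 1 (.split 3 (.leaf 0) (.split 0 (.split 1 (.split 0 (.leaf 3) (.leaf 0)) (.leaf 0)) (.leaf 0))) (.leaf 0)) = true := by
  decide +kernel

/-- Band 5, segment 2. -/
def bandSeg52 : coverTree (listMid (seg 5 2) (band 5).hl (band 5).sgn ++ (band 5).vio)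
    [⟨4065, 4879, 1000⟩, ⟨19, 98, 1862⟩, ⟨0, 1, 1⟩, ⟨2, 3, 1⟩, ⟨0, 0, 1⟩]
    (.split 1 (.split 3 (.split 1 (.split 0 (.split 0 (.leaf 3) (.split 1 (.leaf 1) (.leaf 0))) (.split 3 (.leaf 0) (.split 1 (.leaf 1) (.leaf 0)))) (.leaf 0)) (.split 1 (.split 0 (.leaf 1) (.split 1 (.leaf 1) (.split 0 (.leaf 1) (.leaf 0)))) (.split 0 (.split 0 (.split 1 (.leaf 1) (.leaf 0)) (.leaf 0)) (.leaf 0)))) (.leaf 0)) = true := by
  decide +kernel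

/-- Band 5, segment 3. -/
def bandSeg53 : coverTree (listMid (seg 5 3) (band 5).hl (band 5).sgn ++ (band 5).vio)
    [⟨4065, 4879, 1000⟩, ⟨19, 98, 1862⟩, ⟨0, 1, 1⟩, ⟨3, 9, 1⟩, ⟨0, 0, 1⟩]
    (.split 0 (.split 3 (.split 1 (.split 3 (.split 1 (.leaf 1) (.split 0 (.leaf 1) (.split 3 (.split 1 (.leaf 1) (.split 3 (.leaf 0) (.leaf 1))) (.leaf 1)))) (.leaf 1)) (.split 3 (.split 3 (.split 1 (.split 0 (.split 1 (.split 3 (.leaf 0) (.leaf 1)) (.leaf 0)) (.leaf 0)) (.leaf 0)) (.split 1 (.split 0 (.leaf 1) (.split 1 (.leaf 1) (.leaf 0))) (.leaf 2))) (.leaf 2))) (.leaf 1)) (.split 1 (.split 3 (.split 1 (.leaf 1) (.split 3 (.split 3 (.split 0 (.split 1 (.split 3 (.leaf 0) (.leaf 1)) (.leaf 0)) (.leaf 0)) (.split 0 (.leaf 1) (.split 1 (.leaf 1) (.leaf 0)))) (.leaf 1))) (.leaf 1)) (.split 3 (.split 3 (.leaf 0) (.leaf 2)) (.leaf 2)))) = true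 := by
  decide +kernel

/-- Band 6, segment 0. -/
def bandSeg60 : coverTree (listMid (seg 6 0) (band 6).hl (band 6).sgn ++ (band 6).vio)
    [⟨4473, 5354, 1000⟩, ⟨19, 98, 1862⟩, ⟨0, 1, 1⟩, ⟨5, 6, 4⟩, ⟨0, 0, 1⟩]
    (.leaf 0) = true := by
  decide +kernel

/-- Band 6, segment 1. -/
def bandSeg61 : coverTree (listMid (seg 6 1) (band 6).hl (band 6).sgn ++ (band 6).vio)
    [⟨4473, 5354, 1000⟩, ⟨19, 98, 1862⟩, ⟨0, 1, 1⟩, ⟨3, 4, 2⟩, ⟨0, 0, 1⟩]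
    (.leaf 0) = true := by
  decide +kernel

/-- Band 6, segment 2. -/
def bandSeg62 : coverTree (listMid (seg 6 2) (band 6).hl (band 6).sgn ++ (band 6).vio)
    [⟨4473, 5354, 1000⟩, ⟨19, 98, 1862⟩, ⟨0, 1, 1⟩, ⟨2, 3, 1⟩, ⟨0, 0, 1⟩]
    (.split 1 (.split 1 (.split 3 (.split 0 (.split 0 (.leaf 3) (.split 3 (.leaf 0) (.split 1 (.split 1 (.leaf 1) (.leaf 0)) (.leaf 0)))) (.leaf 0)) (.split 0 (.split 0 (.leaf 1) (.split 1 (.leaf 1) (.leaf 0))) (.split 0 (.split 1 (.split 1 (.leaf 1) (.leaf 0)) (.leaf 0)) (.leaf 0)))) (.leaf 0)) (.leaf 0)) = true := by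
  decide +kernel

/-- Band 6, segment 3. -/
def bandSeg63 : coverTree (listMid (seg 6 3) (band 6).hl (band 6).sgn ++ (band 6).vio)
    [⟨4473, 5354, 1000⟩, ⟨19, 98, 1862⟩, ⟨0, 1, 1⟩, ⟨3, 9, 1⟩, ⟨0, 0, 1⟩]
    (.split 0 (.split 3 (.split 1 (.split 1 (.leaf 1) (.split 3 (.split 0 (.split 0 (.leaf 3) (.split 3 (.leaf 0) (.leaf 1))) (.split 3 (.leaf 0) (.split 1 (.leaf 1) (.leaf 0)))) (.leaf 1))) (.split 3 (.leaf 0) (.leaf 2))) (.split 1 (.leaf 1) (.leaf 2))) (.split 3 (.split 1 (.split 1 (.split 3 (.split 1 (.leaf 1) (.split 0 (.split 3 (.leaf 0) (.leaf 1)) (.leaf 0))) (.leaf 1)) (.split 3 (.leaf 0) (.split 3 (.split 0 (.split 1 (.leaf 1) (.leaf 0)) (.leaf 0)) (.leaf 2)))) (.leaf 0)) (.split 1 (.split 1 (.leaf 1) (.leaf 2)) (.leaf 2)))) = true := by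
  decide +kernel

/-- Band 7, segment 0. -/
def bandSeg70 : coverTree (listMid (seg 7 0) (band 7).hl (band 7).sgn ++ (band 7).vio)
    [⟨4874, 5827, 1000⟩, ⟨19, 98, 1862⟩, ⟨0, 1, 1⟩, ⟨5, 6, 4⟩, ⟨0, 0, 1⟩]
    (.leaf 0) = true := by
  decide +kernel

/-- Band 7, segment 1. -/
def bandSeg71 : coverTree (listMid (seg 7 1) (band 7).hl (band 7).sgn ++ (band 7).vio)
    [⟨4874, 5827, 1000⟩, ⟨19, 98, 1862⟩, ⟨0, 1, 1⟩, ⟨3, 4, 2⟩, ⟨0, 0, 1⟩]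
    (.leaf 0) = true := by
  decide +kernel

/-- Band 7, segment 2. -/
def bandSeg72 : coverTree (listMid (seg 7 2) (band 7).hl (band 7).sgn ++ (band 7).vio)
    [⟨4874, 5827, 1000⟩, ⟨19, 98, 1862⟩, ⟨0, 1, 1⟩, ⟨2, 3, 1⟩, ⟨0, 0, 1⟩]
    (.split 3 (.leaf 0) (.split 1 (.split 0 (.split 1 (.split 0 (.leaf 3) (.leaf 0)) (.leaf 0)) (.leaf 0)) (.leaf 0))) = true := by
  decide +kernel

/-- Band 7, segment 3. -/
def bandSeg73 : coverTree (listMid (seg 7 3) (band 7).hl (band 7).sgn ++ (band 7).vio)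
    [⟨4874, 5827, 1000⟩, ⟨19, 98, 1862⟩, ⟨0, 1, 1⟩, ⟨3, 9, 1⟩, ⟨0, 0, 1⟩]
    (.split 0 (.split 3 (.split 1 (.split 0 (.split 1 (.leaf 3) (.split 3 (.leaf 0) (.split 1 (.leaf 1) (.leaf 2)))) (.split 1 (.split 3 (.split 1 (.split 0 (.leaf 1) (.split 3 (.split 1 (.leaf 1) (.leaf 0)) (.leaf 1))) (.split 3 (.leaf 0) (.split 1 (.leaf 1) (.leaf 0)))) (.leaf 1)) (.split 3 (.leaf 0) (.split 3 (.leaf 0) (.leaf 2))))) (.leaf 0)) (.split 1 (.split 1 (.leaf 1) (.leaf 2)) (.leaf 2))) (.split 1 (.split 3 (.split 1 (.split 1 (.split 3 (.split 0 (.split 3 (.leaf 0) (.leaf 1)) (.leaf 0)) (.leaf 1)) (.split 3 (.leaf 0) (.split 3 (.leaf 0) (.leaf 2)))) (.leaf 0)) (.split 1 (.split 1 (.leaf 1) (.leaf 2)) (.leaf 2))) (.leaf 0))) = true := by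
  decide +kernel

/-- Band 8, segment 0. -/
def bandSeg80 : coverTree (listMid (seg 8 0) (band 8).hl (band 8).sgn ++ (band 8).vio)
    [⟨5269, 6298, 1000⟩, ⟨19, 98, 1862⟩, ⟨0, 1, 1⟩, ⟨5, 6, 4⟩, ⟨0, 0, 1⟩]
    (.leaf 0) = true := by
  decide +kernel

/-- Band 8, segment 1. -/
def bandSeg81 : coverTree (listMid (seg 8 1) (band 8).hl (band 8).sgn ++ (band 8).vio)
    [⟨5269, 6298, 1000⟩, ⟨19, 98, 1862⟩, ⟨0, 1, 1⟩, ⟨3, 4, 2⟩, ⟨0, 0, 1⟩]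
    (.leaf 0) = true := by
  decide +kernel

/-- Band 8, segment 2. -/
def bandSeg82 : coverTree (listMid (seg 8 2) (band 8).hl (band 8).sgn ++ (band 8).vio)
    [⟨5269, 6298, 1000⟩, ⟨19, 98, 1862⟩, ⟨0, 1, 1⟩, ⟨2, 3, 1⟩, ⟨0, 0, 1⟩]
    (.leaf 0) = true := by
  decide +kernel

/-- Band 8, segment 3. -/
def bandSeg83 : coverTree (listMid (seg 8 3) (band 8).hl (band 8).sgn ++ (band 8).vio)
    [⟨5269, 6298, 1000⟩, ⟨19, 98, 1862⟩, ⟨0, 1, 1⟩, ⟨3, 9, 1⟩, ⟨0, 0, 1⟩]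
    (.split 1 (.split 3 (.split 0 (.split 1 (.split 0 (.leaf 3) (.split 0 (.leaf 3) (.split 3 (.leaf 0) (.split 1 (.leaf 1) (.leaf 0))))) (.leaf 0)) (.leaf 0)) (.split 1 (.split 3 (.split 1 (.split 1 (.leaf 1) (.leaf 2)) (.leaf 2)) (.leaf 2)) (.leaf 2))) (.leaf 0)) = true := by
  decide +kernel

/-- Band 9, segment 0. -/
def bandSeg90 : coverTree (listMid (seg 9 0) (band 9).hl (band 9).sgn ++ (band 9).vio)
    [⟨5657, 9537, 1000⟩, ⟨19, 98, 1862⟩, ⟨0, 1, 1⟩, ⟨5, 6, 4⟩, ⟨0, 0, 1⟩]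
    (.leaf 0) = true := by
  decide +kernel

/-- Band 9, segment 1. -/
def bandSeg91 : coverTree (listMid (seg 9 1) (band 9).hl (band 9).sgn ++ (band 9).vio)
    [⟨5657, 9537, 1000⟩, ⟨19, 98, 1862⟩, ⟨0, 1, 1⟩, ⟨3, 4, 2⟩, ⟨0, 0, 1⟩]
    (.leaf 0) = true := by
  decide +kernel

/-- Band 9, segment 2. -/
def bandSeg92 : coverTree (listMid (seg 9 2) (band 9).hl (band 9).sgn ++ (band 9).vio)
    [⟨5657, 9537, 1000⟩, ⟨19, 98, 1862⟩, ⟨0, 1, 1⟩, ⟨2, 3, 1⟩, ⟨0, 0, 1⟩]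
    (.leaf 0) = true := by
  decide +kernel

/-- Band 9, segment 3. -/
def bandSeg93 : coverTree (listMid (seg 9 3) (band 9).hl (band 9).sgn ++ (band 9).vio)
    [⟨5657, 9537, 1000⟩, ⟨19, 98, 1862⟩, ⟨0, 1, 1⟩, ⟨3, 9, 1⟩, ⟨0, 0, 1⟩]
    (.split 1 (.split 0 (.split 1 (.split 0 (.split 0 (.split 0 (.leaf 2) (.leaf 0)) (.leaf 0)) (.leaf 0)) (.leaf 0)) (.leaf 0)) (.leaf 0)) = true := by
  decide +kernel

end Vale.Agent.P237.Petty.Cor.TinyMid
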