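import Vale.Agent.P237.Petty.Cor.TinyMid.BulkExprs

/-!
# P237: the chords of the series in the bands
-/

namespace Vale.Agent.P237.Petty.Cor.TinyMid

open Vale.Agent.P100.Bernstein

/-- Band 0. -/
theorem serCert0 : coverTree [[bandSer (4513, 1000) (113, 50) (81, 20)]]
    [⟨81, 100, 20⟩] (.leaf 0) = true := by
  decide +kernel

/-- Band 1. -/
theorem serCert1 : coverTree [[bandSer (333, 50) (3481, 1000) (5, 1)]]
    [⟨5, 6, 1⟩] (.leaf 0) = true := by
  decide +kernel

/-- Band 2. -/
theorem serCert2 : coverTree [[bandSer (10141, 1000) (5451, 1000) (6, 1)]]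
    [⟨6, 7, 1⟩] (.leaf 0) = true := by
  decide +kernel

/-- Band 3. -/
theorem serCert3 : coverTree [[bandSer (1949, 125) (2147, 250) (7, 1)]]
    [⟨7, 8, 1⟩] (.leaf 0) = true := by
  decide +kernel

/-- Band 4. -/
theorem serCert4 : coverTree [[bandSer (1209, 50) (2721, 200) (8, 1)]]
    [⟨8, 9, 1⟩] (.leaf 0) = true := by
  decide +kernel

/-- Band 5. -/
theorem serCert5 : coverTree [[bandSer (7557, 200) (21643, 1000) (9, 1)]]
    [⟨9, 10, 1⟩] (.leaf 0) = true := by
  decide +kernel

/-- Band 6. -/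
theorem serCert6 : coverTree [[bandSer (14857, 250) (4314, 125) (10, 1)]]
    [⟨10, 11, 1⟩] (.leaf 0) = true := by
  decide +kernel

/-- Band 7. -/
theorem serCert7 : coverTree [[bandSer (4697, 50) (27513, 500) (11, 1)]]
    [⟨11, 12, 1⟩] (.leaf 0) = true := by
  decide +kernel

/-- Band 8. -/
theorem serCert8 : coverTree [[bandSer (74483, 500) (87481, 1000) (12, 1)]]
    [⟨12, 13, 1⟩] (.leaf 0) = true := by
  decide +kernel

end Vale.Agent.P237.Petty.Cor.TinyMid
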