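import Vale.Agent.P237.Petty.Cor.TinyMid.TailExprs

/-!
# P237: certificates for `81 / 20 ≤ X ≤ 20` and beyond, all values below `5 / 4`
-/

namespace Vale.Agent.P237.Petty.Cor.TinyMid

open Vale.Agent.P100.Bernstein

/-- Up to twenty: the constant. -/
def nearCertC1 : coverTree (listC1 ++ [belowX (81, 20), aboveX (20, 1)])
    [⟨1927, 9537, 1000⟩, ⟨19, 98, 1862⟩, ⟨0, 1, 1⟩, ⟨0, 0, 1⟩, ⟨0, 0, 1⟩]
    (.leaf 1) = true := by
  decide +kernel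

/-- Beyond twenty: the constant. -/
def farCertC1 : coverTree (farList (listC1 ++ [belowX (20, 1)]))
    [⟨0, 1, 1⟩, ⟨19, 98, 1862⟩, ⟨0, 1, 1⟩, ⟨0, 0, 1⟩, ⟨0, 0, 1⟩]
    (.leaf 0) = true := by
  decide +kernel

/-- Up to twenty: values above one, pinned side. -/
def nearCertT3 : coverTree (listP ++ [belowX (81, 20), aboveX (20, 1)])
    [⟨1927, 9537, 1000⟩, ⟨19, 98, 1862⟩, ⟨0, 1, 1⟩, ⟨0, 1, 1⟩, ⟨0, 1, 1⟩]
    (.leaf 1) = true := by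
  decide +kernel

/-- Beyond twenty: values above one, pinned side. -/
def farCertT3 : coverTree (farList (listP ++ [belowX (20, 1)]))
    [⟨0, 1, 1⟩, ⟨19, 98, 1862⟩, ⟨0, 1, 1⟩, ⟨0, 1, 1⟩, ⟨0, 1, 1⟩]
    (.leaf 1) = true := by
  decide +kernel

/-- Up to twenty: values below one, moderate abscissae. -/
def nearCertUa : coverTree (listA ++ [belowX (81, 20), aboveX (20, 1)])
    [⟨1927, 9537, 1000⟩, ⟨19, 98, 1862⟩, ⟨0, 1, 1⟩, ⟨0, 1, 1⟩, ⟨0, 0, 1⟩]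
    (.split 0 (.split 3 (.leaf 0) (.leaf 0)) (.split 1 (.leaf 0) (.split 3 (.split 3 (.split 1 (.split 0 (.leaf 0) (.split 1 (.leaf 0) (.leaf 1))) (.split 0 (.split 0 (.leaf 0) (.leaf 1)) (.leaf 1))) (.leaf 0)) (.leaf 0)))) = true := by
  decide +kernel

/-- Beyond twenty: values below one, moderate abscissae. -/
def farCertUa : coverTree (farList (listA ++ [belowX (20, 1)]))
    [⟨0, 1, 1⟩, ⟨19, 98, 1862⟩, ⟨0, 1, 1⟩, ⟨0, 1, 1⟩, ⟨0, 0, 1⟩]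
    (.split 1 (.split 3 (.split 3 (.split 3 (.split 1 (.split 0 (.split 0 (.leaf 1) (.split 1 (.split 0 (.split 1 (.split 0 (.leaf 1) (.leaf 0)) (.leaf 1)) (.leaf 0)) (.leaf 1))) (.leaf 0)) (.split 0 (.leaf 1) (.split 0 (.split 1 (.split 0 (.leaf 1) (.leaf 0)) (.leaf 1)) (.leaf 0)))) (.leaf 0)) (.leaf 0)) (.leaf 0)) (.leaf 1)) = true := by
  decide +kernel

/-- Up to twenty: values below one above the threshold. -/
def nearCertUb : coverTree (listB ++ [belowX (81, 20), aboveX (20, 1)] ++ [farVio])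
    [⟨1927, 9537, 1000⟩, ⟨19, 98, 1862⟩, ⟨0, 1, 1⟩, ⟨0, 1, 1⟩, ⟨0, 0, 1⟩]
    (.leaf 0) = true := by
  decide +kernel

/-- Beyond twenty: values below one above the threshold. -/
def farCertUb : coverTree (farList (listB ++ [belowX (20, 1)] ++ [farVio]))
    [⟨0, 1, 1⟩, ⟨19, 98, 1862⟩, ⟨0, 1, 1⟩, ⟨0, 1, 1⟩, ⟨0, 0, 1⟩]
    (.leaf 0) = true := by
  decide +kernel

/-- Up to twenty: values near the threshold. -/
def nearCertJoint : coverTree ([[joint, xB oo]] ++ [belowX (81, 20), aboveX (20, 1)] ++ [farVio])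
    [⟨1927, 9537, 1000⟩, ⟨19, 98, 1862⟩, ⟨0, 1, 1⟩, ⟨0, 1, 1⟩, ⟨0, 0, 1⟩]
    (.split 0 (.split 0 (.leaf 3) (.split 1 (.leaf 0) (.split 1 (.leaf 0) (.split 0 (.split 0 (.leaf 3) (.leaf 0)) (.leaf 0))))) (.leaf 0)) = true := by
  decide +kernel

/-- Beyond twenty: values near the threshold. -/
def farCertJoint : coverTree (farList ([[joint, xB oo]] ++ [belowX (20, 1)] ++ [farVio]))
    [⟨0, 1, 1⟩, ⟨19, 98, 1862⟩, ⟨0, 1, 1⟩, ⟨0, 1, 1⟩, ⟨0, 0, 1⟩]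
    (.leaf 0) = true := by
  decide +kernel

/-- Up to twenty: values far below the threshold. -/
def nearCertFar : coverTree (listFar ++ [belowX (81, 20), aboveX (20, 1)] ++ [farVio])
    [⟨1927, 9537, 1000⟩, ⟨19, 98, 1862⟩, ⟨0, 1, 1⟩, ⟨0, 0, 1⟩, ⟨0, 0, 1⟩]
    (.split 0 (.split 0 (.leaf 7) (.split 1 (.leaf 7) (.split 1 (.leaf 0) (.split 0 (.split 0 (.leaf 7) (.leaf 0)) (.leaf 0))))) (.leaf 0)) = true := by
  decide +kernel

/-- Beyond twenty: values far below the threshold. -/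
def farCertFar : coverTree (farList (listFar ++ [belowX (20, 1)] ++ [farVio]))
    [⟨0, 1, 1⟩, ⟨19, 98, 1862⟩, ⟨0, 1, 1⟩, ⟨0, 0, 1⟩, ⟨0, 0, 1⟩]
    (.split 0 (.split 0 (.split 0 (.leaf 4) (.leaf 2)) (.leaf 1)) (.leaf 1)) = true := by
  decide +kernel

/-- Up to twenty: the threshold. -/
def nearCertVl1 : coverTree (listV ++ [belowX (81, 20), aboveX (20, 1)] ++ [farVio])
    [⟨1927, 9537, 1000⟩, ⟨19, 98, 1862⟩, ⟨0, 1, 1⟩, ⟨0, 0, 1⟩, ⟨0, 0, 1⟩]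
    (.leaf 0) = true := by
  decide +kernel

/-- Beyond twenty: the threshold. -/
def farCertVl1 : coverTree (farList (listV ++ [belowX (20, 1)] ++ [farVio]))
    [⟨0, 1, 1⟩, ⟨19, 98, 1862⟩, ⟨0, 1, 1⟩, ⟨0, 0, 1⟩, ⟨0, 0, 1⟩]
    (.leaf 0) = true := by
  decide +kernel

/-- Beyond twenty: small. -/
def farCertSmall : coverTree (farList (listNear none ++ [belowX (20, 1)]))
    [⟨0, 1, 1⟩, ⟨19, 98, 1862⟩, ⟨0, 1, 1⟩, ⟨0, 0, 1⟩, ⟨0, 0, 1⟩]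
    (.leaf 2) = true := by
  decide +kernel

/-- Beyond twenty: big. -/
def farCertBig : coverTree (farList (listBig ++ [belowX (20, 1)]))
    [⟨0, 1, 1⟩, ⟨19, 98, 1862⟩, ⟨0, 1, 1⟩, ⟨0, 0, 1⟩, ⟨0, 0, 1⟩]
    (.split 0 (.leaf 0) (.split 1 (.split 0 (.leaf 0) (.split 1 (.split 0 (.leaf 0) (.split 1 (.split 0 (.split 1 (.leaf 1) (.leaf 0)) (.leaf 1)) (.leaf 0))) (.leaf 0))) (.leaf 0))) = true := by
  decide +kernel

/-- Beyond twenty: La. -/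
def farCertLa : coverTree (farList (listLa none ++ [belowX (20, 1)]))
    [⟨0, 1, 1⟩, ⟨19, 98, 1862⟩, ⟨0, 1, 1⟩, ⟨0, 0, 1⟩, ⟨0, 0, 1⟩]
    (.leaf 0) = true := by
  decide +kernel

end Vale.Agent.P237.Petty.Cor.TinyMid
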