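import Vale.Agent.P237.Petty.Cor.TinyMid.Base

/-!
# P237: the values of the expressions at a point
-/

namespace Vale.Agent.P237.Petty.Cor.TinyMid

open Set
open Ident (half rate)
open Tail (sqp sqp')
open Vale.Agent.P100.Bernstein

variable {p : ℕ} {s z τ σ : ℝ}

/-- The bound of the value times `p + 1`. -/
noncomputable def topVal (p : ℕ) : ℝ := eps p / (4 * (1 + eps p))

theorem topVal_eq (p : ℕ) : topVal p = 1 / 4 / ((p : ℝ) + 2) := by
  rw [topVal, eps]; field_simp; ring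

theorem eval_ee (p : ℕ) (z τ σ : ℝ) : ee.eval (pt p z τ σ) = eps p := by simp [ee, pt]

theorem eval_oo (p : ℕ) (z τ σ : ℝ) : (Expr.var 0).eval (pt p z τ σ) = z := by simp [pt]

theorem eval_tt (p : ℕ) (z τ σ : ℝ) : tt.eval (pt p z τ σ) = τ := by simp [tt, pt]

theorem eval_ss (p : ℕ) (z τ σ : ℝ) : ss.eval (pt p z τ σ) = σ := by simp [ss, pt]

theorem eval_etaP (p : ℕ) (z τ σ : ℝ) : xEta.eval (pt p z τ σ) = etaP p := by
  have := (eps_pos p).ne'
  simp [xEta, etaL, etaH, nn, pt, nPar, ee]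
  field_simp
  ring

theorem eval_xN (p : ℕ) (z τ σ : ℝ) : xN.eval (pt p z τ σ) = 1 / Ident.b0 p := by
  rw [inv_b0_eq]
  simp [xN, eval_etaP, eval_ee, eps]

theorem nPar_mem (h1 : 18 ≤ p) (h2 : p ≤ 97) : nPar p ∈ Icc (0 : ℝ) 1 := by
  obtain ⟨ha, hb⟩ := etaP_mem h1 h2
  have := eps_pos p
  rw [← eps] at ha hb
  constructor
  · exact div_nonneg (by linarith) (by linarith)
  · rw [nPar, div_le_one (by linarith)]
    linarith

variable {o : Expr}

theorem eval_xO (hs : s ∈ Ioo (0 : ℝ) 1) (ho : o.eval (pt p z τ σ) = oVar p s) :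
    (xO o).eval (pt p z τ σ) = 1 / arc s := by
  simp [xO, eval_ee, ho, oVar, eps]
  field_simp
  ring

theorem eval_xX (hs : s ∈ Ioo (0 : ℝ) 1) (ho : o.eval (pt p z τ σ) = oVar p s) :
    (xX o).eval (pt p z τ σ) = sqTan p s := by
  have hz : 0 < 1 - s ^ 2 := by nlinarith [hs.1, hs.2]
  have hc : arc s ≠ 0 := (arc_pos ⟨by linarith [hs.1], hs.2⟩).ne'
  have hc2 : arc s ^ 2 = 1 - s ^ 2 := Real.sq_sqrt hz.le
  simp [xX, eval_ee, ho, oVar, eps, sqTan]
  field_simp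
  linear_combination (-1 : ℝ) * hc2

theorem eval_xQ (hs : s ∈ Ioo (0 : ℝ) 1) (ho : o.eval (pt p z τ σ) = oVar p s) :
    (xQ o).eval (pt p z τ σ) = 1 / (1 - s ^ 2) := by
  have hz : 0 < 1 - s ^ 2 := by nlinarith [hs.1, hs.2]
  simp [xQ, eval_ee, eval_xX hs ho, sqTan, eps]
  field_simp
  ring

theorem eval_xS0 (hs : s ∈ Ioo (0 : ℝ) 1) (ho : o.eval (pt p z τ σ) = oVar p s) :
    (xS0 o).eval (pt p z τ σ) = scale p s := by
  simp [xS0, eval_xQ hs ho, eval_xN, scale]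
  field_simp

theorem eval_xR (hs : s ∈ Ioo (0 : ℝ) 1) (ho : o.eval (pt p z τ σ) = oVar p s) :
    (xR o).eval (pt p z τ σ) = shadR p s := by
  have hz : 0 < 1 - s ^ 2 := by nlinarith [hs.1, hs.2]
  have hc : arc s ≠ 0 := (arc_pos ⟨by linarith [hs.1], hs.2⟩).ne'
  have hb := (Ident.b0_pos p).ne'
  have hc2 : arc s ^ 2 = 1 - s ^ 2 := Real.sq_sqrt hz.le
  simp [xR, eval_xO hs ho, shadR, scale]
  field_simp
  linear_combination (-1 : ℝ) * hc2

/-- Before or after the switch. -/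
def Switch (p : ℕ) (t : Bool) (s : ℝ) : Prop :=
  if t then Ident.b0 p - arc s ≥ 0 else Ident.b0 p - arc s ≤ 0

theorem switch_iff (p : ℕ) (hs : s ∈ Ioo (0 : ℝ) 1) :
    (oVar p s ≤ etaP p → Switch p false s) ∧ (etaP p ≤ oVar p s → Switch p true s) := by
  have hc : 0 < arc s := arc_pos ⟨by linarith [hs.1], hs.2⟩
  have hb := Ident.b0_pos p
  have hm : (0 : ℝ) < (p : ℝ) + 1 := by positivity
  constructor <;> intro h <;> rw [oVar, etaP, mul_le_mul_iff_left₀ hm, sub_le_sub_iff_right,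
      one_div_le_one_div (by positivity) (by positivity)] at h <;> simp [Switch] <;> linarith

theorem eval_xV (hs : s ∈ Ioo (0 : ℝ) 1) (ho : o.eval (pt p z τ σ) = oVar p s) {t : Bool}
    (ht : Switch p t s) : (xV t o).eval (pt p z τ σ) = keptW p s := by
  have hz : 0 < 1 - s ^ 2 := by nlinarith [hs.1, hs.2]
  have hc : arc s ≠ 0 := (arc_pos ⟨by linarith [hs.1], hs.2⟩).ne'
  have hb := (Ident.b0_pos p).ne'
  have hc2 : arc s ^ 2 = 1 - s ^ 2 := Real.sq_sqrt hz.le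
  cases t <;> simp [Switch] at ht
  · rw [keptW, dSw, Tail.sqp_of_nonpos (by linarith)]
    simp [xV, keep, xd2, eval_etaP, eval_ee, ho, wS, scale, sqCoef, oVar, etaP, eps, ← hc2]
    field_simp
    ring
  · rw [keptW, dSw, Tail.sqp_of_nonneg (by linarith)]
    simp [xV, keep, xd2, eval_etaP, eval_ee, ho, wS, scale, sqCoef, oVar, etaP, eps, ← hc2]
    field_simp
    ring

theorem eval_xVh (hs : s ∈ Ioo (0 : ℝ) 1) (ho : o.eval (pt p z τ σ) = oVar p s) {t : Bool}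
    (ht : Switch p t s) : (xVh t o).eval (pt p z τ σ) * topVal p = keptW p s := by
  rw [← eval_xV hs ho ht, topVal]
  have := eps_pos p
  simp [xVh, xV, eval_ee]
  field_simp
  ring

theorem eval_xS (hs : s ∈ Ioo (0 : ℝ) 1) (ho : o.eval (pt p z τ σ) = oVar p s) {t : Bool}
    (ht : Switch p t s) : (xS t o).eval (pt p z τ σ) = slopeD p s := by
  have hz : 0 < 1 - s ^ 2 := by nlinarith [hs.1, hs.2]
  have hc : arc s ≠ 0 := (arc_pos ⟨by linarith [hs.1], hs.2⟩).ne'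
  have hb := (Ident.b0_pos p).ne'
  have hc2 : arc s ^ 2 = 1 - s ^ 2 := Real.sq_sqrt hz.le
  cases t <;> simp [Switch] at ht
  · rw [slopeD, dSw', Tail.sqp_of_nonpos (by linarith), Tail.sqp'_of_nonpos (by linarith)]
    simp [xS]
  · rw [slopeD, dSw', Tail.sqp_of_nonneg (by linarith), sqp', max_eq_left (by linarith)]
    simp [xS, eval_xX hs ho, eval_xO hs ho, eval_xN, eval_ee, scale, sqCoef, sqTan, eps]
    rw [← hc2]
    field_simp
    ring

theorem eval_xSh (hs : s ∈ Ioo (0 : ℝ) 1) (ho : o.eval (pt p z τ σ) = oVar p s) {t : Bool}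
    (ht : Switch p t s) : (xSh t o).eval (pt p z τ σ) * topVal p = slopeD p s := by
  rw [← eval_xS hs ho ht, topVal]
  have := eps_pos p
  cases t
  · simp [xS, xSh]
  · simp [xS, xSh, xO, xN, eval_ee]
    field_simp
    ring

theorem eval_xK (hs : s ∈ Ioo (0 : ℝ) 1) (ho : o.eval (pt p z τ σ) = oVar p s) {h : Bool}
    (h1 : sqTan p s ≤ 81 / 20)
    (h2 : if h then 17 / 5 ≤ sqTan p s else sqTan p s ≤ 17 / 5) :
    (xK h o).eval (pt p z τ σ) = kapS p s ∧ (xKd h o).eval (pt p z τ σ) = kapD p s := by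
  have hz : 0 < 1 - s ^ 2 := by nlinarith [hs.1, hs.2]
  have eD : s * sqTan' p s = 2 * (sqTan p s * (1 / (1 - s ^ 2))) := by
    rw [sqTan', sqTan]; field_simp
  rw [kapS, kapD, kapM, kapM', Tail.sqp_of_nonneg (sub_nonneg.2 h1), sqp', sqp',
    max_eq_left (sub_nonneg.2 h1)]
  cases h <;> simp only [Bool.false_eq_true, if_false, if_true] at h2
  · rw [Tail.sqp_of_nonneg (sub_nonneg.2 h2), max_eq_left (sub_nonneg.2 h2)]
    simp [xK, xKd, hinge1, hinge2, eval_xX hs ho, eval_xQ hs ho, eval_xS0 hs ho]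
    refine ⟨by ring, ?_⟩
    linear_combination (-(scale p s) * (33 / 200 * (2 * (17 / 5 - sqTan p s)) -
      149 / 1000 * (2 * (81 / 20 - sqTan p s)))) * eD
  · rw [Tail.sqp_of_nonpos (sub_nonpos.2 h2), max_eq_right (sub_nonpos.2 h2)]
    simp [xK, xKd, hinge1, hinge2, eval_xX hs ho, eval_xQ hs ho, eval_xS0 hs ho]
    refine ⟨by ring, ?_⟩
    linear_combination (scale p s * (149 / 1000 * (2 * (81 / 20 - sqTan p s)))) * eD

theorem kap_zero (h : 81 / 20 ≤ sqTan p s) : kapS p s = 0 ∧ kapD p s = 0 := by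
  rw [kapS, kapD, kapM, kapM', Tail.sqp_of_nonpos (by linarith), Tail.sqp_of_nonpos (by linarith),
    Tail.sqp'_of_nonpos (by linarith), Tail.sqp'_of_nonpos (by linarith)]
  simp

theorem eval_coef {a : Expr} (p : ℕ) (z τ σ : ℝ)
    (h : a = spl0 ∨ a = spl1 ∨ a = spl2 ∨ ∃ j, j < 6 ∧ a = jump j) :
    a.eval (pt p z τ σ) = coefAt a (eps p) := by
  rcases h with rfl | rfl | rfl | ⟨j, hj, rfl⟩
  · simp [coefAt, spl0, ee, pt]
  · simp [coefAt, spl1, ee, pt]
  · simp [coefAt, spl2, ee, pt]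
  · interval_cases j <;> simp [coefAt, jump, ee, pt]

theorem eval_knot (p : ℕ) (z τ σ : ℝ) {j : ℕ} (hj : j < 6) :
    (knot j).eval (pt p z τ σ) = knotR j := by
  interval_cases j <;> simp [knot, knotR]

theorem eval_spline (hs : s ∈ Ioo (0 : ℝ) 1) (ho : o.eval (pt p z τ σ) = oVar p s) :
    ∀ i, i ≤ 6 → (xRs i o).eval (pt p z τ σ) = coefAt spl0 (eps p) +
        coefAt spl1 (eps p) * sqTan p s + coefAt spl2 (eps p) * (sqTan p s * sqTan p s) +
        ∑ j ∈ Finset.range i, coefAt (jump j) (eps p) * (sqTan p s - knotR j) ^ 2 ∧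
      (xRd i o).eval (pt p z τ σ) = coefAt spl1 (eps p) + 2 * coefAt spl2 (eps p) * sqTan p s +
        ∑ j ∈ Finset.range i, coefAt (jump j) (eps p) * (2 * (sqTan p s - knotR j))
  | 0, _ => by
    simp [xRs, xRd, eval_xX hs ho, eval_coef p z τ σ (a := spl0) (Or.inl rfl),
      eval_coef p z τ σ (a := spl1) (Or.inr (Or.inl rfl)),
      eval_coef p z τ σ (a := spl2) (Or.inr (Or.inr (Or.inl rfl)))]
  | i + 1, hi => by
    obtain ⟨h1, h2⟩ := eval_spline hs ho i (by omega)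
    have ej := eval_coef p z τ σ (a := jump i) (Or.inr (Or.inr (Or.inr ⟨i, by omega, rfl⟩)))
    rw [Finset.sum_range_succ, Finset.sum_range_succ]
    simp [xRs, xRd, h1, h2, ej, eval_knot p z τ σ (show i < 6 by omega), eval_xX hs ho]
    constructor <;> ring

theorem eval_xP (hs : s ∈ Ioo (0 : ℝ) 1) (ho : o.eval (pt p z τ σ) = oVar p s) {i : ℕ} (hi : i ≤ 6)
    (hlo : ∀ j, j < i → knotR j ≤ sqTan p s)
    (hhi : ∀ j, j < 6 → i ≤ j → sqTan p s ≤ knotR j) :
    (xP i o).eval (pt p z τ σ) = scale p s * remR p s := by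
  obtain ⟨h1, h2⟩ := eval_spline hs ho i hi
  have hz : 0 < 1 - s ^ 2 := by nlinarith [hs.1, hs.2]
  have e1 : spline (eps p) (sqTan p s) = (xRs i o).eval (pt p z τ σ) := by
    rw [h1, spline, add_left_cancel_iff,
      ← Finset.sum_subset (Finset.range_subset_range.2 hi) fun j hj hn => by
        rw [Tail.sqp_of_nonpos (sub_nonpos.2 (hhi j (Finset.mem_range.1 hj)
          (not_lt.1 (Finset.mem_range.not.1 hn)))), mul_zero]]
    exact Finset.sum_congr rfl fun j hj => by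
      rw [Tail.sqp_of_nonneg (sub_nonneg.2 (hlo j (Finset.mem_range.1 hj)))]
  have e2 : spline' (eps p) (sqTan p s) = (xRd i o).eval (pt p z τ σ) := by
    rw [h2, spline', add_left_cancel_iff,
      ← Finset.sum_subset (Finset.range_subset_range.2 hi) fun j hj hn => by
        rw [Tail.sqp'_of_nonpos (sub_nonpos.2 (hhi j (Finset.mem_range.1 hj)
          (not_lt.1 (Finset.mem_range.not.1 hn)))), mul_zero]]
    exact Finset.sum_congr rfl fun j hj => by
      rw [sqp', max_eq_left (sub_nonneg.2 (hlo j (Finset.mem_range.1 hj)))]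
  have eQ : 1 + eps p * sqTan p s = 1 / (1 - s ^ 2) := by
    rw [sqTan, eps]; field_simp; ring
  have hb := (Ident.b0_pos p).ne'
  rw [remR, e1, e2, eQ]
  simp [xP, eval_xN, eval_ee, eval_xX hs ho, eval_xQ hs ho, scale]
  field_simp

theorem eval_fisher (h1 : 18 ≤ p) (h2 : p ≤ 97) (hs : s ∈ Ioo (0 : ℝ) 1)
    (ho : o.eval (pt p z τ σ) = oVar p s) {v u δ : ℝ} (hv : 0 < v) :
    (xA o).eval (pt p z τ σ) * (u ^ 2 / v) + (xB o).eval (pt p z τ σ) * δ ^ 2 -
        2 * (xC o).eval (pt p z τ σ) * (u * δ) ≤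
      fisherQ p (sqTan p s) v u δ +
        (33 / 250 * (1 + 2 * (eps p * sqTan p s)) + (33 / 250 - 6 / 125) * sqTan p s +
          6 / 125 * (sqTan p s * sqTan p s)) / Ident.b0 p * δ ^ 2 -
        2 * ((33 / 250 + 6 / 125 * sqTan p s) / Ident.b0 p) * (u * δ) ∧
    (u * δ ≤ 0 → (xN * .frac 73 25 * 2 * nuL).eval (pt p z τ σ) * (u ^ 2 / v) +
        (xB o).eval (pt p z τ σ) * δ ^ 2 - 2 * (xC o).eval (pt p z τ σ) * (u * δ) ≤
      fisherQ p (sqTan p s) v u δ +
        (33 / 250 * (1 + 2 * (eps p * sqTan p s)) + (33 / 250 - 6 / 125) * sqTan p s +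
          6 / 125 * (sqTan p s * sqTan p s)) / Ident.b0 p * δ ^ 2 -
        2 * ((33 / 250 + 6 / 125 * sqTan p s) / Ident.b0 p) * (u * δ)) := by
  obtain ⟨hl, hh⟩ := nuS_mem h1 h2
  have he := eps_pos p
  rw [← eps] at hl hh
  have he1 : eps p ≤ 1 / 19 := (eps_mem h1 h2).2
  have hz : 0 < 1 - s ^ 2 := by nlinarith [hs.1, hs.2]
  have hX : 0 ≤ sqTan p s := div_nonneg (by positivity) hz.le
  have hn0 : 0 ≤ nuS p := le_trans (by linarith) hl
  have hN : 0 ≤ 1 / Ident.b0 p := (one_div_pos.2 (Ident.b0_pos p)).le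
  have hq : 0 ≤ u ^ 2 / v := by positivity
  simp only [fisherQ, xA, xB, xC, Expr.eval_mul, Expr.eval_sub, Expr.eval_add, Expr.eval_frac,
    eval_xN, eval_xX hs ho, eval_ee, nuL, nuH, Expr.eval_ofNat]
  push_cast
  generalize sqTan p s = X at hX
  generalize eps p = e at he he1 hl hh
  generalize nuS p = n at hl hh hn0
  obtain ⟨N, hN, hb⟩ : ∃ N, 0 ≤ N ∧ Ident.b0 p = N⁻¹ :=
    ⟨_, hN, by rw [one_div, inv_inv]⟩
  simp only [hb, div_inv_eq_mul, one_mul]
  have a1 := mul_nonneg (mul_nonneg hN (sub_nonneg.2 hl)) hq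
  have a2 := mul_nonneg (mul_nonneg (mul_nonneg hN (sub_nonneg.2 hh)) (mul_nonneg he.le hX)) hq
  have a3 := mul_nonneg (mul_nonneg hN (sub_nonneg.2 hh))
    (mul_nonneg (mul_nonneg (show (0 : ℝ) ≤ 1 + 3 * e by linarith) hX) (sq_nonneg δ))
  constructor
  · have a4 : 0 ≤ n * N * (e * X / v) * (2 * (48 / 25) * (1 + 48 / 25) * (δ - 23 / 96 * u) ^ 2) :=
      mul_nonneg (mul_nonneg (mul_nonneg hn0 hN) (div_nonneg (mul_nonneg he.le hX) hv.le))
        (by positivity)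
    linear_combination (2 * (1 + 48 / 25)) * a1 + (38617 / 60000 : ℝ) * a2 +
      (2304 / 625 : ℝ) * a3 + a4
  · intro hd
    have a4 : 0 ≤ n * N * (e * X / v) * (2 * (48 / 25) * (1 + 48 / 25) * δ ^ 2) :=
      mul_nonneg (mul_nonneg (mul_nonneg hn0 hN) (div_nonneg (mul_nonneg he.le hX) hv.le))
        (by positivity)
    have a5 : n * N * (e * X / v) * (2 * ((48 / 25) ^ 2 - 1) * (u * δ)) ≤ 0 :=
      mul_nonpos_of_nonneg_of_nonpos (mul_nonneg (mul_nonneg hn0 hN)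
        (div_nonneg (mul_nonneg he.le hX) hv.le)) (mul_nonpos_of_nonneg_of_nonpos (by norm_num) hd)
    linear_combination (2 * (1 + 48 / 25)) * a1 + (2304 / 625 : ℝ) * a3 + a4 + a5

end Vale.Agent.P237.Petty.Cor.TinyMid
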