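import Vale.Agent.P237.Petty.Cor.Few.Mask

/-!
# P237: the polynomial expressions of the cell below a constant over the dimension

The variables are the abscissa `o` (through `X = o (2 + e o)`), `e = 1 / (p + 1)`, a parameter of
the ratio of the half circles and two parameters of the state.
-/

namespace Vale.Agent.P237.Petty.Cor.TinyMid

open Vale.Agent.P100.Bernstein

/-- `1 / (p + 1)`. -/
def ee : Expr := .var 1

/-- The parameter of the ratio of the half circles. -/
def nn : Expr := .var 2

/-- The first parameter of a state. -/
def tt : Expr := .var 3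

/-- The second parameter of a state. -/
def ss : Expr := .var 4

/-- The lower end of the offset of the reciprocal of the ratio. -/
def etaL : Expr := .frac 1 2 - .frac 375 1000 * ee

/-- The upper end of the offset of the reciprocal of the ratio. -/
def etaH : Expr := .frac 1 2 - .frac 359 1000 * ee

/-- The offset of the reciprocal of the ratio. -/
def xEta : Expr := etaL + nn * (etaH - etaL)

/-- The reciprocal of the ratio. -/
def xN : Expr := 1 + ee * xEta

/-- The lower bound of the stationary multiplier. -/
def nuL : Expr := .frac 1 8 - .frac 187 1000 * ee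

/-- The upper bound of the stationary multiplier. -/
def nuH : Expr := .frac 1 8 - .frac 63 1000 * ee

/-- The squared tangent over `e`. -/
def xX (o : Expr) : Expr := o * (2 + ee * o)

/-- The secant. -/
def xO (o : Expr) : Expr := 1 + ee * o

/-- The squared secant. -/
def xQ (o : Expr) : Expr := 1 + ee * xX o

/-- The common scale. -/
def xS0 (o : Expr) : Expr := xQ o * xN

/-- The weight of the obstacle without its factors in `e`. -/
def xd2 (o : Expr) : Expr := (xEta - o) ^ 2 * (3 + ee * xEta + 2 * (ee * o))

/-- The share of the weight that is kept. -/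
def keep : Bool → Expr
  | false => 1
  | true => .frac 69 250

/-- The kept weight, scaled. -/
def xV (t : Bool) (o : Expr) : Expr := keep t * (.frac 1 2 * ee * (1 - ee) * xd2 o)

/-- The kept weight over the largest value, scaled. -/
def xVh (t : Bool) (o : Expr) : Expr := keep t * (2 * (1 - ee) * (1 + ee) * xd2 o)

/-- The slope of the switched weight, scaled. -/
def xS : Bool → Expr → Expr
  | false, _ => 0
  | true, o => .frac 181 250 * ((1 - ee) * xX o * (xO o ^ 3 - xN ^ 3))

/-- The slope over the largest value, scaled. -/
def xSh : Bool → Expr → Expr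
  | false, _ => 0
  | true, o => .frac 181 250 * (4 * ((1 - ee) * (1 + ee)) * xX o * (o - xEta) *
      (3 + 3 * ee * (o + xEta) + ee ^ 2 * (o ^ 2 + o * xEta + xEta ^ 2)))

/-- The shadow coefficient, scaled. -/
def xR (o : Expr) : Expr := xO o ^ 3

/-- The Fisher coefficient, scaled. -/
def xA (o : Expr) : Expr :=
  xN * .frac 73 25 * (2 * nuL - nuH * .frac 529 2400 * ee * xX o)

/-- The coefficient of the square in `u` below one, scaled. -/
def xA1 (o : Expr) : Expr := xA o - .frac 1 2 * xR o

/-- The coefficient of the square in `d`, scaled. -/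
def xB (o : Expr) : Expr :=
  xN * (.frac 33 250 * (1 + 2 * ee * xX o) +
    (.frac 33 250 - .frac 6 125 - nuH * .frac 2304 625 * (1 + 3 * ee)) * xX o +
    .frac 6 125 * (xX o * xX o))

/-- Half the negated coefficient of the product, scaled. -/
def xC (o : Expr) : Expr := xN * (.frac 33 250 + .frac 6 125 * xX o)

/-- The first hinge. -/
def hinge1 (o : Expr) : Expr := .frac 81 20 - xX o

/-- The second hinge, absent beyond its knot. -/
def hinge2 : Bool → Expr → Expr
  | false, o => .frac 17 5 - xX o
  | true, _ => 0

/-- The potential of the value, scaled. -/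
def xK (h : Bool) (o : Expr) : Expr :=
  (.frac 149 1000 * hinge1 o ^ 2 - .frac 33 200 * hinge2 h o ^ 2) * xS0 o

/-- The linear coefficient of that potential, scaled. -/
def xKd (h : Bool) (o : Expr) : Expr :=
  (.frac 33 200 * (4 * hinge2 h o) * (xX o * xQ o) -
    .frac 149 1000 * (4 * hinge1 o) * (xX o * xQ o) -
    (.frac 149 1000 * hinge1 o ^ 2 - .frac 33 200 * hinge2 h o ^ 2) * xX o) * xS0 o

/-- The knots of the spline. -/
def knot : ℕ → Expr
  | 0 => (.frac 23 50)
  | 1 => (.frac 37 50)
  | 2 => (.frac 97 100)
  | 3 => (.frac 113 100)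
  | 4 => (.frac 19 10)
  | _ => (.frac 15 4)

/-- The jumps of the second derivative at the knots. -/
def jump : ℕ → Expr
  | 0 => (.frac 199 200) + (-.frac 14733 1000) * ee
  | 1 => (-.frac 3811 2500) + (.frac 23773 1000) * ee
  | 2 => (-.frac 3289 2000) + (-.frac 3731 500) * ee
  | 3 => (.frac 16367 10000) + (-.frac 2349 1000) * ee
  | 4 => (.frac 213 1000) + (-.frac 19 125) * ee
  | _ => (-.frac 161 10000) + (-.frac 3 200) * ee

/-- The constant coefficient of the spline. -/
def spl0 : Expr := (-.frac 62 125) + (.frac 0 1) * ee

/-- The linear coefficient of the spline. -/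
def spl1 : Expr := (-.frac 133 1000) + (.frac 127 125) * ee

/-- The quadratic coefficient of the spline. -/
def spl2 : Expr := (.frac 679 2000) + (.frac 118 125) * ee

/-- The spline with `i` knots. -/
def xRs : ℕ → Expr → Expr
  | 0, o => spl0 + spl1 * xX o + spl2 * (xX o * xX o)
  | i + 1, o => xRs i o + jump i * (xX o - knot i) ^ 2

/-- The derivative of the spline. -/
def xRd : ℕ → Expr → Expr
  | 0, o => spl1 + 2 * spl2 * xX o
  | i + 1, o => xRd i o + 2 * jump i * (xX o - knot i)

/-- The remainder of mean zero, scaled. -/
def xP (i : ℕ) (o : Expr) : Expr :=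
  xN * (xRs i o * (1 - (1 + 2 * ee) * xX o) + 2 * (xX o * xQ o) * xRd i o)

/-- The numerator of the pinned box. -/
def xTn (o : Expr) : Expr := (1 + 3 * ee) * xX o + 2 * xQ o

/-- The denominator of the pinned box. -/
def xTd (o : Expr) : Expr :=
  (1 + 2 * ee) * xX o * ((1 + 2 * ee) * xX o + 3 * xQ o)

/-- The slope of the tail chord. -/
def xXp (o : Expr) : Expr := (1 + ee) * xX o + xQ o

/-- The factor of the exponential. -/
def xE1 : Expr := 1 + ee * .frac 1 4

/-- A piece: whether the switch is on, the branch of the potential, the number of knots, the bound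
of the mass below as an affine function `h0 + h1 (o - w0)` and the bound `rn / rd` of the root of
the reciprocal speed. -/
structure Piece where
  /-- the switch -/
  t : Bool
  /-- beyond the second hinge -/
  h : Bool
  /-- number of knots below -/
  i : ℕ
  /-- value of the mass bound at the left end -/
  h0 : ℤ × ℕ
  /-- slope of the mass bound -/
  h1 : ℤ × ℕ
  /-- left end -/
  w0 : ℤ × ℕ
  /-- numerator of the root bound -/
  rn : ℕ
  /-- denominator of the root bound -/
  rd : ℕ

variable (P : Piece) (o : Expr)

/-- A rational constant. -/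
def cst (q : ℤ × ℕ) : Expr := .frac q.1 q.2

/-- The bound of the mass below. -/
def xH : Expr := cst P.h0 + cst P.h1 * (o - cst P.w0)

/-- The bound of the reciprocal speed at positive displacement. -/
def xH1 : Expr := .frac P.rn P.rd * xH P o

/-- `d` on the pinned side. -/
def dM : Expr := -(tt * xE1 * xTn o)

/-- `d` on the side of the chord. -/
def dP : Expr := tt * xH P o

/-- The constant, negative side. -/
def nC0 : Expr :=
  xVh P.t o * (xTd o * xTd o + xX o * dM o * xTd o) + xKd P.h o * dM o * xTd o -
    .frac 63 125 * xS P.t o * (xTn o * xTd o) + xB o * (dM o * dM o) +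
    xP P.i o * (xTd o * xTd o)

/-- The linear coefficient, negative side. -/
def nL : Expr := (xK P.h o - xVh P.t o) * xTd o - 2 * xC o * dM o

/-- The discriminant, negative side. -/
def nDisc : Expr := 4 * xA1 o * nC0 P o - nL P o * nL P o

/-- The constant, positive side. -/
def pC0 : Expr :=
  (xVh P.t o * (1 + xX o * dP P o) + xKd P.h o * dP P o + xB o * (dP P o * dP P o) +
    xP P.i o) * xXp o + xSh P.t o * (dP P o * xXp o + 1)

/-- The linear coefficient, positive side. -/
def pL : Expr := xK P.h o - xVh P.t o - 2 * xC o * dP P o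

/-- The discriminant, positive side. -/
def pDisc : Expr := 4 * xA1 o * pC0 P o - pL P o * pL P o * xXp o

/-- The multiplier of the cut. -/
def lamE : Bool → Expr
  | false => xVh P.t o
  | true => xK P.h o

/-- The share of the cut at speeds near one. -/
def lowShare : Expr := xA o - (xR o + xV P.t o) * .frac 503 1000

/-- The inverse of the largest reciprocal speed, or one. -/
def lowInv : Bool → Expr
  | false => 1
  | true => .frac 50 51

/-- The form with a value above one, pinned side. -/
def lF (k pos : Bool) : Expr :=
  lamE P o k * (xTd o * xTd o + xX o * dM o * xTd o) + xKd P.h o * dM o * xTd o -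
    .frac 63 125 * xS P.t o * (xTn o * xTd o) +
    (xB o - xV P.t o * (xX o * .frac 1 2 + ee * (xX o * xX o))) * (dM o * dM o) +
    xP P.i o * (xTd o * xTd o) +
    ((xK P.h o - lamE P o k) * xTd o - 2 * xC o * dM o) * (ss * xE1 * xTd o) +
    lowShare P o * lowInv pos * ((ss * xE1 * xTd o) * (ss * xE1 * xTd o))

/-- The share of the cut up to the largest reciprocal speed. -/
def highShare : Expr :=
  xA o - (xR o + xV P.t o) *
    .frac (2 * (P.rn : ℤ) ^ 2 + (P.rd : ℤ) ^ 2) (2 * (P.rn ^ 2 + 2 * P.rd ^ 2))

/-- The inverse of the largest reciprocal speed, or one, on the side of the chord. -/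
def highInv : Bool → Expr
  | false => 1
  | true => .frac ((P.rd : ℤ) ^ 2) (P.rn ^ 2)

/-- `d` on the side of the chord with a value above one. -/
def dQ : Expr := tt * xH1 P o

/-- `u` on the side of the chord. -/
def wQ : Expr := ss * xE1 * (1 + xXp o * dQ P o)

/-- The form with a value above one, side of the chord. -/
def hF (k pos : Bool) : Expr :=
  (lamE P o k * (1 + xX o * dQ P o) + xKd P.h o * dQ P o +
    (xB o - xV P.t o * (xX o * .frac 1 2 + .frac 9 8 * (ee * (xX o * xX o)))) *
      (dQ P o * dQ P o) + xP P.i o) * xXp o + xSh P.t o * (dQ P o * xXp o + 1) +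
    (xK P.h o - lamE P o k - 2 * xC o * dQ P o) * xXp o * wQ P o +
    highShare P o * highInv P pos * (wQ P o * wQ P o) * xXp o

end Vale.Agent.P237.Petty.Cor.TinyMid
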