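import Vale.Agent.P237.Petty.Cor.Bridge
import Vale.Agent.P237.Petty.Tail.Basic
import Vale.Agent.P237.Petty.Cor.TinyMid.Exprs

/-!
# P237: the field of the cell in the middle orders for small values

The switched weight is a share of the weight where the arc is below the ratio of the half
circles. The remainder is the derivative of the arc to the power `p + 3`, times the abscissa
and a spline in `X = (p + 1) s ^ 2 / (1 - s ^ 2)`, so its mean is zero, as is that of the first
bracket.
-/

namespace Vale.Agent.P237.Petty.Cor.TinyMid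

open MeasureTheory Set intervalIntegral
open Ident (half rate)
open Lift (circHigh)
open Tail (sqp sqp' hasDerivAt_sqp continuous_sqp continuous_sqp')
open Vale.Agent.P100.Bernstein

variable {p : ℕ}

/-- `1 / (p + 1)`. -/
noncomputable def eps (p : ℕ) : ℝ := 1 / ((p : ℝ) + 1)

/-- The squared tangent over `eps`. -/
noncomputable def sqTan (p : ℕ) (s : ℝ) : ℝ := ((p : ℝ) + 1) * s ^ 2 / (1 - s ^ 2)

/-- Its derivative. -/
noncomputable def sqTan' (p : ℕ) (s : ℝ) : ℝ := 2 * ((p : ℝ) + 1) * s / (1 - s ^ 2) ^ 2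

theorem sqp_div {x U : ℝ} (hU : 0 < U) : sqp (x / U) = sqp x / U ^ 2 := by
  rcases le_total x 0 with h | h
  · rw [Tail.sqp_of_nonpos h, Tail.sqp_of_nonpos (div_nonpos_of_nonpos_of_nonneg h hU.le)]
    simp
  · rw [Tail.sqp_of_nonneg h, Tail.sqp_of_nonneg (div_nonneg h hU.le), div_pow]

theorem sqp'_div {x U : ℝ} (hU : 0 < U) : sqp' (x / U) = sqp' x / U := by
  rcases le_total x 0 with h | h
  · rw [Tail.sqp'_of_nonpos h, Tail.sqp'_of_nonpos (div_nonpos_of_nonpos_of_nonneg h hU.le)]
    simp
  · rw [sqp', sqp', max_eq_left h, max_eq_left (div_nonneg h hU.le)]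
    ring

theorem hasDerivAt_sqTan (p : ℕ) {s : ℝ} (hs : s ∈ Ioo (0 : ℝ) 1) :
    HasDerivAt (sqTan p) (sqTan' p s) s := by
  have hz : 1 - s ^ 2 ≠ 0 := by nlinarith [hs.1, hs.2]
  refine (((hasDerivAt_pow 2 s).const_mul ((p : ℝ) + 1)).div
    ((hasDerivAt_pow 2 s).const_sub 1) hz).congr_deriv ?_
  rw [sqTan']
  push_cast
  field_simp
  ring

theorem hasDerivAt_arc {s : ℝ} (hs : s ∈ Ioo (0 : ℝ) 1) : HasDerivAt arc (-s / arc s) s := by
  refine (((hasDerivAt_pow 2 s).const_sub 1).sqrt (by nlinarith [hs.1, hs.2])).congr_deriv ?_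
  rw [show √(1 - s ^ 2) = arc s from rfl]
  have : arc s ≠ 0 := (arc_pos ⟨by linarith [hs.1], hs.2⟩).ne'
  field_simp
  push_cast
  ring

/-- The switched weight. -/
noncomputable def dSw (p : ℕ) (s : ℝ) : ℝ :=
  181 / 250 * sqCoef p * sqp (Ident.b0 p - arc s) * (arc s + 2 * Ident.b0 p) / arc s

/-- Its derivative. -/
noncomputable def dSw' (p : ℕ) (s : ℝ) : ℝ :=
  181 / 250 * sqCoef p * s *
    (sqp' (Ident.b0 p - arc s) * (arc s + 2 * Ident.b0 p) / arc s ^ 2 +
      sqp (Ident.b0 p - arc s) * (2 * Ident.b0 p) / arc s ^ 3)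

theorem hasDerivAt_dSw (p : ℕ) {s : ℝ} (hs : s ∈ Ioo (0 : ℝ) 1) :
    HasDerivAt (dSw p) (dSw' p s) s := by
  have hc : arc s ≠ 0 := (arc_pos ⟨by linarith [hs.1], hs.2⟩).ne'
  refine ((((((hasDerivAt_sqp _).comp s ((hasDerivAt_arc hs).const_sub (Ident.b0 p))).const_mul
    (181 / 250 * sqCoef p))).mul ((hasDerivAt_arc hs).add_const (2 * Ident.b0 p))).div
      (hasDerivAt_arc hs) hc).congr_deriv ?_
  simp only [dSw', Function.comp_apply, Pi.mul_apply]
  field_simp
  ring

/-- The part of the potential proportional to the value. -/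
noncomputable def kapM (x : ℝ) : ℝ :=
  149 / 1000 * sqp (81 / 20 - x) - 33 / 200 * sqp (17 / 5 - x)

/-- Its derivative. -/
noncomputable def kapM' (x : ℝ) : ℝ :=
  33 / 200 * sqp' (17 / 5 - x) - 149 / 1000 * sqp' (81 / 20 - x)

theorem hasDerivAt_kapM (x : ℝ) : HasDerivAt kapM (kapM' x) x := by
  refine ((((hasDerivAt_sqp _).comp x ((hasDerivAt_id x).const_sub (81 / 20))).const_mul
    (149 / 1000)).sub (((hasDerivAt_sqp _).comp x
      ((hasDerivAt_id x).const_sub (17 / 5))).const_mul (33 / 200))).congr_deriv ?_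
  simp only [kapM', id]
  ring

/-- The derivative of the weight in the abscissa. -/
noncomputable def wS' (p : ℕ) (s : ℝ) : ℝ :=
  2 * sqCoef p * s * (Ident.b0 p ^ 3 / arc s ^ 3 - 1)

theorem hasDerivAt_wS (p : ℕ) {s : ℝ} (hs : s ∈ Ioo (0 : ℝ) 1) :
    HasDerivAt (fun x => wS p (arc x)) (wS' p s) s := by
  have hc : arc s ≠ 0 := (arc_pos ⟨by linarith [hs.1], hs.2⟩).ne'
  refine ((((((hasDerivAt_arc hs).sub_const (Ident.b0 p)).pow 2).const_mul (sqCoef p)).mul
    ((hasDerivAt_arc hs).add_const (2 * Ident.b0 p))).div (hasDerivAt_arc hs) hc).congr_deriv ?_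
  simp only [wS', Pi.mul_apply, Pi.pow_apply]
  field_simp
  push_cast
  ring

/-- The linear coefficient of the potential. -/
noncomputable def kPot (p : ℕ) (ell s : ℝ) : ℝ :=
  -(Ident.b0 p / arc s + wS p (arc s) - dSw p s) + ell * kapM (sqTan p s)

/-- Its derivative. -/
noncomputable def kPot' (p : ℕ) (ell s : ℝ) : ℝ :=
  -(Ident.b0 p * s / arc s ^ 3 + wS' p s - dSw' p s) + ell * (kapM' (sqTan p s) * sqTan' p s)

theorem hasDerivAt_kPot (p : ℕ) (ell : ℝ) {s : ℝ} (hs : s ∈ Ioo (0 : ℝ) 1) :
    HasDerivAt (kPot p ell) (kPot' p ell s) s := by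
  have hc : arc s ≠ 0 := (arc_pos ⟨by linarith [hs.1], hs.2⟩).ne'
  refine (((((hasDerivAt_const s (Ident.b0 p)).div (hasDerivAt_arc hs) hc).add
    (hasDerivAt_wS p hs)).sub (hasDerivAt_dSw p hs)).neg.add
      ((((hasDerivAt_kapM _).comp s (hasDerivAt_sqTan p hs))).const_mul ell)).congr_deriv ?_
  simp only [kPot']
  field_simp
  ring

/-- The quadratic coefficient of the potential. -/
noncomputable def bPot (p : ℕ) (s : ℝ) : ℝ :=
  -(33 / 250) * (1 - s ^ 2) / s - 6 / 125 * ((p : ℝ) + 1) * s

/-- Its derivative. -/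
noncomputable def bPot' (p : ℕ) (s : ℝ) : ℝ :=
  33 / 250 * (1 + 1 / s ^ 2) - 6 / 125 * ((p : ℝ) + 1)

theorem hasDerivAt_bPot (p : ℕ) {s : ℝ} (hs : s ∈ Ioo (0 : ℝ) 1) :
    HasDerivAt (bPot p) (bPot' p s) s := by
  have h0 := hs.1.ne'
  refine (((((hasDerivAt_pow 2 s).const_sub 1).const_mul (-(33 / 250 : ℝ))).div (hasDerivAt_id s)
    h0).sub ((hasDerivAt_id s).const_mul (6 / 125 * ((p : ℝ) + 1)))).congr_deriv ?_
  simp only [bPot', id]
  field_simp
  push_cast
  ring

/-- A coefficient of the spline at `e`. -/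
noncomputable def coefAt (a : Expr) (e : ℝ) : ℝ := a.eval [0, e]

/-- A knot of the spline. -/
noncomputable def knotR (j : ℕ) : ℝ := (knot j).eval []

/-- The spline. -/
noncomputable def spline (e x : ℝ) : ℝ :=
  coefAt spl0 e + coefAt spl1 e * x + coefAt spl2 e * (x * x) +
    ∑ j ∈ Finset.range 6, coefAt (jump j) e * sqp (x - knotR j)

/-- Its derivative. -/
noncomputable def spline' (e x : ℝ) : ℝ :=
  coefAt spl1 e + 2 * coefAt spl2 e * x +
    ∑ j ∈ Finset.range 6, coefAt (jump j) e * sqp' (x - knotR j)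

theorem hasDerivAt_spline (e x : ℝ) : HasDerivAt (spline e) (spline' e x) x := by
  refine ((((hasDerivAt_id x).const_mul (coefAt spl1 e)).const_add (coefAt spl0 e)).add
    (((hasDerivAt_id x).mul (hasDerivAt_id x)).const_mul (coefAt spl2 e))).add
    (HasDerivAt.fun_sum fun j _ => (((hasDerivAt_sqp _).comp x
      ((hasDerivAt_id x).sub_const (knotR j))).const_mul (coefAt (jump j) e))) |>.congr_deriv ?_
  simp only [spline', id, mul_one]
  ring

/-- The remainder. -/
noncomputable def remR (p : ℕ) (s : ℝ) : ℝ :=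
  (1 - s ^ 2) * (spline (eps p) (sqTan p s) * (1 - (1 + 2 * eps p) * sqTan p s) +
    2 * (sqTan p s * (1 + eps p * sqTan p s)) * spline' (eps p) (sqTan p s))

/-- The lower bound of the cell. -/
noncomputable def psiM (p : ℕ) (ell s : ℝ) : ℝ :=
  ell * (dSw p s - dSw' p s * circHigh p s / arc s ^ (p + 1)) - ell ^ 2 * remR p s

/-- The mass above over a power of the circle is continuous up to the end. -/
theorem continuousOn_high_div {k : ℕ} (hk : k ≤ p) :
    ContinuousOn (fun s => circHigh p s / arc s ^ k) (Icc 0 1) := by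
  have hc : Continuous fun u => arc u ^ (p + 1) := continuous_arc.pow _
  have hH : Continuous fun s => circHigh p s := by
    have e : (fun s => circHigh p s) = fun s => -∫ v in (1 : ℝ)..s, arc v ^ (p + 1) :=
      funext fun s => intervalIntegral.integral_symm 1 s
    rw [e]
    exact (intervalIntegral.continuous_primitive (fun a b => hc.intervalIntegrable a b) 1).neg
  intro s hs
  rcases hs.2.eq_or_lt with rfl | hs1
  · have h0 : circHigh p 1 / arc 1 ^ k = 0 := by simp [circHigh]
    rw [ContinuousWithinAt, h0]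
    have hb : Filter.Tendsto (fun s => arc s ^ (p + 1 - k) * (1 - s))
        (nhdsWithin 1 (Icc 0 1)) (nhds 0) := by
      have := continuous_arc
      have h := (show Continuous fun s : ℝ => arc s ^ (p + 1 - k) * (1 - s) by fun_prop).tendsto 1
      rw [sub_self, mul_zero] at h
      exact h.mono_left nhdsWithin_le_nhds
    refine squeeze_zero' ?_ ?_ hb
    · filter_upwards [self_mem_nhdsWithin] with x hx
      exact div_nonneg (intervalIntegral.integral_nonneg hx.2 fun v _ =>
        pow_nonneg (Real.sqrt_nonneg _) _) (pow_nonneg (Real.sqrt_nonneg _) _)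
    · filter_upwards [self_mem_nhdsWithin] with x hx
      have hx0 : 0 ≤ arc x := Real.sqrt_nonneg _
      have h1 : circHigh p x ≤ arc x ^ (p + 1) * (1 - x) := by
        rw [mul_comm, ← smul_eq_mul, ← intervalIntegral.integral_const]
        exact intervalIntegral.integral_mono_on hx.2 (hc.intervalIntegrable _ _)
          intervalIntegrable_const fun v hv => pow_le_pow_left₀ (Real.sqrt_nonneg _)
            (Real.sqrt_le_sqrt (by nlinarith [hx.1, hv.1, hv.2])) _
      rcases hx0.eq_or_lt with h | h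
      · rcases Nat.eq_zero_or_pos k with rfl | hk0
        · simpa using h1
        · rw [← h, zero_pow hk0.ne', div_zero]
          exact mul_nonneg (pow_nonneg le_rfl _) (by linarith [hx.2])
      · rw [div_le_iff₀ (pow_pos h k)]
        calc circHigh p x ≤ arc x ^ (p + 1) * (1 - x) := h1
          _ = arc x ^ (p + 1 - k) * (1 - x) * arc x ^ k := by
              rw [mul_right_comm, ← pow_add, Nat.sub_add_cancel (by omega)]
  · exact (hH.continuousAt.div (continuous_arc.pow k).continuousAt
      (pow_ne_zero _ (arc_pos ⟨by linarith [hs.1], hs1⟩).ne')).continuousWithinAt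

/-- The first bracket times the circle. -/
theorem bracket_eq (hp : 1 ≤ p) {s : ℝ} (hs : s ∈ Icc (0 : ℝ) 1) :
    arc s ^ (p + 1) * (dSw p s - dSw' p s * circHigh p s / arc s ^ (p + 1)) =
      181 / 250 * sqCoef p * sqp (Ident.b0 p - arc s) * (arc s + 2 * Ident.b0 p) * arc s ^ p -
        181 / 250 * sqCoef p * s *
          (sqp' (Ident.b0 p - arc s) * (arc s + 2 * Ident.b0 p) * (circHigh p s / arc s ^ 2) +
            sqp (Ident.b0 p - arc s) * (2 * Ident.b0 p) * (circHigh p s / arc s ^ 3)) := by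
  rcases hs.2.eq_or_lt with rfl | hs1
  · simp [dSw, dSw', circHigh, arc, zero_pow (show p ≠ 0 by omega)]
  · have hc : arc s ≠ 0 := (arc_pos ⟨by linarith [hs.1], hs1⟩).ne'
    rw [dSw, dSw', pow_succ]
    field_simp

theorem continuousOn_bracket (hp : 3 ≤ p) :
    ContinuousOn (fun s => arc s ^ (p + 1) * (dSw p s - dSw' p s * circHigh p s / arc s ^ (p + 1)))
      (Icc 0 1) := by
  have := continuous_arc
  have := continuous_sqp
  have := continuous_sqp'
  refine ContinuousOn.congr ?_ fun s hs => bracket_eq (by omega) hs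
  refine (Continuous.continuousOn (by fun_prop)).sub ((Continuous.continuousOn (by fun_prop)).mul
    (((Continuous.continuousOn (by fun_prop)).mul (continuousOn_high_div (by omega))).add
      ((Continuous.continuousOn (by fun_prop)).mul (continuousOn_high_div (by omega)))))

theorem integral_bracket (hp : 3 ≤ p) :
    ∫ s in (0 : ℝ)..1, arc s ^ (p + 1) * (dSw p s - dSw' p s * circHigh p s / arc s ^ (p + 1)) =
      0 := by
  have := continuous_arc
  have := continuous_sqp
  have hcont : ContinuousOn (fun s => 181 / 250 * sqCoef p * sqp (Ident.b0 p - arc s) *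
      (arc s + 2 * Ident.b0 p) * (circHigh p s / arc s ^ 1)) (Icc 0 1) :=
    (Continuous.continuousOn (by fun_prop)).mul (continuousOn_high_div (by omega))
  rw [intervalIntegral.integral_eq_sub_of_hasDerivAt_of_le zero_le_one
    (f := fun s => -(181 / 250 * sqCoef p * sqp (Ident.b0 p - arc s) *
      (arc s + 2 * Ident.b0 p) * (circHigh p s / arc s ^ 1))) hcont.neg (fun s hs => ?_)
    ((continuousOn_bracket hp).intervalIntegrable_of_Icc zero_le_one)]
  · have h0 : sqp (Ident.b0 p - arc 0) = 0 :=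
      Tail.sqp_of_nonpos (by simp [arc, b0_le_one p])
    simp [circHigh, h0]
  · have hc : arc s ≠ 0 := (arc_pos ⟨by linarith [hs.1], hs.2⟩).ne'
    have hH : HasDerivAt (fun x => circHigh p x) (-arc s ^ (p + 1)) s :=
      intervalIntegral.integral_hasDerivAt_left
        ((continuous_arc.pow _).intervalIntegrable _ _)
        (continuous_arc.pow _).stronglyMeasurable.stronglyMeasurableAtFilter
        (continuous_arc.pow _).continuousAt
    refine (((hasDerivAt_dSw p hs).mul hH).neg.congr_of_eventuallyEq ?_).congr_deriv ?_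
    · refine Filter.Eventually.of_forall fun x => ?_
      simp only [dSw, Pi.neg_apply, Pi.mul_apply, pow_one]
      ring
    · field_simp
      ring

/-- The spline times the square of the circle's square. -/
noncomputable def splineNum (e M U : ℝ) : ℝ :=
  coefAt spl0 e * U ^ 2 + coefAt spl1 e * (M * U) + coefAt spl2 e * (M * M) +
    ∑ j ∈ Finset.range 6, coefAt (jump j) e * sqp (M - knotR j * U)

/-- Its derivative's numerator. -/
noncomputable def splineNum' (e M U : ℝ) : ℝ :=
  coefAt spl1 e * U + 2 * coefAt spl2 e * M +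
    ∑ j ∈ Finset.range 6, coefAt (jump j) e * sqp' (M - knotR j * U)

theorem spline_div (e : ℝ) {M U : ℝ} (hU : 0 < U) :
    spline e (M / U) = splineNum e M U / U ^ 2 ∧ spline' e (M / U) = splineNum' e M U / U := by
  have h1 : ∀ j, M / U - knotR j = (M - knotR j * U) / U := fun j => by field_simp
  refine ⟨?_, ?_⟩
  · simp only [spline, splineNum, h1, sqp_div hU, mul_div, ← Finset.sum_div]
    field_simp
  · simp only [spline', splineNum', h1, sqp'_div hU, mul_div, ← Finset.sum_div]
    field_simp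

/-- The remainder times the circle, without denominators. -/
theorem arc_remR (hp : 4 ≤ p) {s : ℝ} (hs : s ∈ Icc (0 : ℝ) 1) :
    arc s ^ (p + 1) * remR p s = arc s ^ (p - 3) *
      (splineNum (eps p) (((p : ℝ) + 1) * s ^ 2) (1 - s ^ 2) *
        ((1 - s ^ 2) - (1 + 2 * eps p) * (((p : ℝ) + 1) * s ^ 2)) +
      2 * (((p : ℝ) + 1) * s ^ 2) *
        splineNum' (eps p) (((p : ℝ) + 1) * s ^ 2) (1 - s ^ 2)) := by
  rcases hs.2.eq_or_lt with rfl | hs1
  · simp [arc, zero_pow (show p - 3 ≠ 0 by omega)]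
  · have hU : 0 < 1 - s ^ 2 := by nlinarith [hs.1]
    obtain ⟨h1, h2⟩ := spline_div (eps p) (M := ((p : ℝ) + 1) * s ^ 2) hU
    have h4 : arc s ^ (p + 1) = arc s ^ (p - 3) * (1 - s ^ 2) ^ 2 := by
      rw [← Real.sq_sqrt hU.le, ← pow_mul, show √(1 - s ^ 2) = arc s from rfl, ← pow_add]
      congr 1
      omega
    rw [remR, sqTan, h1, h2, h4]
    generalize splineNum (eps p) (((p : ℝ) + 1) * s ^ 2) (1 - s ^ 2) = A
    generalize splineNum' (eps p) (((p : ℝ) + 1) * s ^ 2) (1 - s ^ 2) = B
    rw [eps]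
    field_simp
    ring

theorem continuousOn_remR (hp : 4 ≤ p) :
    ContinuousOn (fun s => arc s ^ (p + 1) * remR p s) (Icc 0 1) := by
  have := continuous_arc
  have := continuous_sqp
  have := continuous_sqp'
  refine ContinuousOn.congr ?_ fun s hs => arc_remR hp hs
  exact Continuous.continuousOn (by unfold splineNum splineNum'; fun_prop)

theorem integral_remR (hp : 4 ≤ p) : ∫ s in (0 : ℝ)..1, arc s ^ (p + 1) * remR p s = 0 := by
  have := continuous_arc
  have := continuous_sqp
  rw [intervalIntegral.integral_eq_sub_of_hasDerivAt_of_le zero_le_one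
    (f := fun s => s * arc s ^ (p - 1) *
      splineNum (eps p) (((p : ℝ) + 1) * s ^ 2) (1 - s ^ 2))
    (Continuous.continuousOn (by unfold splineNum; fun_prop)) (fun s hs => ?_)
    ((continuousOn_remR hp).intervalIntegrable_of_Icc zero_le_one)]
  · simp [arc, zero_pow (show p - 1 ≠ 0 by omega)]
  · have hd := ((hasDerivAt_id s).mul (hasDerivAt_arc_pow (p + 2) (s := s)
      ⟨by linarith [hs.1], hs.2⟩)).mul ((hasDerivAt_spline (eps p) _).comp s (hasDerivAt_sqTan p hs))
    refine (hd.congr_of_eventuallyEq ?_).congr_deriv ?_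
    · filter_upwards [Ioo_mem_nhds hs.1 hs.2] with x hx
      have hU : 0 < 1 - x ^ 2 := by nlinarith [hx.1, hx.2]
      simp only [Pi.mul_apply, id, Function.comp_apply, sqTan,
        (spline_div (eps p) (M := ((p : ℝ) + 1) * x ^ 2) hU).1]
      rw [show arc x ^ (p + 2 + 1) = arc x ^ (p - 1) * (1 - x ^ 2) ^ 2 by
        rw [← Real.sq_sqrt hU.le, ← pow_mul, show √(1 - x ^ 2) = arc x from rfl, ← pow_add]
        congr 1
        omega]
      field_simp
    · have hU : 0 < 1 - s ^ 2 := by nlinarith [hs.1, hs.2]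
      have h2 : arc s ^ 2 = 1 - s ^ 2 := Real.sq_sqrt hU.le
      simp only [Pi.mul_apply, id, Function.comp_apply]
      rw [remR, show arc s ^ (p + 2 + 1) = arc s ^ (p + 1) * (1 - s ^ 2) by rw [← h2]; ring,
        sqTan', sqTan, eps]
      push_cast
      field_simp
      ring

theorem continuousOn_psiM (hp : 4 ≤ p) (ell : ℝ) :
    ContinuousOn (fun s => arc s ^ (p + 1) * psiM p ell s) (Icc 0 1) := by
  have e : (fun s => arc s ^ (p + 1) * psiM p ell s) = fun s =>
      ell * (arc s ^ (p + 1) * (dSw p s - dSw' p s * circHigh p s / arc s ^ (p + 1))) -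
        ell ^ 2 * (arc s ^ (p + 1) * remR p s) := by
    funext s
    rw [psiM]
    ring
  rw [e]
  exact (continuousOn_const.mul (continuousOn_bracket (by omega))).sub
    (continuousOn_const.mul (continuousOn_remR hp))

theorem integral_psiM (hp : 4 ≤ p) (ell : ℝ) :
    ∫ s in (0 : ℝ)..1, arc s ^ (p + 1) * psiM p ell s = 0 := by
  rw [intervalIntegral.integral_congr (g := fun s =>
      ell * (arc s ^ (p + 1) * (dSw p s - dSw' p s * circHigh p s / arc s ^ (p + 1))) -
        ell ^ 2 * (arc s ^ (p + 1) * remR p s)) (fun s _ => by rw [psiM]; ring),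
    intervalIntegral.integral_sub
      (((continuousOn_bracket (by omega)).intervalIntegrable_of_Icc zero_le_one).const_mul _)
      (((continuousOn_remR hp).intervalIntegrable_of_Icc zero_le_one).const_mul _),
    intervalIntegral.integral_const_mul, intervalIntegral.integral_const_mul,
    integral_bracket (by omega), integral_remR hp]
  ring

theorem continuousOn_kPot (hp : 4 ≤ p) (ell : ℝ) :
    ContinuousOn (fun s => arc s ^ (p + 1) * kPot p ell s) (Icc 0 1) := by
  have := continuous_arc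
  have := continuous_sqp
  have hW := continuous_arc_pow_wS p
  refine ContinuousOn.congr (f := fun s => -(Ident.b0 p * arc s ^ p +
    arc s ^ (p + 1) * wS p (arc s) -
      181 / 250 * sqCoef p * sqp (Ident.b0 p - arc s) * (arc s + 2 * Ident.b0 p) * arc s ^ p) +
    ell * (arc s ^ (p - 3) * (149 / 1000 * sqp (81 / 20 * (1 - s ^ 2) - ((p : ℝ) + 1) * s ^ 2) -
      33 / 200 * sqp (17 / 5 * (1 - s ^ 2) - ((p : ℝ) + 1) * s ^ 2)))) ?_ fun s hs => ?_
  · exact Continuous.continuousOn (by fun_prop)
  rcases hs.2.eq_or_lt with rfl | hs1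
  · simp [arc, zero_pow (show p ≠ 0 by omega), zero_pow (show p - 3 ≠ 0 by omega)]
  · have hU : 0 < 1 - s ^ 2 := by nlinarith [hs.1]
    have hc : arc s ≠ 0 := (arc_pos ⟨by linarith [hs.1], hs1⟩).ne'
    have h4 : arc s ^ (p + 1) = arc s ^ (p - 3) * (1 - s ^ 2) ^ 2 := by
      rw [← Real.sq_sqrt hU.le, ← pow_mul, show √(1 - s ^ 2) = arc s from rfl, ← pow_add]
      congr 1
      omega
    have hk : ∀ c : ℝ, arc s ^ (p + 1) * sqp (c - sqTan p s) =
        arc s ^ (p - 3) * sqp (c * (1 - s ^ 2) - ((p : ℝ) + 1) * s ^ 2) := fun c => by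
      rw [show c - sqTan p s = (c * (1 - s ^ 2) - ((p : ℝ) + 1) * s ^ 2) / (1 - s ^ 2) by
        rw [sqTan]; field_simp, sqp_div hU, h4]
      field_simp
    rw [kPot, kapM, dSw, mul_add, mul_left_comm _ ell, mul_sub (arc s ^ (p + 1)),
      mul_left_comm _ (149 / 1000 : ℝ), mul_left_comm _ (33 / 200 : ℝ), hk, hk]
    congr 1
    · rw [pow_succ]
      field_simp
    · ring

end Vale.Agent.P237.Petty.Cor.TinyMid
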