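import Vale.Agent.P237.Petty.Cor.TinyMid.BulkExprs

/-!
# P237: the pieces below `X = 81 / 20` and their certificates
-/

namespace Vale.Agent.P237.Petty.Cor.TinyMid

open Vale.Agent.P100.Bernstein

/-- The data of the pieces. -/
def piece : ℕ → Piece
  | 0 => ⟨false, false, 0, (126, 125), (7, 10), (0, 1), 127, 125⟩
  | 1 => ⟨false, false, 0, (1021, 1000), (353, 500), (19, 1000), 1017, 1000⟩
  | 2 => ⟨false, false, 0, (132, 125), (733, 1000), (69, 1000), 509, 500⟩
  | 3 => ⟨false, false, 0, (277, 250), (781, 1000), (139, 1000), 51, 50⟩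
  | 4 => ⟨false, false, 1, (589, 500), (421, 500), (57, 250), 511, 500⟩
  | 5 => ⟨false, false, 1, (249, 200), (889, 1000), (307, 1000), 128, 125⟩
  | 6 => ⟨false, false, 2, (649, 500), (469, 500), (183, 500), 513, 500⟩
  | 7 => ⟨false, false, 2, (677, 500), (49, 50), (17, 40), 1027, 1000⟩
  | 8 => ⟨false, false, 2, (1397, 1000), (1, 1), (469, 1000), 257, 250⟩
  | 9 => ⟨false, false, 3, (703, 500), (1039, 1000), (239, 500), 257, 250⟩
  | 10 => ⟨true, false, 3, (703, 500), (1039, 1000), (239, 500), 257, 250⟩
  | 11 => ⟨true, false, 3, (1427, 1000), (213, 200), (249, 500), 1029, 1000⟩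
  | 12 => ⟨true, false, 3, (363, 250), (137, 125), (261, 500), 1031, 1000⟩
  | 13 => ⟨true, false, 4, (1489, 1000), (577, 500), (139, 250), 207, 200⟩
  | 14 => ⟨true, false, 4, (403, 250), (1277, 1000), (663, 1000), 1041, 1000⟩
  | 15 => ⟨true, false, 4, (441, 250), (727, 500), (783, 1000), 21, 20⟩
  | 16 => ⟨true, false, 5, (1971, 1000), (333, 200), (927, 1000), 53, 50⟩
  | 17 => ⟨true, false, 5, (551, 250), (1909, 1000), (1069, 1000), 134, 125⟩
  | 18 => ⟨true, false, 5, (2471, 1000), (2189, 1000), (1211, 1000), 136, 125⟩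
  | 19 => ⟨true, false, 5, (2771, 1000), (1257, 500), (1351, 1000), 553, 500⟩
  | 20 => ⟨true, false, 5, (623, 200), (2893, 1000), (1491, 1000), 1129, 1000⟩
  | 21 => ⟨true, true, 5, (1753, 500), (3373, 1000), (163, 100), 1163, 1000⟩
  | _ => ⟨true, true, 6, (4027, 1000), (787, 200), (179, 100), 1199, 1000⟩

/-- The choices of the pieces. -/
def choice : ℕ → Choice
  | 0 => ⟨false, true, false, true, true, true, false⟩
  | 1 => ⟨false, true, false, true, true, true, false⟩
  | 2 => ⟨false, true, false, true, true, true, false⟩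
  | 3 => ⟨false, false, false, true, false, true, false⟩
  | 4 => ⟨false, false, false, true, false, true, false⟩
  | 5 => ⟨false, false, false, true, false, true, false⟩
  | 6 => ⟨false, false, false, true, false, true, false⟩
  | 7 => ⟨false, false, false, true, false, true, false⟩
  | 8 => ⟨false, false, false, true, false, true, false⟩
  | 9 => ⟨false, false, false, true, false, true, false⟩
  | 10 => ⟨false, false, false, true, false, true, false⟩
  | 11 => ⟨false, false, false, true, false, true, false⟩
  | 12 => ⟨false, false, false, true, false, true, false⟩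
  | 13 => ⟨false, false, false, true, false, true, false⟩
  | 14 => ⟨false, false, false, true, false, true, false⟩
  | 15 => ⟨false, false, false, true, false, true, false⟩
  | 16 => ⟨false, false, false, true, false, true, false⟩
  | 17 => ⟨true, true, true, true, false, true, false⟩
  | 18 => ⟨true, true, true, true, false, true, false⟩
  | 19 => ⟨true, true, true, true, false, false, false⟩
  | 20 => ⟨true, true, true, true, false, false, false⟩
  | 21 => ⟨true, true, true, false, false, false, false⟩
  | _ => ⟨true, true, true, false, false, false, true⟩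

/-- The ranges of `X` of the pieces. -/
def range : ℕ → (ℤ × ℕ) × (ℤ × ℕ)
  | 0 => ((0, 1), (1, 25))
  | 1 => ((1, 25), (7, 50))
  | 2 => ((7, 50), (7, 25))
  | 3 => ((7, 25), (23, 50))
  | 4 => ((23, 50), (31, 50))
  | 5 => ((31, 50), (37, 50))
  | 6 => ((37, 50), (43, 50))
  | 7 => ((43, 50), (19, 20))
  | 8 => ((19, 20), (97, 100))
  | 9 => ((97, 100), (101, 100))
  | 10 => ((97, 100), (101, 100))
  | 11 => ((101, 100), (53, 50))
  | 12 => ((53, 50), (113, 100))
  | 13 => ((113, 100), (27, 20))
  | 14 => ((27, 20), (8, 5))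
  | 15 => ((8, 5), (19, 10))
  | 16 => ((19, 10), (11, 5))
  | 17 => ((11, 5), (5, 2))
  | 18 => ((5, 2), (14, 5))
  | 19 => ((14, 5), (31, 10))
  | 20 => ((31, 10), (17, 5))
  | 21 => ((17, 5), (15, 4))
  | _ => ((15, 4), (81, 20))

end Vale.Agent.P237.Petty.Cor.TinyMid
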