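import Vale.Agent.P237.Petty.Cor.TinyMid.TailSound
import Vale.Agent.P237.Petty.Cor.TinyMid.Bulk
import Vale.Agent.P237.Petty.Cor.TinyMid.CertTail
import Vale.Agent.P237.Petty.Cor.TinyMid.CertBand
import Vale.Agent.P237.Petty.Cor.TinyMid.CertMidA
import Vale.Agent.P237.Petty.Cor.TinyMid.CertMidB
import Vale.Agent.P237.Petty.Cor.TinyMid.CertMidC
import Vale.Agent.P237.Petty.Cor.TinyMid.CertSer

/-!
# P237: the cell from `X = 81 / 20` on
-/

namespace Vale.Agent.P237.Petty.Cor.TinyMid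

open Set
open Ident (half rate)
open Lift (circLow circHigh)
open Vale.Agent.P100.Bernstein

variable {p : ℕ} {L s X v u δ E : ℝ}

theorem eval_belowX (hs : s ∈ Ioo (0 : ℝ) 1) (q : ℤ × ℕ) {τ σ : ℝ} (h : qv q ≤ sqTan p s) :
    ∃ e ∈ belowX q, e.eval (pt p (oVar p s) τ σ) < 0 := by
  refine ⟨_, List.mem_singleton_self _, ?_⟩
  simp [tiny, cst, eval_xX hs (eval_oo' p _ _ _)]
  simp [qv] at h
  linarith

theorem eval_aboveX (hs : s ∈ Ioo (0 : ℝ) 1) (q : ℤ × ℕ) {τ σ : ℝ} (h : sqTan p s ≤ qv q) :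
    ∃ e ∈ aboveX q, e.eval (pt p (oVar p s) τ σ) < 0 := by
  refine ⟨_, List.mem_singleton_self _, ?_⟩
  simp [tiny, cst, eval_xX hs (eval_oo' p _ _ _)]
  simp [qv] at h
  linarith

theorem eval_farVio (hs : s ∈ Ioo (0 : ℝ) 1) {τ σ : ℝ}
    (h : 14 / 25 - 1 / 1000 < eps p * sqTan p s) :
    ∃ e ∈ farVio, e.eval (pt p (oVar p s) τ σ) < 0 := by
  refine ⟨_, List.mem_singleton_self _, ?_⟩
  simp [tiny, eval_xX hs (eval_oo' p _ _ _), eval_ee]
  linarith

/-- A cover with void conjunctions. -/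
theorem holds_of_cover {l V : List (List Expr)} {B : List Iv} {T : Pick} {τ σ : ℝ}
    (hc : coverTree (l ++ V) B T = true) (hx : InBox B (pt p (oVar p s) τ σ))
    (hV : ∀ c ∈ V, ∃ e ∈ c, e.eval (pt p (oVar p s) τ σ) < 0) : Holds l p s τ σ := by
  obtain ⟨c, hc, hc'⟩ := exists_of_coverTree T B hc hx
  rcases List.mem_append.1 hc with h | h
  · exact ⟨c, h, hc'⟩
  · obtain ⟨e, he, hlt⟩ := hV c h
    exact absurd (hc' e he) (not_le.2 hlt)

/-- The same beyond twenty, after the substitution. -/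
theorem holds_of_far (h1 : 18 ≤ p) (h2 : p ≤ 97) (hs : s ∈ Ioo (0 : ℝ) 1) (hX : 20 ≤ sqTan p s)
    {l V : List (List Expr)} {J K : Iv} {T : Pick} {τ σ : ℝ}
    (hc : coverTree (farList (l ++ V)) [⟨0, 1, 1⟩, ⟨19, 98, 1862⟩, ⟨0, 1, 1⟩, J, K] T = true)
    (hJ : (J.lo : ℝ) ≤ J.den * τ ∧ J.den * τ ≤ J.hi)
    (hK : (K.lo : ℝ) ≤ K.den * σ ∧ K.den * σ ≤ K.hi)
    (hV : ∀ c ∈ V, ∃ e ∈ c, e.eval (pt p (oVar p s) τ σ) < 0) : Holds l p s τ σ := by
  obtain ⟨-, hA, -⟩ := oVar_mem h1 h2 hs (a := 8221 / 1000) (lo := 20) (X := sqTan p s) rfl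
  have ho := hA (by norm_num) (by norm_num) hX
  have hz : 0 ≤ 8221 / 1000 / oVar p s := div_nonneg (by norm_num) (by linarith)
  have hz1 : 8221 / 1000 / oVar p s ≤ 1 := (div_le_one (by linarith)).2 ho
  have hzp : 0 < oo.eval (pt p (8221 / 1000 / oVar p s) τ σ) := by
    rw [eval_oo']; exact div_pos (by norm_num) (by linarith)
  obtain ⟨c, hc, hc'⟩ := exists_of_coverTree T _ hc
    (inBox_pt h1 h2 (z := 8221 / 1000 / oVar p s) ⟨by simpa using hz, by simpa using hz1⟩ hJ hK)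
  obtain ⟨c0, hc0, rfl⟩ := List.mem_map.1 hc
  have hall : ∀ e ∈ c0, 0 ≤ e.eval (pt p (oVar p s) τ σ) := fun e he => by
    refine nonneg_of_homog (num := .frac 8221 1000) (den := oo) ?_ (fun i => ?_) hzp
      (hc' _ (List.mem_map_of_mem he))
    · rw [eval_oo', show (pt p (oVar p s) τ σ).getD 0 0 = oVar p s by simp [pt]]
      simp
      field_simp
    · simp [pt]
  rcases List.mem_append.1 hc0 with h | h
  · exact ⟨c0, h, hall⟩
  · obtain ⟨e, he, hlt⟩ := hV c0 h
    exact absurd (hall e he) (not_le.2 hlt)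

/-- The box of the abscissae up to twenty. -/
theorem inBox_near (h1 : 18 ≤ p) (h2 : p ≤ 97) (hs : s ∈ Ioo (0 : ℝ) 1)
    (hX : 81 / 20 ≤ sqTan p s) (hX' : sqTan p s ≤ 20) {J K : Iv} {τ σ : ℝ}
    (hJ : (J.lo : ℝ) ≤ J.den * τ ∧ J.den * τ ≤ J.hi)
    (hK : (K.lo : ℝ) ≤ K.den * σ ∧ K.den * σ ≤ K.hi) :
    InBox [⟨1927, 9537, 1000⟩, ⟨19, 98, 1862⟩, ⟨0, 1, 1⟩, J, K] (pt p (oVar p s) τ σ) := by
  obtain ⟨-, hA, -⟩ := oVar_mem h1 h2 hs (a := 1927 / 1000) (lo := 81 / 20) (X := sqTan p s) rfl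
  obtain ⟨-, -, hB⟩ := oVar_mem h1 h2 hs (a := 9537 / 1000) (lo := 20) (X := sqTan p s) rfl
  have := hA (by norm_num) (by norm_num) hX
  have := hB (by norm_num) (by norm_num) hX'
  exact inBox_pt h1 h2 ⟨by push_cast; linarith, by push_cast; linarith⟩ hJ hK

theorem tailData (h1 : 18 ≤ p) (h2 : p ≤ 97) (hs : s ∈ Ioo (0 : ℝ) 1)
    (hX : 81 / 20 ≤ sqTan p s) : TailData p s := by
  rcases le_total (sqTan p s) 20 with h | h
  · have hvio : ∀ τ σ, ∀ c ∈ [belowX (81, 20), aboveX (20, 1)],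
        ∃ e ∈ c, e.eval (pt p (oVar p s) τ σ) < 0 := by
      intro τ σ c hc
      simp only [List.mem_cons, List.not_mem_nil, or_false] at hc
      rcases hc with rfl | rfl
      · exact eval_belowX hs _ (by norm_num [qv]; linarith)
      · exact eval_aboveX hs _ (by norm_num [qv]; linarith)
    have hvio' : 14 / 25 - 1 / 1000 < eps p * sqTan p s → ∀ τ σ,
        ∀ c ∈ [belowX (81, 20), aboveX (20, 1)] ++ [farVio],
          ∃ e ∈ c, e.eval (pt p (oVar p s) τ σ) < 0 := by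
      intro h3 τ σ c hc
      rcases List.mem_append.1 hc with hc | hc
      · exact hvio τ σ c hc
      · rw [List.mem_singleton.1 hc]; exact eval_farVio hs h3
    refine ⟨holds_of_cover nearCertC1 (inBox_near h1 h2 hs hX h (by norm_num) (by norm_num))
      (hvio 0 0), fun τ hτ σ hσ => holds_of_cover nearCertT3 (inBox_near h1 h2 hs hX h
        (by simpa using hτ) (by simpa using hσ)) (hvio τ σ), fun τ hτ => Or.inl (holds_of_cover
          nearCertUa (inBox_near h1 h2 hs hX h (by simpa using hτ) (by norm_num)) (hvio τ 0)),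
      fun h3 => ⟨?_, fun τ hτ => ?_, fun τ hτ => ?_, ?_⟩⟩
    · exact holds_of_cover (V := _ ++ _) (by rw [← List.append_assoc]; exact nearCertVl1)
        (inBox_near h1 h2 hs hX h (by norm_num) (by norm_num)) (hvio' h3 0 0)
    · exact holds_of_cover (V := _ ++ _) (by rw [← List.append_assoc]; exact nearCertUb)
        (inBox_near h1 h2 hs hX h (by simpa using hτ) (by norm_num)) (hvio' h3 τ 0)
    · exact holds_of_cover (V := _ ++ _) (by rw [← List.append_assoc]; exact nearCertJoint)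
        (inBox_near h1 h2 hs hX h (by simpa using hτ) (by norm_num)) (hvio' h3 τ 0)
    · exact holds_of_cover (V := _ ++ _) (by rw [← List.append_assoc]; exact nearCertFar)
        (inBox_near h1 h2 hs hX h (by norm_num) (by norm_num)) (hvio' h3 0 0)
  · have hvio : ∀ τ σ, ∀ c ∈ [belowX (20, 1)],
        ∃ e ∈ c, e.eval (pt p (oVar p s) τ σ) < 0 := by
      intro τ σ c hc
      rw [List.mem_singleton.1 hc]
      exact eval_belowX hs _ (by norm_num [qv]; linarith)
    have hvio' : 14 / 25 - 1 / 1000 < eps p * sqTan p s → ∀ τ σ,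
        ∀ c ∈ [belowX (20, 1)] ++ [farVio], ∃ e ∈ c, e.eval (pt p (oVar p s) τ σ) < 0 := by
      intro h3 τ σ c hc
      rcases List.mem_append.1 hc with hc | hc
      · exact hvio τ σ c hc
      · rw [List.mem_singleton.1 hc]; exact eval_farVio hs h3
    refine ⟨holds_of_far h1 h2 hs h farCertC1 (by norm_num) (by norm_num) (hvio 0 0),
      fun τ hτ σ hσ => holds_of_far h1 h2 hs h farCertT3 (by simpa using hτ) (by simpa using hσ)
        (hvio τ σ),
      fun τ hτ => Or.inl (holds_of_far h1 h2 hs h farCertUa (by simpa using hτ) (by norm_num)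
        (hvio τ 0)),
      fun h3 => ⟨?_, fun τ hτ => ?_, fun τ hτ => ?_, ?_⟩⟩
    · exact holds_of_far (V := _ ++ _) h1 h2 hs h (by rw [← List.append_assoc]; exact farCertVl1)
        (by norm_num) (by norm_num) (hvio' h3 0 0)
    · exact holds_of_far (V := _ ++ _) h1 h2 hs h (by rw [← List.append_assoc]; exact farCertUb)
        (by simpa using hτ) (by norm_num) (hvio' h3 τ 0)
    · exact holds_of_far (V := _ ++ _) h1 h2 hs h (by rw [← List.append_assoc]; exact farCertJoint)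
        (by simpa using hτ) (by norm_num) (hvio' h3 τ 0)
    · exact holds_of_far (V := _ ++ _) h1 h2 hs h (by rw [← List.append_assoc]; exact farCertFar)
        (by norm_num) (by norm_num) (hvio' h3 0 0)

/-- The chord of the series bounds the mass below. -/
theorem low_of_chord (h1 : 18 ≤ p) (h2 : p ≤ 97) (S : St p L s X v u δ) (hd : 0 < δ)
    {a b lo : ℤ × ℕ} {I : Iv} (hI : (I.lo : ℝ) ≤ I.den * X ∧ I.den * X ≤ I.hi) (hX : X ≤ 13)
    (hc : coverTree [[bandSer a b lo]] [I] (.leaf 0) = true) :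
    LowBound (some (cst a + cst b * (xX oo - cst lo))) p s v δ := by
  intro H hH τ σ
  cases hH
  have hX0 := S.X_pos
  have h := cover_one hc (x := [X]) ⟨by simpa using hI.1, by simpa using hI.2, trivial⟩ _
    (List.mem_cons_self ..)
  simp [bandSer, serE_eval, cst] at h
  have e : (cst a + cst b * (xX oo - cst lo)).eval (pt p (oVar p s) τ σ) =
      qv a + qv b * (X - qv lo) := by
    simp [cst, qv, eval_xX S.s_mem (eval_oo' p _ _ _), S.X_eq]
  have h0 := (serLow_pos hX0.le).1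
  rw [e]
  simp only [qv]
  refine ⟨by linarith, ?_⟩
  obtain ⟨hh0, -, -, hh3⟩ := hcR_bounds h1 h2
  have h3 := S.low hd (serLow X) (S.X_eq ▸ circLow_le_ser S.s_mem
    (show ((p : ℝ) + 1) * s ^ 2 / (1 - s ^ 2) ≤ 13 by rw [← sqTan, S.X_eq]; exact hX))
  refine h3.trans (mul_le_mul_of_nonneg_right ?_ (Real.sqrt_nonneg _))
  exact mul_le_mul (hh3 L S.L_mem) (by linarith) h0.le hh0

/-- The covers of a band at its abscissae. -/
theorem band_nonneg (h1 : 18 ≤ p) (h2 : p ≤ 97) (j : ℕ) (S : St p L s X v u δ)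
    (ht : Switch p true s) (hX : 81 / 20 ≤ X) (hd : 0 < δ)
    (hlo : qv (band j).lo ≤ X) (hhi : X ≤ qv (band j).hi) {I : Iv}
    (hI : (I.lo : ℝ) ≤ I.den * oVar p s ∧ I.den * oVar p s ≤ I.hi)
    (hB : LowBound (band j).hl p s v δ)
    {Tn Tl Tc T0 T1 T2 T3 : Pick} {v3 : ℤ}
    (hn : coverTree (listNear (band j).hl ++ (band j).vio)
      [I, ⟨19, 98, 1862⟩, ⟨0, 1, 1⟩, ⟨0, 0, 1⟩, ⟨0, 0, 1⟩] Tn = true)
    (hl : coverTree (listLa (band j).hl ++ (band j).vio)
      [I, ⟨19, 98, 1862⟩, ⟨0, 1, 1⟩, ⟨0, 0, 1⟩, ⟨0, 0, 1⟩] Tl = true)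
    (hc : coverTree (listCap (band j).hl (band j).cap ++ (band j).vio)
      [I, ⟨19, 98, 1862⟩, ⟨0, 1, 1⟩, ⟨0, 0, 1⟩, ⟨0, 0, 1⟩] Tc = true)
    (h0 : coverTree (listMid (seg j 0) (band j).hl (band j).sgn ++ (band j).vio)
      [I, ⟨19, 98, 1862⟩, ⟨0, 1, 1⟩, ⟨5, 6, 4⟩, ⟨0, 0, 1⟩] T0 = true)
    (hs1 : coverTree (listMid (seg j 1) (band j).hl (band j).sgn ++ (band j).vio)
      [I, ⟨19, 98, 1862⟩, ⟨0, 1, 1⟩, ⟨3, 4, 2⟩, ⟨0, 0, 1⟩] T1 = true)
    (hs2 : coverTree (listMid (seg j 2) (band j).hl (band j).sgn ++ (band j).vio)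
      [I, ⟨19, 98, 1862⟩, ⟨0, 1, 1⟩, ⟨2, 3, 1⟩, ⟨0, 0, 1⟩] T2 = true)
    (hs3 : coverTree (listMid (seg j 3) (band j).hl (band j).sgn ++ (band j).vio)
      [I, ⟨19, 98, 1862⟩, ⟨0, 1, 1⟩, ⟨3, v3, 1⟩, ⟨0, 0, 1⟩] T3 = true)
    (hcap : (band j).cap = v3) (hseg : ∀ k < 4, 0 < (seg j k).cd ∧ (seg j k).cn ≤ (seg j k).cd ∧
      0 < (seg j k).rn ∧ 0 < (seg j k).rd)
    (hEA : ∀ sh, sh ≤ shadR p s * -((2 * v + 1) / (2 * (v + 2)) * (u ^ 2 / v)) ∨
        sh ≤ shadR p s * (Real.log v - u) ∨ sh ≤ shadR p s * (-(1 / eps p) - u) → u ≤ 0 →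
      sh + keptW p s * (L - u + X * δ) + slopeD p s * (δ + L * hiQuot p s) +
        L * (kapS p s * u + kapD p s * δ) + cA0 p * (u ^ 2 / v) + cB p X * δ ^ 2 -
        2 * cC p X * (u * δ) + L ^ 2 * (scale p s * remR p s) ≤ E)
    (hE : formLow (keptW p s) (slopeD p s) (kapS p s) (kapD p s) (cA p X) (shadR p s)
      (cB p X) (cC p X) (scale p s * remR p s) X (hiQuot p s) L v u δ ≤ E) : 0 ≤ E := by
  have hs := S.s_mem
  have hXe := S.X_eq
  have D := tailData h1 h2 hs (hXe ▸ hX)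
  have hvio : ∀ τ σ, ∀ c ∈ (band j).vio, ∃ e ∈ c, e.eval (pt p (oVar p s) τ σ) < 0 := by
    intro τ σ c hc'
    simp only [Band.vio, List.mem_cons, List.not_mem_nil, or_false] at hc'
    rcases hc' with rfl | rfl
    · exact eval_belowX hs _ (hXe ▸ hlo)
    · exact eval_aboveX hs _ (hXe ▸ hhi)
  have hin : ∀ (J : Iv) (τ : ℝ), (J.lo : ℝ) ≤ J.den * τ ∧ J.den * τ ≤ J.hi →
      InBox [I, ⟨19, 98, 1862⟩, ⟨0, 1, 1⟩, J, ⟨0, 0, 1⟩] (pt p (oVar p s) τ 0) :=
    fun J τ hJ => inBox_pt h1 h2 hI hJ (by norm_num)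
  have hbnd := bnd_of_low S (hcR_bounds h1 h2).1 hB
  have hN := holds_of_cover hn (hin _ 0 (by norm_num)) (hvio 0 0)
  rcases le_total u 0 with hu | hu
  · exact tail_low h1 h2 D S ht hX hd hu hbnd (holds_of_cover hl (hin _ 0 (by norm_num)) (hvio 0 0))
      fun sh h => hEA sh h hu
  rcases le_total u (1 / 4) with hu4 | hu4
  · exact tail_near h1 h2 S ht hX hd hu hu4 hbnd hN hE
  have hR6 := near_rem_nonneg hs ht (keptW_data h1 hs ht).2.2.2.2.1 (hXe ▸ hX) hN
  have hcv := tail_cap h1 h2 S hd hB (holds_of_cover hc (hin _ 0 (by norm_num)) (hvio 0 0))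
  rw [hcap] at hcv
  have hv := S.v_eq
  have seg' : ∀ k < 4, Holds (listMid (seg j k) (band j).hl (band j).sgn) p s v 0 → 0 ≤ E :=
    fun k hk h => by
      obtain ⟨a1, a2, a3, a4⟩ := hseg k hk
      exact tail_segment h1 h2 D S ht hX hd hu hR6 a1 a2 a3 a4 hB h hE
  rcases le_total v (3 / 2) with c1 | c1
  · exact seg' 0 (by norm_num) (holds_of_cover h0 (hin _ v ⟨by push_cast; linarith,
      by push_cast; linarith⟩) (hvio v 0))
  rcases le_total v 2 with c2 | c2
  · exact seg' 1 (by norm_num) (holds_of_cover hs1 (hin _ v ⟨by push_cast; linarith,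
      by push_cast; linarith⟩) (hvio v 0))
  rcases le_total v 3 with c3 | c3
  · exact seg' 2 (by norm_num) (holds_of_cover hs2 (hin _ v ⟨by push_cast; linarith,
      by push_cast; linarith⟩) (hvio v 0))
  · exact seg' 3 (by norm_num) (holds_of_cover hs3 (hin _ v ⟨by push_cast; linarith,
      by push_cast; linarith⟩) (hvio v 0))

/-- The cell from `X = 81 / 20` on. -/
theorem tail_nonneg (h1 : 18 ≤ p) (h2 : p ≤ 97) (S : St p L s X v u δ) (hX : 81 / 20 ≤ X)
    (hEA : ∀ sh, sh ≤ shadR p s * -((2 * v + 1) / (2 * (v + 2)) * (u ^ 2 / v)) ∨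
        sh ≤ shadR p s * (Real.log v - u) ∨ sh ≤ shadR p s * (-(1 / eps p) - u) → u ≤ 0 →
        0 ≤ δ →
      sh + keptW p s * (L - u + X * δ) + slopeD p s * (δ + L * hiQuot p s) +
        L * (kapS p s * u + kapD p s * δ) + cA0 p * (u ^ 2 / v) + cB p X * δ ^ 2 -
        2 * cC p X * (u * δ) + L ^ 2 * (scale p s * remR p s) ≤ E)
    (hE : formLow (keptW p s) (slopeD p s) (kapS p s) (kapD p s) (cA p X) (shadR p s)
      (cB p X) (cC p X) (scale p s * remR p s) X (hiQuot p s) L v u δ ≤ E) : 0 ≤ E := by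
  have hs := S.s_mem
  have hXe := S.X_eq
  have ht := (switch_of_X h1 h2 hs hXe).2 (by linarith)
  rcases le_or_gt δ 0 with hd | hd
  · exact tail_pinned h1 h2 (tailData h1 h2 hs (hXe ▸ hX)) S ht hX hd hE
  rcases le_total X 5 with c0 | c0
  · obtain ⟨-, hA, -⟩ := oVar_mem h1 h2 hs (a := 1927 / 1000) (lo := 81 / 20) hXe
    obtain ⟨-, -, hB⟩ := oVar_mem h1 h2 hs (a := 2469 / 1000) (lo := 5) hXe
    have := hA (by norm_num) (by norm_num) (by linarith)
    have := hB (by norm_num) (by norm_num) c0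
    exact band_nonneg h1 h2 0 S ht hX hd (by norm_num [qv, band]; linarith)
      (by norm_num [qv, band]; linarith) (I := ⟨1927, 2469, 1000⟩)
      ⟨by push_cast; linarith, by push_cast; linarith⟩ (low_of_chord h1 h2 S hd (I := ⟨81, 100, 20⟩)
      ⟨by push_cast; linarith, by push_cast; linarith⟩ (by linarith) serCert0)
      bandNear0 bandLa0 bandCap0 bandSeg00 bandSeg01 bandSeg02 bandSeg03 rfl
      (fun k hk => by interval_cases k <;> simp [seg]) (fun sh h hu => hEA sh h hu hd.le) hE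
  rcases le_total X 6 with c1 | c1
  · obtain ⟨-, hA, -⟩ := oVar_mem h1 h2 hs (a := 1177 / 500) (lo := 5) hXe
    obtain ⟨-, -, hB⟩ := oVar_mem h1 h2 hs (a := 1478 / 500) (lo := 6) hXe
    have := hA (by norm_num) (by norm_num) (by linarith)
    have := hB (by norm_num) (by norm_num) c1
    exact band_nonneg h1 h2 1 S ht hX hd (by norm_num [qv, band]; linarith)
      (by norm_num [qv, band]; linarith) (I := ⟨1177, 1478, 500⟩)
      ⟨by push_cast; linarith, by push_cast; linarith⟩ (low_of_chord h1 h2 S hd (I := ⟨5, 6, 1⟩)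
      ⟨by push_cast; linarith, by push_cast; linarith⟩ (by linarith) serCert1)
      bandNear1 bandLa1 bandCap1 bandSeg10 bandSeg11 bandSeg12 bandSeg13 rfl
      (fun k hk => by interval_cases k <;> simp [seg]) (fun sh h hu => hEA sh h hu hd.le) hE
  rcases le_total X 7 with c2 | c2
  · obtain ⟨-, hA, -⟩ := oVar_mem h1 h2 hs (a := 1397 / 500) (lo := 6) hXe
    obtain ⟨-, -, hB⟩ := oVar_mem h1 h2 hs (a := 1720 / 500) (lo := 7) hXe
    have := hA (by norm_num) (by norm_num) (by linarith)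
    have := hB (by norm_num) (by norm_num) c2
    exact band_nonneg h1 h2 2 S ht hX hd (by norm_num [qv, band]; linarith)
      (by norm_num [qv, band]; linarith) (I := ⟨1397, 1720, 500⟩)
      ⟨by push_cast; linarith, by push_cast; linarith⟩ (low_of_chord h1 h2 S hd (I := ⟨6, 7, 1⟩)
      ⟨by push_cast; linarith, by push_cast; linarith⟩ (by linarith) serCert2)
      bandNear2 bandLa2 bandCap2 bandSeg20 bandSeg21 bandSeg22 bandSeg23 rfl
      (fun k hk => by interval_cases k <;> simp [seg]) (fun sh h hu => hEA sh h hu hd.le) hE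
  rcases le_total X 8 with c3 | c3
  · obtain ⟨-, hA, -⟩ := oVar_mem h1 h2 hs (a := 1613 / 500) (lo := 7) hXe
    obtain ⟨-, -, hB⟩ := oVar_mem h1 h2 hs (a := 1961 / 500) (lo := 8) hXe
    have := hA (by norm_num) (by norm_num) (by linarith)
    have := hB (by norm_num) (by norm_num) c3
    exact band_nonneg h1 h2 3 S ht hX hd (by norm_num [qv, band]; linarith)
      (by norm_num [qv, band]; linarith) (I := ⟨1613, 1961, 500⟩)
      ⟨by push_cast; linarith, by push_cast; linarith⟩ (low_of_chord h1 h2 S hd (I := ⟨7, 8, 1⟩)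
      ⟨by push_cast; linarith, by push_cast; linarith⟩ (by linarith) serCert3)
      bandNear3 bandLa3 bandCap3 bandSeg30 bandSeg31 bandSeg32 bandSeg33 rfl
      (fun k hk => by interval_cases k <;> simp [seg]) (fun sh h hu => hEA sh h hu hd.le) hE
  rcases le_total X 9 with c4 | c4
  · obtain ⟨-, hA, -⟩ := oVar_mem h1 h2 hs (a := 3649 / 1000) (lo := 8) hXe
    obtain ⟨-, -, hB⟩ := oVar_mem h1 h2 hs (a := 4402 / 1000) (lo := 9) hXe
    have := hA (by norm_num) (by norm_num) (by linarith)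
    have := hB (by norm_num) (by norm_num) c4
    exact band_nonneg h1 h2 4 S ht hX hd (by norm_num [qv, band]; linarith)
      (by norm_num [qv, band]; linarith) (I := ⟨3649, 4402, 1000⟩)
      ⟨by push_cast; linarith, by push_cast; linarith⟩ (low_of_chord h1 h2 S hd (I := ⟨8, 9, 1⟩)
      ⟨by push_cast; linarith, by push_cast; linarith⟩ (by linarith) serCert4)
      bandNear4 bandLa4 bandCap4 bandSeg40 bandSeg41 bandSeg42 bandSeg43 rfl
      (fun k hk => by interval_cases k <;> simp [seg]) (fun sh h hu => hEA sh h hu hd.le) hE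
  rcases le_total X 10 with c5 | c5
  · obtain ⟨-, hA, -⟩ := oVar_mem h1 h2 hs (a := 4065 / 1000) (lo := 9) hXe
    obtain ⟨-, -, hB⟩ := oVar_mem h1 h2 hs (a := 4879 / 1000) (lo := 10) hXe
    have := hA (by norm_num) (by norm_num) (by linarith)
    have := hB (by norm_num) (by norm_num) c5
    exact band_nonneg h1 h2 5 S ht hX hd (by norm_num [qv, band]; linarith)
      (by norm_num [qv, band]; linarith) (I := ⟨4065, 4879, 1000⟩)
      ⟨by push_cast; linarith, by push_cast; linarith⟩ (low_of_chord h1 h2 S hd (I := ⟨9, 10, 1⟩)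
      ⟨by push_cast; linarith, by push_cast; linarith⟩ (by linarith) serCert5)
      bandNear5 bandLa5 bandCap5 bandSeg50 bandSeg51 bandSeg52 bandSeg53 rfl
      (fun k hk => by interval_cases k <;> simp [seg]) (fun sh h hu => hEA sh h hu hd.le) hE
  rcases le_total X 11 with c6 | c6
  · obtain ⟨-, hA, -⟩ := oVar_mem h1 h2 hs (a := 4473 / 1000) (lo := 10) hXe
    obtain ⟨-, -, hB⟩ := oVar_mem h1 h2 hs (a := 5354 / 1000) (lo := 11) hXe
    have := hA (by norm_num) (by norm_num) (by linarith)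
    have := hB (by norm_num) (by norm_num) c6
    exact band_nonneg h1 h2 6 S ht hX hd (by norm_num [qv, band]; linarith)
      (by norm_num [qv, band]; linarith) (I := ⟨4473, 5354, 1000⟩)
      ⟨by push_cast; linarith, by push_cast; linarith⟩ (low_of_chord h1 h2 S hd (I := ⟨10, 11, 1⟩)
      ⟨by push_cast; linarith, by push_cast; linarith⟩ (by linarith) serCert6)
      bandNear6 bandLa6 bandCap6 bandSeg60 bandSeg61 bandSeg62 bandSeg63 rfl
      (fun k hk => by interval_cases k <;> simp [seg]) (fun sh h hu => hEA sh h hu hd.le) hE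
  rcases le_total X 12 with c7 | c7
  · obtain ⟨-, hA, -⟩ := oVar_mem h1 h2 hs (a := 4874 / 1000) (lo := 11) hXe
    obtain ⟨-, -, hB⟩ := oVar_mem h1 h2 hs (a := 5827 / 1000) (lo := 12) hXe
    have := hA (by norm_num) (by norm_num) (by linarith)
    have := hB (by norm_num) (by norm_num) c7
    exact band_nonneg h1 h2 7 S ht hX hd (by norm_num [qv, band]; linarith)
      (by norm_num [qv, band]; linarith) (I := ⟨4874, 5827, 1000⟩)
      ⟨by push_cast; linarith, by push_cast; linarith⟩ (low_of_chord h1 h2 S hd (I := ⟨11, 12, 1⟩)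
      ⟨by push_cast; linarith, by push_cast; linarith⟩ (by linarith) serCert7)
      bandNear7 bandLa7 bandCap7 bandSeg70 bandSeg71 bandSeg72 bandSeg73 rfl
      (fun k hk => by interval_cases k <;> simp [seg]) (fun sh h hu => hEA sh h hu hd.le) hE
  rcases le_total X 13 with c8 | c8
  · obtain ⟨-, hA, -⟩ := oVar_mem h1 h2 hs (a := 5269 / 1000) (lo := 12) hXe
    obtain ⟨-, -, hB⟩ := oVar_mem h1 h2 hs (a := 6298 / 1000) (lo := 13) hXe
    have := hA (by norm_num) (by norm_num) (by linarith)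
    have := hB (by norm_num) (by norm_num) c8
    exact band_nonneg h1 h2 8 S ht hX hd (by norm_num [qv, band]; linarith)
      (by norm_num [qv, band]; linarith) (I := ⟨5269, 6298, 1000⟩)
      ⟨by push_cast; linarith, by push_cast; linarith⟩ (low_of_chord h1 h2 S hd (I := ⟨12, 13, 1⟩)
      ⟨by push_cast; linarith, by push_cast; linarith⟩ (by linarith) serCert8)
      bandNear8 bandLa8 bandCap8 bandSeg80 bandSeg81 bandSeg82 bandSeg83 rfl
      (fun k hk => by interval_cases k <;> simp [seg]) (fun sh h hu => hEA sh h hu hd.le) hE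
  rcases le_total X 20 with c9 | c9
  · obtain ⟨-, hA, -⟩ := oVar_mem h1 h2 hs (a := 5657 / 1000) (lo := 13) hXe
    obtain ⟨-, -, hB⟩ := oVar_mem h1 h2 hs (a := 9537 / 1000) (lo := 20) hXe
    have := hA (by norm_num) (by norm_num) (by linarith)
    have := hB (by norm_num) (by norm_num) c9
    exact band_nonneg h1 h2 9 S ht hX hd (by norm_num [qv, band]; linarith)
      (by norm_num [qv, band]; linarith) (I := ⟨5657, 9537, 1000⟩)
      ⟨by push_cast; linarith, by push_cast; linarith⟩ (fun H hH => by simp [Band.hl, band] at hH)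
      bandNear9 bandLa9 bandCap9 bandSeg90 bandSeg91 bandSeg92 bandSeg93 rfl
      (fun k hk => by interval_cases k <;> simp [seg]) (fun sh h hu => hEA sh h hu hd.le) hE
  have hv20 : 20 ≤ sqTan p s := hXe ▸ c9
  have hvio : ∀ c ∈ [belowX (20, 1)], ∃ e ∈ c, e.eval (pt p (oVar p s) 0 0) < 0 := fun c hc => by
    rw [List.mem_singleton.1 hc]
    exact eval_belowX hs _ (by norm_num [qv]; linarith)
  have hbnd : Bnd none p s v δ := bnd_of_low S (hcR_bounds h1 h2).1 (fun H hH => by simp at hH)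
  have hN := holds_of_far h1 h2 hs hv20 farCertSmall (τ := 0) (σ := 0) (by norm_num) (by norm_num)
    hvio
  rcases le_total u 0 with hu | hu
  · exact tail_low h1 h2 (tailData h1 h2 hs (hXe ▸ hX)) S ht hX hd hu hbnd
      (holds_of_far h1 h2 hs hv20 farCertLa (by norm_num) (by norm_num) hvio)
      fun sh h => hEA sh h hu hd.le
  rcases le_total u (1 / 4) with hu4 | hu4
  · exact tail_near h1 h2 S ht hX hd hu hu4 hbnd hN hE
  · exact tail_big h1 h2 S ht hX hd hu4
      (near_rem_nonneg hs ht (keptW_data h1 hs ht).2.2.2.2.1 (hXe ▸ hX) hN)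
      (holds_of_far h1 h2 hs hv20 farCertBig (by norm_num) (by norm_num) hvio) hE

end Vale.Agent.P237.Petty.Cor.TinyMid
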