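import Vale.Agent.P237.Petty.Cor.TinyMid.Cases

/-!
# P237: the cases from `X = 81 / 20` on, on real numbers

The potential of the value vanishes there. `hb` bounds the value, `L0 = D + V X`.
-/

namespace Vale.Agent.P237.Petty.Cor.TinyMid

variable {L top V vh D A A0 R B C P X q e1 hb hq v u δ E d0 v1 Xp W : ℝ}

/-- Below one, pinned side. -/
theorem case_tail_neg (hE : formLow V D 0 0 A R B C P X hq L v u δ ≤ E) (hV : vh * top = V)
    (hvh : 0 ≤ vh) (hL : 0 ≤ L) (hLt : L ≤ top) (hLb : L ≤ hb) (hD : 0 ≤ D) (hC : 0 ≤ C)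
    (hv : v = 1 + u) (hv0 : 0 < v) (hu : u ≤ 0) {τ : ℝ} (hτ0 : 0 ≤ τ) (hτ1 : τ ≤ 1)
    (he : 0 ≤ e1 * q) (hX : 0 ≤ X) (hXT : X * (e1 * q) ≤ 1) (hδ : δ = -(τ * e1 * q) * L)
    (hsl : -(L ^ 2 * (63 / 125) * q) ≤ δ + L * hq)
    (hc : 0 ≤ P + vh * (1 - X * (e1 * q)) - 63 / 125 * D * q)
    (hc' : 0 ≤ B ∨ 0 ≤ P + vh * (1 - X * (e1 * q)) - 63 / 125 * D * q + B * (e1 * q) ^ 2)
    (hG : 0 ≤ v * (V - 2 * C * hb * (e1 * q)) +
      (1 - v) * (A - R * ((2 * v + 1) / (2 * (v + 2))))) : 0 ≤ E := by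
  have h1 := mul_le_mul_of_nonneg_right (mul_le_mul_of_nonneg_right hLt hvh)
    (mul_nonneg hL (show 0 ≤ 1 - X * (τ * (e1 * q)) by
      nlinarith [mul_nonneg (sub_nonneg.2 hτ1) (mul_nonneg hX he)]))
  have h1' := mul_nonneg (mul_nonneg hvh (mul_nonneg hL hL))
    (mul_nonneg (sub_nonneg.2 hτ1) (mul_nonneg hX he))
  have h2 := mul_le_mul_of_nonneg_left hsl hD
  have h3 : 0 ≤ L ^ 2 * (P + vh * (1 - X * (e1 * q)) - 63 / 125 * D * q) + B * δ ^ 2 := by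
    rcases hc' with hB | hB
    · positivity
    · have e : B * δ ^ 2 = L ^ 2 * (B * (e1 * q) ^ 2) * τ ^ 2 := by rw [hδ]; ring
      rw [e]
      have := mul_nonneg (mul_nonneg (sq_nonneg L) hB) (sq_nonneg τ)
      have := mul_nonneg (mul_nonneg (sq_nonneg L) hc)
        (sub_nonneg.2 (pow_le_one₀ hτ0 hτ1 (n := 2)))
      linarith
  have h4 : 0 ≤ -u * (v * (V - 2 * C * hb * (e1 * q)) +
      (1 - v) * (A - R * ((2 * v + 1) / (2 * (v + 2))))) / v :=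
    div_nonneg (mul_nonneg (by linarith) hG) hv0.le
  have h5 : 0 ≤ 2 * C * (-u) * (δ + hb * (e1 * q)) := by
    refine mul_nonneg (mul_nonneg (mul_nonneg zero_le_two hC) (by linarith)) ?_
    rw [hδ]
    nlinarith [mul_nonneg (mul_nonneg (sub_nonneg.2 hτ1) hL) he,
      mul_le_mul_of_nonneg_right hLb he]
  have e : -u * (v * (V - 2 * C * hb * (e1 * q)) +
      (1 - v) * (A - R * ((2 * v + 1) / (2 * (v + 2))))) / v =
      -u * (V - 2 * C * hb * (e1 * q)) + (A - R * ((2 * v + 1) / (2 * (v + 2)))) * (u ^ 2 / v) := by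
    field_simp
    rw [hv]
    ring
  rw [e] at h4
  rw [formLow, ← hV] at hE
  rw [← hV] at h4
  subst hδ
  linear_combination hE + h1 + h1' + h2 + h3 + h4 + h5

/-- Below one, positive displacement, the threshold or above. -/
theorem case_tail_pos (hE : formLow V D 0 0 A0 R B C P X hq L v u δ ≤ E) (hV : vh * top = V)
    (hvh : 0 ≤ vh) (hL : 0 ≤ L) (hLt : L ≤ top) (hD : 0 ≤ D) (hC : 0 ≤ C) (hq0 : 0 ≤ hq)
    (hv : v = 1 + u) (hv0 : 0 < v) (hu : u ≤ 0) (hd : 0 ≤ δ) (hP : 0 ≤ vh + P)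
    (hG : 0 ≤ v * V + (1 - v) * (A0 - R * ((2 * v + 1) / (2 * (v + 2)))))
    (hLa : 0 ≤ D + V * X + B * δ) : 0 ≤ E := by
  have h1 := mul_le_mul_of_nonneg_right (mul_le_mul_of_nonneg_right hLt hvh) hL
  have h2 := mul_nonneg hD (mul_nonneg hL hq0)
  have h3 := mul_nonneg (sq_nonneg L) hP
  have h4 : 0 ≤ -u * (v * V + (1 - v) * (A0 - R * ((2 * v + 1) / (2 * (v + 2))))) / v :=
    div_nonneg (mul_nonneg (by linarith) hG) hv0.le
  have h5 := mul_nonneg hd hLa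
  have h6 := mul_nonneg hC (mul_nonneg (neg_nonneg.2 hu) hd)
  have e : -u * (v * V + (1 - v) * (A0 - R * ((2 * v + 1) / (2 * (v + 2))))) / v =
      -u * V + (A0 - R * ((2 * v + 1) / (2 * (v + 2)))) * (u ^ 2 / v) := by
    field_simp
    rw [hv]
    ring
  rw [e] at h4
  rw [formLow, ← hV] at hE
  rw [← hV] at h4 h5
  linear_combination hE + h1 + h2 + h3 + h4 + h5 + 2 * h6

/-- Below one, between half the threshold and the threshold. -/
theorem case_tail_joint (hE : formLow V D 0 0 A0 R B C P X hq L v u δ ≤ E) (hV : vh * top = V)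
    (hvh : 0 ≤ vh) (hL : 0 ≤ L) (hLt : L ≤ top) (hD : 0 ≤ D) (hC : 0 ≤ C) (hq0 : 0 ≤ hq)
    (hv : v = 1 + u) (hv0 : 0 < v) (hu : u ≤ 0) (hd : 0 ≤ δ) (hP : 0 ≤ vh + P) (hB : 0 ≤ B)
    (hL0 : 0 ≤ D + V * X) (hdd : d0 ≤ δ)
    (hG : 0 ≤ (1 - v) * (v * V + (1 - v) * (A0 - R * ((2 * v + 1) / (2 * (v + 2))))) +
      v * (D + V * X) * d0) : 0 ≤ E := by
  have h1 := mul_le_mul_of_nonneg_right (mul_le_mul_of_nonneg_right hLt hvh) hL
  have h2 := mul_nonneg hD (mul_nonneg hL hq0)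
  have h3 := mul_nonneg (sq_nonneg L) hP
  have h4 : 0 ≤ ((1 - v) * (v * V + (1 - v) * (A0 - R * ((2 * v + 1) / (2 * (v + 2))))) +
      v * (D + V * X) * d0) / v := div_nonneg hG hv0.le
  have h5 := mul_le_mul_of_nonneg_left hdd hL0
  have h6 := mul_nonneg hC (mul_nonneg (neg_nonneg.2 hu) hd)
  have h7 := mul_nonneg hB (sq_nonneg δ)
  have e : ((1 - v) * (v * V + (1 - v) * (A0 - R * ((2 * v + 1) / (2 * (v + 2))))) +
      v * (D + V * X) * d0) / v =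
      -u * V + (A0 - R * ((2 * v + 1) / (2 * (v + 2)))) * (u ^ 2 / v) + (D + V * X) * d0 := by
    field_simp
    rw [hv]
    ring
  rw [e] at h4
  rw [formLow, ← hV] at hE
  rw [← hV] at h4 h5
  linear_combination hE + h1 + h2 + h3 + h4 + h5 + 2 * h6 + h7

/-- Below one, far below the threshold, with a lower bound `S` of the shadow. -/
theorem case_tail_far {S : ℝ}
    (hE : S + V * (L - u + X * δ) + D * (δ + L * hq) + A0 * (u ^ 2 / v) + B * δ ^ 2 -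
      2 * C * (u * δ) + L ^ 2 * P ≤ E) (hV : vh * top = V)
    (hvh : 0 ≤ vh) (hL : 0 ≤ L) (hLt : L ≤ top) (hD : 0 ≤ D) (hC : 0 ≤ C) (hq0 : 0 ≤ hq)
    (hu : u ≤ 0) (hd : 0 ≤ δ) (hP : 0 ≤ vh + P) (hB : 0 ≤ B)
    (hL0 : 0 ≤ D + V * X) (hdd : d0 ≤ δ) (hV0 : 0 ≤ V) (hu1 : 1 - v1 ≤ -u)
    (hG : 0 ≤ S + A0 * (u ^ 2 / v) + V * (1 - v1) + (D + V * X) * d0) : 0 ≤ E := by
  have h1 := mul_le_mul_of_nonneg_right (mul_le_mul_of_nonneg_right hLt hvh) hL
  have h2 := mul_nonneg hD (mul_nonneg hL hq0)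
  have h3 := mul_nonneg (sq_nonneg L) hP
  have h5 := mul_le_mul_of_nonneg_left hdd hL0
  have h6 := mul_nonneg hC (mul_nonneg (neg_nonneg.2 hu) hd)
  have h7 := mul_nonneg hB (sq_nonneg δ)
  have h8 := mul_le_mul_of_nonneg_left hu1 hV0
  rw [← hV] at hE hG h5 h8
  linear_combination hE + h1 + h2 + h3 + hG + h5 + 2 * h6 + h7 + h8

/-- The shadow by its logarithm at the threshold. -/
theorem far_log {K k : ℝ} (hR : 0 ≤ R) (hv0 : 0 < v) (hv1 : v ≤ v1) (hv2 : v1 ≤ 1) (hu : v = 1 + u)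
    (hlog : K - k / v ≤ Real.log v) (ha : 0 ≤ A0 * (1 - v1) ^ 2 - R * k) (hA : 0 ≤ A0)
    (hb : 0 ≤ (D + V * X) * d0 + V * (1 - v1) + R * (K + (1 - v1))) :
    0 ≤ R * (Real.log v - u) + A0 * (u ^ 2 / v) + V * (1 - v1) + (D + V * X) * d0 := by
  have h1 := mul_le_mul_of_nonneg_left hlog hR
  have h2 := mul_le_mul_of_nonneg_left (show 1 - v1 ≤ -u by linarith) hR
  have h3 : A0 * (1 - v1) ^ 2 / v ≤ A0 * (u ^ 2 / v) := by
    rw [← mul_div_assoc]
    refine div_le_div_of_nonneg_right (mul_le_mul_of_nonneg_left ?_ hA) hv0.le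
    exact le_trans (pow_le_pow_left₀ (by linarith) (show 1 - v1 ≤ -u by linarith) 2)
      (le_of_eq (neg_sq u))
  have h4 : 0 ≤ (A0 * (1 - v1) ^ 2 - R * k) / v := div_nonneg ha hv0.le
  rw [sub_div] at h4
  linear_combination hb + h1 + h2 + h3 + h4

/-- The weight with the first chord in place of the cut. -/
theorem chord_weight (hV0 : 0 ≤ V) (hv0 : 0 < v) (hv : v = 1 + u)
    (hch : v * (Real.log v - L) ≤ δ * Xp) :
    -(V * (L * u)) - V * (Xp - X) * δ + 3 * v * V / (2 * (v + 2)) * (u ^ 2 / v) ≤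
      V * (L - u + X * δ) := by
  have h := mul_log_ge_pade hv0
  have h1 := mul_le_mul_of_nonneg_left
    (show (v - 1) * (1 + 5 * v) / (4 + 2 * v) ≤ δ * Xp + v * L by linarith) hV0
  have e : 3 * v * V / (2 * (v + 2)) * (u ^ 2 / v) =
      V * ((v - 1) * (1 + 5 * v) / (4 + 2 * v)) - V * u := by
    rw [show u = v - 1 by linarith]
    field_simp
    ring
  rw [e]
  subst hv
  linarith

/-- Values near one. -/
theorem case_tail_near (hE : formLow V D 0 0 A R B C P X hq L v u δ ≤ E) (hL : 0 ≤ L)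
    (hLb : L ≤ hb) (hV0 : 0 ≤ V) (hD : 0 ≤ D) (hC : 0 ≤ C) (hq0 : 0 ≤ hq)
    (hv : v = 1 + u) (hu : 0 ≤ u) (hu1 : u ≤ 1 / 4) (hd : 0 < δ) (hW : 0 ≤ W) (hXp : 0 ≤ Xp)
    (hval : u ≤ W * (L + Xp * δ)) (hch : v * (Real.log v - L) ≤ δ * Xp) {qm a b dn dd : ℝ}
    (hqm : qm ≤ 0)
    (h1 : 0 ≤ A * 2 * (1 + 2) - R * (2 * 1 + 1) + 3 * 1 * V - qm * 6)
    (h5 : 0 ≤ A * 2 * (5 / 4 + 2) - R * (2 * (5 / 4) + 1) + 3 * (5 / 4) * V - qm * (13 / 2))
    (hP : 0 ≤ P - (V * W - qm * (W * W))) (hab : u ≤ a + b * δ)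
    (hdd : 0 < dd) (hdn : δ * dd ≤ dn)
    (hg : 0 ≤ D - V * (Xp - X) - 2 * C * a +
      (-(hb * V * W * Xp) + qm * (hb * (W * W) * Xp + W * Xp * (1 / 4))))
    (hg1 : 0 ≤ (D - V * (Xp - X) - 2 * C * a +
      (-(hb * V * W * Xp) + qm * (hb * (W * W) * Xp + W * Xp * (1 / 4)))) * dd +
      dn * (B - 2 * C * b)) : 0 ≤ E := by
  have hv0 : 0 < v := by linarith
  have a1 := chord_weight hV0 hv0 hv hch (X := X)
  have a2 : qm * u ^ 2 ≤ (A - R * ((2 * v + 1) / (2 * (v + 2))) + 3 * v * V / (2 * (v + 2))) *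
      (u ^ 2 / v) := by
    have hq : qm ≤ A - R * ((2 * v + 1) / (2 * (v + 2))) + 3 * v * V / (2 * (v + 2)) := by
      rw [mul_div_assoc' R, sub_add_eq_add_sub, le_sub_iff_add_le, ← sub_le_iff_le_add', ←
        sub_nonneg]
      have e : A + 3 * v * V / (2 * (v + 2)) - (qm + R * (2 * v + 1) / (2 * (v + 2))) =
          ((4 * (5 / 4 - v)) * (A * 2 * (1 + 2) - R * (2 * 1 + 1) + 3 * 1 * V - qm * 6) +
            (4 * (v - 1)) * (A * 2 * (5 / 4 + 2) - R * (2 * (5 / 4) + 1) + 3 * (5 / 4) * V -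
              qm * (13 / 2))) / (2 * (v + 2)) := by
        field_simp
        ring
      have : 0 ≤ 5 / 4 - v := by linarith
      have : 0 ≤ v - 1 := by linarith
      have h := show 0 ≤ A + 3 * v * V / (2 * (v + 2)) -
          (qm + R * (2 * v + 1) / (2 * (v + 2))) by rw [e]; positivity
      linarith
    refine le_trans ?_ (mul_le_mul_of_nonneg_right hq (by positivity))
    exact mul_le_mul_of_nonpos_left (div_le_self (sq_nonneg u) (by linarith)) hqm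
  have a3 := affine_ray (x := δ) hd.le hdd hdn hg hg1
  have a4 := mul_le_mul_of_nonneg_left hab (mul_nonneg hC hd.le)
  have a5 := mul_nonneg (sq_nonneg L) hP
  have a6 := mul_nonneg hD (mul_nonneg hL hq0)
  have a7 := mul_le_mul_of_nonneg_left hval (mul_nonneg hV0 hL)
  have a8 := mul_le_mul_of_nonneg_left hLb (mul_nonneg (mul_nonneg hV0 hW) (mul_nonneg hXp hd.le))
  have a9 := mul_le_mul_of_nonpos_left (show u ^ 2 ≤ W ^ 2 * L ^ 2 + hb * (W * W) * Xp * δ +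
      W * Xp * δ * (1 / 4) by
    have b1 := mul_le_mul_of_nonneg_left hval hu
    have b2 := mul_le_mul_of_nonneg_left hval (mul_nonneg hW hL)
    have b3 := mul_le_mul_of_nonneg_left hLb (mul_nonneg (mul_nonneg hW hW) (mul_nonneg hXp hd.le))
    have b4 := mul_le_mul_of_nonneg_left hu1 (mul_nonneg hW (mul_nonneg hXp hd.le))
    linarith) hqm
  rw [formLow] at hE
  linear_combination hE + a1 + a2 + a3 + 2 * a4 + a5 + a6 + a7 + a8 + a9

/-- Values above `5 / 4` at large abscissae. -/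
theorem case_tail_big (hE : formLow V D 0 0 A R B C P X hq L v u δ ≤ E) (hL : 0 ≤ L)
    (hLb : L ≤ hb) (hV0 : 0 ≤ V) (hD : 0 ≤ D) (hC : 0 ≤ C) (hq0 : 0 ≤ hq) (hP : 0 ≤ P)
    (hv : v = 1 + u) (hu : 1 / 4 ≤ u) (hd : 0 < δ) (hXp : 0 < Xp) (hhb : hb ≤ 1 / 50)
    (hch : v * (Real.log v - L) ≤ δ * Xp) {an bn den dn dd : ℝ}
    (hab : u * den ≤ an + bn * δ) (hdd : 0 < dd) (hdn : δ * dd ≤ dn) (hden : 0 ≤ den)
    (hden0 : den ≠ 0)
    (hg : 0 ≤ 1 / 2 * (D - V * (Xp - X)) * den - 2 * C * an)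
    (hg1 : 0 ≤ (1 / 2 * (D - V * (Xp - X)) * den - 2 * C * an) * dd +
      dn * (B * den - 2 * C * bn))
    (hb0 : 0 ≤ 1 / 2 * (D - V * (Xp - X)) * (29 / 26 - 5 * hb) - hb * V * Xp)
    (hb1 : 0 ≤ 1 / 2 * (D - V * (Xp - X)) * (29 / 26 - 5 * hb) - hb * V * Xp +
      (A - R + 3 / 2 * V) * Xp)
    (hb5 : 0 ≤ (1 / 2 * (D - V * (Xp - X)) * (29 / 26 - 5 * hb) - hb * V * Xp) * (13 / 2) +
      (A * 2 * (5 / 4 + 2) - R * (2 * (5 / 4) + 1) + 3 * (5 / 4) * V) * Xp) : 0 ≤ E := by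
  have hv0 : 0 < v := by linarith
  obtain ⟨l, hl⟩ : ∃ l, D - V * (Xp - X) = l := ⟨_, rfl⟩
  obtain ⟨r0, hr0⟩ : ∃ r0, 29 / 26 - 5 * hb = r0 := ⟨_, rfl⟩
  rw [hl, hr0] at hb0 hb1 hb5
  rw [hl] at hg hg1
  have hr : 0 < r0 := by linarith
  have hl0 : 0 ≤ l := by
    have : 0 ≤ l * r0 := by
      have := mul_nonneg (mul_nonneg (hL.trans hLb) hV0) hXp.le
      linarith
    exact nonneg_of_mul_nonneg_left this hr
  have a1 := chord_weight hV0 hv0 hv hch (X := X)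
  have a2 : 0 ≤ 1 / 2 * l * δ - 2 * C * (u * δ) + B * δ ^ 2 := by
    refine nonneg_of_mul_nonneg_left (b := den) ?_ (hden.lt_of_ne hden0.symm)
    linear_combination affine_ray (x := δ) hd.le hdd hdn hg hg1 +
      2 * mul_le_mul_of_nonneg_left hab (mul_nonneg hC hd.le)
  have a3 : u * r0 ≤ δ * Xp := by
    have h := mul_log_ge_pade hv0
    have h2 : u * (29 / 26) ≤ (v - 1) * (1 + 5 * v) / (4 + 2 * v) := by
      rw [le_div_iff₀ (by linarith), show v - 1 = u by linarith]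
      nlinarith
    have h3 := mul_le_mul (show v ≤ 5 * u by linarith) hLb hL (by linarith)
    rw [← hr0]
    linarith
  have a4 : 0 ≤ 1 / 2 * l * δ - hb * (V * u) +
      (A - R * ((2 * v + 1) / (2 * (v + 2))) + 3 * v * V / (2 * (v + 2))) * (u ^ 2 / v) := by
    refine nonneg_of_mul_nonneg_left (b := Xp) ?_ hXp
    have k1 := mul_le_mul_of_nonneg_left a3 hl0
    have k2 : 0 ≤ (1 / 2 * l * r0 - hb * V * Xp) * (2 * (v + 2)) +
        (A * 2 * (v + 2) - R * (2 * v + 1) + 3 * v * V) * Xp := by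
      have := mul_nonneg hb1 (show 0 ≤ v - 5 / 4 by linarith)
      linear_combination hb5 + 2 * this
    have k3 := mul_nonneg (div_nonneg (show 0 ≤ u ^ 2 by positivity) hv0.le)
      (div_nonneg k2 (show 0 ≤ 2 * (v + 2) by linarith))
    have k4 := mul_nonneg hb0 (show 0 ≤ u / v by positivity)
    have e1 : u ^ 2 / v * (((1 / 2 * l * r0 - hb * V * Xp) * (2 * (v + 2)) +
        (A * 2 * (v + 2) - R * (2 * v + 1) + 3 * v * V) * Xp) / (2 * (v + 2))) +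
        (1 / 2 * l * r0 - hb * V * Xp) * (u / v) =
        (1 / 2 * l * r0 - hb * V * Xp) * u +
          (A - R * ((2 * v + 1) / (2 * (v + 2))) + 3 * v * V / (2 * (v + 2))) * (u ^ 2 / v) * Xp := by
      subst hv
      field_simp
      ring
    linear_combination (1 / 2 : ℝ) * k1 + k3 + k4 + e1
  have a6 := mul_nonneg hD (mul_nonneg hL hq0)
  have a7 := mul_le_mul_of_nonneg_left hLb (mul_nonneg hV0 (show 0 ≤ u by linarith))
  have a8 := mul_nonneg (sq_nonneg L) hP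
  rw [formLow] at hE
  subst hl
  linear_combination hE + a1 + a2 + a4 + a6 + a7 + a8

/-- Values in a segment: the weight of the cut. -/
theorem case_tail_cut (hE : formLow V D 0 0 A R B C P X hq L v u δ ≤ E) (hV : vh * top = V)
    (hvh : 0 ≤ vh) (hL : 0 ≤ L) (hLt : L ≤ top) (hD : 0 ≤ D) (hq0 : 0 ≤ hq) (hP : 0 ≤ vh + P)
    (hF : 0 ≤ B * δ ^ 2 + (D + V * X - 2 * C * u) * δ +
      (-(V * u) + (A - R * ((2 * v + 1) / (2 * (v + 2)))) * (u ^ 2 / v))) : 0 ≤ E := by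
  have h1 := mul_le_mul_of_nonneg_right (mul_le_mul_of_nonneg_right hLt hvh) hL
  have h2 := mul_nonneg hD (mul_nonneg hL hq0)
  have h3 := mul_nonneg (sq_nonneg L) hP
  rw [formLow, ← hV] at hE
  rw [← hV] at hF
  linear_combination hE + h1 + h2 + h3 + hF

/-- Values in a segment: the weight of the first chord. -/
theorem case_tail_chord (hE : formLow V D 0 0 A R B C P X hq L v u δ ≤ E) (hL : 0 ≤ L)
    (hLb : L ≤ hb) (hV0 : 0 ≤ V) (hD : 0 ≤ D) (hq0 : 0 ≤ hq) (hP : 0 ≤ P) (hv : v = 1 + u)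
    (hu : 0 ≤ u) (hch : v * (Real.log v - L) ≤ δ * Xp)
    (hF : 0 ≤ B * δ ^ 2 + (D - V * (Xp - X) - 2 * C * u) * δ +
      (-(hb * V * u) + (A - R * ((2 * v + 1) / (2 * (v + 2))) + 3 * v * V / (2 * (v + 2))) *
        (u ^ 2 / v))) : 0 ≤ E := by
  have a1 := chord_weight hV0 (show 0 < v by linarith) hv hch (X := X)
  have a2 := mul_nonneg hD (mul_nonneg hL hq0)
  have a3 := mul_nonneg (sq_nonneg L) hP
  have a4 := mul_le_mul_of_nonneg_left hLb (mul_nonneg hV0 hu)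
  rw [formLow] at hE
  linear_combination hE + a1 + a2 + a3 + a4 + hF

end Vale.Agent.P237.Petty.Cor.TinyMid
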