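import Vale.Agent.P237.Petty.Cor.TinyMid.Exprs
import Vale.Agent.P237.Petty.Cor.TinyMid.Cover

/-!
# P237: the polynomial expressions of the tail of the cell, `X ≥ 81 / 20`

The switch is on, the potential of the value is absent and the spline is in its last piece. The
third variable is the parameter of the ratio, the fourth the reciprocal of the speed or a parameter
of it. Each list of conjunctions is a cover of its box; a conjunction that puts `X` outside the
range of the box is void.
-/

namespace Vale.Agent.P237.Petty.Cor.TinyMid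

open Vale.Agent.P100.Bernstein

/-- The abscissa. -/
def oo : Expr := .var 0

/-- A margin. -/
def tiny : Expr := .frac 1 1000

/-- The bound of `ell * exp (ell / 2)`. -/
def hcap : Expr := ee * .frac 1 4 * (1 - .frac 7 8 * ee + ee ^ 2)

/-- The weight. -/
def tV : Expr := xV true oo

/-- The slope. -/
def tD : Expr := xS true oo

/-- The linear coefficient against the weight of the cut. -/
def tL0 : Expr := tD + tV * xX oo

/-- The linear coefficient against the weight of the first chord. -/
def tl : Expr := tD - tV * (ee * xX oo + xQ oo)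

/-- The Fisher coefficient without the cross term, scaled. -/
def tA0 : Expr := xN * .frac 73 25 * 2 * nuL

/-- The numerator of the largest displacement. -/
def dNum : Expr := .frac 169 400 * xQ oo + ee * xX oo

/-- The denominator of the largest displacement. -/
def dDen : Expr := ee * xX oo * (.frac 689 400 * xQ oo + ee * xX oo)

/-- The denominator of the least displacement. -/
def mlE : Expr := xQ oo + 3 * (ee * xX oo)

/-- The numerator of the speed below which the displacement is positive. -/
def vlN : Expr := 2 * ee * xTd oo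

/-- Its denominator. -/
def vlD : Expr := mlE * (1 + ee) * xTn oo

/-- The constant, pinned side. -/
def tBase : Expr :=
  xP 6 oo * (xTd oo * xTd oo) - .frac 63 125 * tD * xTn oo * xTd oo +
    xVh true oo * (xTd oo - xE1 * xX oo * xTn oo) * xTd oo

/-- The sign of the constant. -/
def listC1 : List (List Expr) :=
  [[tBase, xB oo], [tBase, tBase + xB oo * (xE1 * xE1 * (xTn oo * xTn oo))]]

/-- The value bound at `v = vn / s`. -/
def tY (vn s : Expr) : Expr :=
  2 * (vn + 2 * s) *
      (vn * (tV * xTd oo - 2 * xC oo * (ee * .frac 1 4) * xE1 * xTn oo)) +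
    (s - vn) * (xA oo * 2 * (vn + 2 * s) - xR oo * (2 * vn + s)) * xTd oo

/-- `X` above a bound. -/
def aboveX (q : ℤ × ℕ) : List Expr := [xX oo - cst q - tiny]

/-- `X` below a bound. -/
def belowX (q : ℤ × ℕ) : List Expr := [cst q - xX oo - tiny]

/-- The values below one at moderate abscissae. -/
def listA : List (List Expr) := [[tY tt 1], [xX oo * ee - .frac 14 25 - tiny]]

/-- The end of the abscissae where the values below one are split. -/
def farVio : List Expr := [.frac 14 25 - xX oo * ee - tiny]

/-- The values below one above the threshold, at large abscissae. -/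
def listB : List (List Expr) := [[tY (vlN + tt * (vlD - vlN)) vlD]]

/-- The threshold is at most one. -/
def listV : List (List Expr) := [[vlD - vlN]]

/-- The values between half the threshold and the threshold. -/
def joint : Expr :=
  (2 * vlD - vlN * (1 + tt)) * (2 * (vlN * (1 + tt) + 2 * (2 * vlD)) *
      (vlN * (1 + tt) * tV + (2 * vlD - vlN * (1 + tt)) * tA0) -
    (2 * vlD - vlN * (1 + tt)) * xR oo * (2 * (vlN * (1 + tt)) + 2 * vlD)) * mlE +
  vlN * (1 + tt) * (2 * vlD) * tL0 * (1 - tt) * 2 * (vlN * (1 + tt) + 2 * (2 * vlD))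

/-- The values below half the threshold, with the tangent of the logarithm at `2 ^ -j`. -/
def farJ (j : ℕ) : List Expr :=
  [tA0 * (2 * vlD - vlN) * (2 * vlD - vlN) * .num (2 ^ j) - xR oo * 4 * vlD * vlD,
    2 * vlD * tL0 + tV * (2 * vlD - vlN) * mlE +
      xR oo * (.frac (10000 - 6932 * (j : ℤ)) 10000 * 2 * vlD + (2 * vlD - vlN)) * mlE,
    xB oo]

/-- The values below half the threshold. -/
def listFar : List (List Expr) :=
  [farJ 4, farJ 6, farJ 8, farJ 10,
    [(2 * vlD * tL0 + tV * (2 * vlD - vlN) * mlE) * ee -
      xR oo * mlE * ((1 - ee) * 2 * vlD + ee * vlN), xB oo]]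

/-- The values above one, pinned side, with a multiplier of the cut. -/
def pinned (mu : Expr) : List Expr :=
  [mu * (xTd oo * xTd oo + xX oo * dM oo * xTd oo) - .frac 63 125 * tD * xTn oo * xTd oo +
      (xB oo - tV * (xX oo * .frac 1 2 + ee * (xX oo * xX oo))) * (dM oo * dM oo) +
      xP 6 oo * (xTd oo * xTd oo) +
      (-(mu * xTd oo) - 2 * xC oo * dM oo) * (ss * xE1 * xTd oo) +
      (xA oo - (xR oo + tV) * .frac 503 1000) * .frac 50 51 *
        ((ss * xE1 * xTd oo) * (ss * xE1 * xTd oo)),
    mu * (xTd oo * xTd oo + xX oo * dM oo * xTd oo) - .frac 63 125 * tD * xTn oo * xTd oo +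
      (xB oo - tV * (xX oo * .frac 1 2 + ee * (xX oo * xX oo))) * (dM oo * dM oo) +
      xP 6 oo * (xTd oo * xTd oo) +
      (-(mu * xTd oo) - 2 * xC oo * dM oo) * (ss * xE1 * xTd oo) +
      (xA oo - (xR oo + tV) * .frac 503 1000) *
        ((ss * xE1 * xTd oo) * (ss * xE1 * xTd oo)),
    xVh true oo - mu]

/-- The values above one, pinned side. -/
def listP : List (List Expr) :=
  [pinned (xVh true oo), pinned (.frac 0 1 * xS0 oo), pinned (.frac 1 20 * xS0 oo),
    pinned (.frac 1 10 * xS0 oo)]

/-- The share of a value `v` in the bound by the first chord, at `v = a / b`. -/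
def qPoly (a : ℤ) (b : ℕ) : Expr :=
  xA oo * 2 * (.frac a b + 2) - xR oo * (2 * .frac a b + 1) + 3 * .frac a b * tV

/-- The largest displacement: with a bound of the mass below or without. -/
def dsPair : Option Expr → Expr × Expr
  | some H => (hcap * H * .frac 9 8, 1)
  | none => (dNum, dDen)

/-- The values near one: a lower bound `qm` of the share, and a bound `a + b delta` of `u`. -/
def nearOne (ds : Option Expr) (qm a b : Expr) : List Expr :=
  [qPoly 1 1 - qm * 6, qPoly 5 4 - qm * .frac 13 2, xP 6 oo - (tV * xE1 - qm * (xE1 * xE1)),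
    tl - 2 * xC oo * a + (-(hcap * tV * xE1 * xXp oo) +
      qm * (hcap * (xE1 * xE1) * xXp oo + xE1 * xXp oo * .frac 1 4)),
    (tl - 2 * xC oo * a + (-(hcap * tV * xE1 * xXp oo) +
      qm * (hcap * (xE1 * xE1) * xXp oo + xE1 * xXp oo * .frac 1 4))) * (dsPair ds).2 +
      (dsPair ds).1 * (xB oo - 2 * xC oo * b)]

/-- The values near one, all choices. -/
def listNear (ds : Option Expr) : List (List Expr) :=
  [nearOne ds (.frac 0 1) (.frac 1 4) 0, nearOne ds (.frac 0 1) (xE1 * hcap) (xE1 * xXp oo),
    nearOne ds (-.frac 3 20) (.frac 1 4) 0, nearOne ds (-.frac 3 20) (xE1 * hcap) (xE1 * xXp oo),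
    nearOne ds (-.frac 3 10) (.frac 1 4) 0, nearOne ds (-.frac 3 10) (xE1 * hcap) (xE1 * xXp oo)]

/-- The chord at a share `cn / cd` of the abscissa: numerator of its logarithm. -/
def chLn (cn cd : ℕ) : Expr := .frac ((cd : ℤ) ^ 2 - (cn : ℤ) ^ 2) (cd ^ 2) * xX oo

/-- Its denominator. -/
def chLd (cn cd : ℕ) : Expr :=
  2 * xQ oo - .frac ((cd : ℤ) ^ 2 + (cn : ℤ) ^ 2) (cd ^ 2) * ee * xX oo

/-- The denominator of the bound of `u` at large values. -/
def bigDen : Expr := chLn 1 2 + (1 - hcap + .frac 1098 1000) * chLd 1 2

/-- The constant of that bound. -/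
def bigA : Expr := (xXp oo * .frac 1 2 + 3) * chLd 1 2 - bigDen

/-- Its slope. -/
def bigB : Expr := xXp oo * chLd 1 2

/-- The least share of the displacement in `u`. -/
def bigR0 : Expr := .frac 29 26 - 5 * hcap

/-- The part proportional to `u`. -/
def bigBase : Expr := .frac 1 2 * tl * bigR0 - hcap * tV * xXp oo

/-- The values above `5 / 4` at large abscissae. -/
def listBig : List (List Expr) :=
  [[.frac 1 2 * tl * bigDen - 2 * xC oo * bigA,
    (.frac 1 2 * tl * bigDen - 2 * xC oo * bigA) * dDen +
      dNum * (xB oo * bigDen - 2 * xC oo * bigB),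
    bigBase, bigBase + (xA oo - xR oo + .frac 3 2 * tV) * xXp oo,
    bigBase * .frac 13 2 + qPoly 5 4 * xXp oo, bigDen]]

/-- The positive displacements with values below one. -/
def listLa : Option Expr → List (List Expr)
  | some H => [[xB oo, tL0], [tL0 + xB oo * hcap * H * .frac 9 8, tL0]]
  | none => [[xB oo, tL0], [tL0 * dDen + xB oo * dNum, tL0]]

/-- The numerator of the least displacement of the chord at `cn / cd`. -/
def chordN : ℕ → ℕ → Expr
  | 1, 1 => (tt - 1) * (1 + 5 * tt) - tt * hcap * (2 * (tt + 2))
  | cn, cd => (tt - 1) * (1 + 5 * tt) * chLd cn cd +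
      (tt * (chLn cn cd - hcap * chLd cn cd) -
        .frac ((cd : ℤ) - cn) cd * xXp oo * chLd cn cd) * (2 * (tt + 2))

/-- Its denominator. -/
def chordD : ℕ → ℕ → Expr
  | 1, 1 => xXp oo * (2 * (tt + 2))
  | cn, cd => xXp oo * (2 * (tt + 2)) * chLd cn cd

/-- The form at a displacement `n / d`; `q` tells whether the first chord replaces the cut. -/
def midForm (q : Bool) (n d : Expr) : Expr :=
  match q with
  | false => (tL0 * n * d + xB oo * n * n - 2 * xC oo * (tt - 1) * n * d - tV * (tt - 1) * d * d) *
      tt * (2 * (tt + 2)) +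
    (xA oo * (2 * (tt + 2)) - xR oo * (2 * tt + 1)) * (tt - 1) * (tt - 1) * d * d
  | true => (tl * n * d + xB oo * n * n - 2 * xC oo * (tt - 1) * n * d -
      hcap * tV * (tt - 1) * d * d) * tt * (2 * (tt + 2)) +
    (xA oo * (2 * (tt + 2)) - xR oo * (2 * tt + 1) + 3 * tt * tV) *
      (tt - 1) * (tt - 1) * d * d

/-- Its slope. -/
def midSlope (q : Bool) (n d : Expr) : Expr :=
  match q with
  | false => (tL0 - 2 * xC oo * (tt - 1)) * d + 2 * xB oo * n
  | true => (tl - 2 * xC oo * (tt - 1)) * d + 2 * xB oo * n

/-- A segment of values: the chord, the form and the tangent of the root. -/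
structure Seg where
  /-- numerator of the share -/
  cn : ℕ
  /-- denominator of the share -/
  cd : ℕ
  /-- the first chord replaces the cut -/
  q : Bool
  /-- numerator of the point of tangency of the root -/
  rn : ℕ
  /-- its denominator -/
  rd : ℕ

/-- The bound of the displacement by the mass below. -/
def midDb (S : Seg) (H : Expr) : Expr :=
  hcap * H * (tt + .frac ((S.rn : ℤ) ^ 2) (S.rd ^ 2)) * .frac (S.rd : ℤ) (2 * S.rn)

/-- The conjunctions for a segment: `sgn` is zero below the sign change of the quadratic
coefficient, one across it, two above. -/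
def listMid (S : Seg) (ds : Option Expr) (sgn : ℕ) : List (List Expr) :=
  (if sgn = 0 then [] else
    [[midForm S.q (chordN S.cn S.cd) (chordD S.cn S.cd),
      midSlope S.q (chordN S.cn S.cd) (chordD S.cn S.cd), xB oo]]) ++
  (match ds with
  | none => []
  | some H =>
    (if sgn = 2 then [] else
      [[midForm S.q (chordN S.cn S.cd) (chordD S.cn S.cd), midForm S.q (midDb S H) 1,
        -(xB oo)]]) ++
    (if sgn = 1 then
      [[midForm S.q (chordN S.cn S.cd) (chordD S.cn S.cd), midForm S.q (midDb S H) 1,
        midSlope S.q (chordN S.cn S.cd) (chordD S.cn S.cd)]] else []) ++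
    [[chordN S.cn S.cd - midDb S H * chordD S.cn S.cd - tiny]]) ++
  [[chordN S.cn S.cd * dDen - dNum * chordD S.cn S.cd - tiny]]

/-- The cap of the values. -/
def listCap (ds : Option Expr) (cap : ℤ) : List (List Expr) :=
  (match ds with
  | none => []
  | some H =>
    [[bigDen - xXp oo * hcap * H * .frac 1 4 * chLd 1 2,
      .num cap * (bigDen - xXp oo * hcap * H * .frac 1 4 * chLd 1 2) -
        ((3 + xXp oo * .frac 1 2) * chLd 1 2 +
          xXp oo * hcap * H * .frac 1 4 * chLd 1 2 * 4)]]) ++
  [[bigDen, (.num cap * bigDen - (3 + xXp oo * .frac 1 2) * chLd 1 2) * dDen -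
    xXp oo * chLd 1 2 * dNum]]

/-- A piece of the abscissae with the chord of the series of the mass below. -/
structure Band where
  /-- left end -/
  lo : ℤ × ℕ
  /-- right end -/
  hi : ℤ × ℕ
  /-- value of the chord at the left end, if used -/
  ha : Option ((ℤ × ℕ) × (ℤ × ℕ))
  /-- the largest value of the segments -/
  cap : ℤ
  /-- the sign pattern of the quadratic coefficient -/
  sgn : ℕ

/-- The chord of a band. -/
def Band.hl (b : Band) : Option Expr :=
  b.ha.map fun q => cst q.1 + cst q.2 * (xX oo - cst b.lo)

/-- Outside a band. -/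
def Band.vio (b : Band) : List (List Expr) := [belowX b.lo, aboveX b.hi]

/-- The substitution for the abscissae above twenty. -/
def farSubst (e : Expr) : Expr := (homog (.frac 8221 1000) oo e).1

/-- The lists after the substitution. -/
def farList (L : List (List Expr)) : List (List Expr) := L.map fun p => p.map farSubst

end Vale.Agent.P237.Petty.Cor.TinyMid
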