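import Vale.Agent.P237.Petty.Cor.TinyMid.TailExprs
import Vale.Agent.P237.Petty.Cor.TinyMid.BulkSound
import Vale.Agent.P237.Petty.Cor.TinyMid.TailCases

/-!
# P237: the cell from `X = 81 / 20` on, from covers that hold at the abscissa
-/

namespace Vale.Agent.P237.Petty.Cor.TinyMid

open Set
open Ident (half rate)
open Lift (circLow circHigh)
open Vale.Agent.P100.Bernstein

variable {p : ℕ} {L s X v u δ E τ σ : ℝ}

/-- One of the conjunctions holds at the abscissa. -/
def Holds (l : List (List Expr)) (p : ℕ) (s τ σ : ℝ) : Prop :=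
  ∃ c ∈ l, ∀ e ∈ c, 0 ≤ e.eval (pt p (oVar p s) τ σ)

theorem eval_oo' (p : ℕ) (z τ σ : ℝ) : oo.eval (pt p z τ σ) = z := eval_oo p z τ σ

/-- The bound of `ell * exp (ell / 2)`, as a number. -/
noncomputable def hcR (p : ℕ) : ℝ := eps p * (1 / 4) * (1 - 7 / 8 * eps p + eps p ^ 2)

theorem eval_hcap (p : ℕ) (z τ σ : ℝ) : hcap.eval (pt p z τ σ) = hcR p := by
  simp [hcap, hcR, eval_ee]

theorem hcR_bounds (h1 : 18 ≤ p) (h2 : p ≤ 97) :
    0 ≤ hcR p ∧ topVal p ≤ hcR p ∧ hcR p ≤ 1 / 50 ∧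
      ∀ L ∈ Icc 0 (topVal p), L * Real.exp (L / 2) ≤ hcR p := by
  obtain ⟨he0, he1⟩ := eps_mem h1 h2
  rw [← eps] at he0 he1
  have he := eps_pos p
  have h0 : 0 ≤ hcR p := mul_nonneg (by positivity) (by nlinarith)
  have ht : topVal p * (1 + eps p / 8 + eps p ^ 2 / 16) ≤ hcR p := by
    rw [topVal, hcR, div_mul_eq_mul_div, div_le_iff₀ (by positivity)]
    nlinarith [mul_le_mul_of_nonneg_left he1 (sq_nonneg (eps p)), mul_pos he he,
      mul_pos (mul_pos he he) he]
  have hT : 0 ≤ topVal p := by rw [topVal]; positivity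
  refine ⟨h0, le_trans (le_mul_of_one_le_right hT (by nlinarith)) ht, ?_, fun L hL => ?_⟩
  · rw [hcR]
    nlinarith [mul_le_mul_of_nonneg_left he1 he.le, mul_le_mul_of_nonneg_left he1 (sq_nonneg (eps p))]
  · exact (mul_le_mul hL.2 (exp_half_le h1 h2 hL) (Real.exp_pos _).le hT).trans ht

/-- The values of the tail expressions. -/
theorem eval_tail (hs : s ∈ Ioo (0 : ℝ) 1) (ht : Switch p true s) :
    tV.eval (pt p (oVar p s) τ σ) = keptW p s ∧ tD.eval (pt p (oVar p s) τ σ) = slopeD p s ∧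
      tL0.eval (pt p (oVar p s) τ σ) = slopeD p s + keptW p s * sqTan p s ∧
      tl.eval (pt p (oVar p s) τ σ) =
        slopeD p s - keptW p s * (slopeX p (sqTan p s) - sqTan p s) ∧
      tA0.eval (pt p (oVar p s) τ σ) = cA0 p := by
  have ho := eval_oo' p (oVar p s) τ σ
  have e1 : tV.eval (pt p (oVar p s) τ σ) = keptW p s := eval_xV hs ho ht
  have e2 : tD.eval (pt p (oVar p s) τ σ) = slopeD p s := eval_xS hs ho ht
  refine ⟨e1, e2, ?_, ?_, (eval_coefs hs ho).2.2.2⟩
  · simp [tL0, e1, e2, eval_xX hs ho]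
  · simp only [tl, Expr.eval_sub, Expr.eval_mul, Expr.eval_add, Expr.eval_ofNat, e1, e2,
      eval_xX hs ho, xQ, slopeX, eval_ee]
    push_cast
    ring

/-- The denominator of the least displacement, as a number. -/
noncomputable def mlR (p : ℕ) (X : ℝ) : ℝ := 1 + eps p * X + 3 * (eps p * X)

/-- The threshold of the values, as a number. -/
noncomputable def vThr (p : ℕ) (X : ℝ) : ℝ :=
  2 * eps p * tdR p X / (mlR p X * (1 + eps p) * (boxQ p X * tdR p X))

theorem eval_thr (hs : s ∈ Ioo (0 : ℝ) 1) :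
    vlN.eval (pt p (oVar p s) τ σ) = vThr p (sqTan p s) * vlD.eval (pt p (oVar p s) τ σ) ∧
      0 < vlD.eval (pt p (oVar p s) τ σ) ∧ 0 < vThr p (sqTan p s) ∧
      mlE.eval (pt p (oVar p s) τ σ) = mlR p (sqTan p s) ∧ 0 < mlR p (sqTan p s) := by
  have ho := eval_oo' p (oVar p s) τ σ
  obtain ⟨en, ed, hT, -, -⟩ := eval_box hs ho
  have hz : 0 < 1 - s ^ 2 := by nlinarith [hs.1, hs.2]
  have hX : 0 < sqTan p s := div_pos (mul_pos (by positivity) (pow_pos hs.1 2)) hz
  have he := eps_pos p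
  have hq : 0 < boxQ p (sqTan p s) := by rw [boxQ]; positivity
  have em : mlE.eval (pt p (oVar p s) τ σ) = mlR p (sqTan p s) := by
    simp [mlE, mlR, xQ, eval_xX hs ho, eval_ee]
  have hm : 0 < mlR p (sqTan p s) := by rw [mlR]; positivity
  have e1 : vlN.eval (pt p (oVar p s) τ σ) = 2 * eps p * tdR p (sqTan p s) := by
    simp [vlN, ed, eval_ee]
  have e2 : vlD.eval (pt p (oVar p s) τ σ) =
      mlR p (sqTan p s) * (1 + eps p) * (boxQ p (sqTan p s) * tdR p (sqTan p s)) := by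
    simp [vlD, em, en, eval_ee]
  refine ⟨?_, e2 ▸ by positivity, by rw [vThr]; positivity, em, hm⟩
  rw [e1, e2, vThr, div_mul_cancel₀ _ (by positivity)]

/-- The coefficient that multiplies `-u` below one. -/
noncomputable def lowG (p : ℕ) (s X v : ℝ) : ℝ :=
  v * (keptW p s - 2 * cC p X * (eps p * (1 / 4)) * (expFac p * boxQ p X)) +
    (1 - v) * (cA p X - shadR p s * ((2 * v + 1) / (2 * (v + 2))))

theorem eval_tY (hs : s ∈ Ioo (0 : ℝ) 1) (ht : Switch p true s) (hv : 0 < v) {a b : Expr}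
    (hab : a.eval (pt p (oVar p s) τ σ) = v * b.eval (pt p (oVar p s) τ σ))
    (hb : 0 < b.eval (pt p (oVar p s) τ σ))
    (h : 0 ≤ (tY a b).eval (pt p (oVar p s) τ σ)) : 0 ≤ lowG p s (sqTan p s) v := by
  have ho := eval_oo' p (oVar p s) τ σ
  obtain ⟨e1, -, -, -, -⟩ := eval_tail (τ := τ) (σ := σ) hs ht
  obtain ⟨ea, -, ec, -⟩ := eval_coefs hs ho
  obtain ⟨en, ed, hT, -, eF⟩ := eval_box hs ho
  obtain ⟨t, hte⟩ : ∃ t, b.eval (pt p (oVar p s) τ σ) = t := ⟨_, rfl⟩
  rw [hte] at hab hb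
  have key : (tY a b).eval (pt p (oVar p s) τ σ) =
      t ^ 2 * tdR p (sqTan p s) * (2 * (v + 2)) * lowG p s (sqTan p s) v := by
    simp [tY, hab, hte, e1, ea, ec, en, ed, eF, eval_ee, eval_xR hs ho, lowG]
    field_simp
  rw [key] at h
  exact (mul_nonneg_iff_of_pos_left (mul_pos (mul_pos (pow_pos hb 2) hT) (by linarith))).1 h

/-- The covers at an abscissa. -/
structure TailData (p : ℕ) (s : ℝ) : Prop where
  const : Holds listC1 p s 0 0
  pin : ∀ τ ∈ Icc (0 : ℝ) 1, ∀ σ ∈ Icc (0 : ℝ) 1, Holds listP p s τ σ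
  low : ∀ τ ∈ Icc (0 : ℝ) 1,
    Holds listA p s τ 0 ∨ 14 / 25 - 1 / 1000 < eps p * sqTan p s
  far : 14 / 25 - 1 / 1000 < eps p * sqTan p s → Holds listV p s 0 0 ∧
    (∀ τ ∈ Icc (0 : ℝ) 1, Holds listB p s τ 0) ∧
    (∀ τ ∈ Icc (0 : ℝ) 1, Holds [[joint, xB oo]] p s τ 0) ∧ Holds listFar p s 0 0

theorem lowG_nonneg (D : TailData p s) (hs : s ∈ Ioo (0 : ℝ) 1) (ht : Switch p true s)
    (hv : 0 < v) (hv1 : v ≤ 1)
    (h : eps p * sqTan p s ≤ 14 / 25 - 1 / 1000 ∨ vThr p (sqTan p s) ≤ v) :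
    0 ≤ lowG p s (sqTan p s) v := by
  rcases D.low v ⟨hv.le, hv1⟩ with ⟨c, hc, hc'⟩ | hbig
  · simp only [listA, List.mem_cons, List.not_mem_nil, or_false] at hc
    rcases hc with rfl | rfl
    · exact eval_tY (σ := 0) hs ht hv (by simp [eval_tt]) (by simp)
        (hc' _ (List.mem_cons_self ..))
    · have := hc' _ (List.mem_cons_self ..)
      have h2 : 14 / 25 - 1 / 1000 < eps p * sqTan p s := by
        simp [tiny, eval_xX hs (eval_oo' p _ _ _), eval_ee] at this
        linarith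
      exact lowG_large h2
  · exact lowG_large hbig
where
  lowG_large (h2 : 14 / 25 - 1 / 1000 < eps p * sqTan p s) : 0 ≤ lowG p s (sqTan p s) v := by
    obtain ⟨hV, hB, -, -⟩ := D.far h2
    have hv' : vThr p (sqTan p s) ≤ v := h.resolve_left (by linarith)
    obtain ⟨τ, hτ, e⟩ : ∃ τ ∈ Icc (0 : ℝ) 1,
        v = vThr p (sqTan p s) + τ * (1 - vThr p (sqTan p s)) := by
      rcases (hv'.trans hv1).eq_or_lt with h3 | h3
      · exact ⟨0, ⟨le_rfl, zero_le_one⟩, by rw [h3]; linarith⟩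
      · exact ⟨(v - vThr p (sqTan p s)) / (1 - vThr p (sqTan p s)),
          ⟨div_nonneg (by linarith) (by linarith), (div_le_one (by linarith)).2 (by linarith)⟩,
          by field_simp; ring⟩
    obtain ⟨c, hc, hc'⟩ := hB τ hτ
    rw [listB, List.mem_singleton] at hc
    subst hc
    obtain ⟨e1, hd, -, -, -⟩ := eval_thr (τ := τ) (σ := 0) hs
    refine eval_tY hs ht hv ?_ hd (hc' _ (List.mem_cons_self ..))
    simp [eval_tt, e1]
    rw [e]
    ring

/-- Where the spline and the potential of the value are in their last pieces. -/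
theorem last_piece (hX : 81 / 20 ≤ sqTan p s) : kapS p s = 0 ∧ kapD p s = 0 ∧
    ∀ j, j < 6 → knotR j ≤ sqTan p s := by
  refine ⟨(kap_zero hX).1, (kap_zero hX).2, fun j hj => le_trans ?_ hX⟩
  interval_cases j <;> norm_num [knotR, knot]

theorem eval_rem (hs : s ∈ Ioo (0 : ℝ) 1) (hX : 81 / 20 ≤ sqTan p s) :
    (xP 6 oo).eval (pt p (oVar p s) τ σ) = scale p s * remR p s :=
  eval_xP hs (eval_oo' p _ _ _) le_rfl (last_piece hX).2.2 fun j h1 h2 => absurd h1 (not_lt.2 h2)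

theorem TailData.basic (D : TailData p s) (hs : s ∈ Ioo (0 : ℝ) 1) (ht : Switch p true s)
    (hX : 81 / 20 ≤ sqTan p s) (hvh : 0 ≤ keptW p s / topVal p) (hD : 0 ≤ slopeD p s) :
    0 ≤ scale p s * remR p s + keptW p s / topVal p *
        (1 - sqTan p s * (expFac p * boxQ p (sqTan p s))) -
          63 / 125 * slopeD p s * boxQ p (sqTan p s) ∧
      (0 ≤ cB p (sqTan p s) ∨ 0 ≤ scale p s * remR p s + keptW p s / topVal p *
        (1 - sqTan p s * (expFac p * boxQ p (sqTan p s))) -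
          63 / 125 * slopeD p s * boxQ p (sqTan p s) +
            cB p (sqTan p s) * (expFac p * boxQ p (sqTan p s)) ^ 2) ∧
      0 ≤ keptW p s / topVal p + scale p s * remR p s := by
  obtain ⟨c, hc, hc'⟩ := D.const
  have ho := eval_oo' p (oVar p s) 0 0
  obtain ⟨-, e2, -, -, -⟩ := eval_tail (τ := 0) (σ := 0) hs ht
  obtain ⟨-, eb, -, -⟩ := eval_coefs hs ho
  obtain ⟨en, ed, hT, -, eF⟩ := eval_box hs ho
  obtain ⟨eV, -⟩ := eval_vh hs ho ht
  obtain ⟨b, hb⟩ : ∃ b, scale p s * remR p s + keptW p s / topVal p *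
        (1 - sqTan p s * (expFac p * boxQ p (sqTan p s))) -
          63 / 125 * slopeD p s * boxQ p (sqTan p s) = b := ⟨_, rfl⟩
  rw [hb]
  have eB : tBase.eval (pt p (oVar p s) 0 0) = tdR p (sqTan p s) ^ 2 * b := by
    rw [← hb]
    simp [tBase, e2, en, ed, eF, eV, eval_rem hs hX, eval_xX hs ho]
    ring
  have hb0 : 0 ≤ b := by
    simp only [listC1, List.mem_cons, List.not_mem_nil, or_false] at hc
    have h := hc' tBase (by rcases hc with rfl | rfl <;> simp)
    rw [eB] at h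
    exact (mul_nonneg_iff_of_pos_left (pow_pos hT 2)).1 h
  refine ⟨hb0, ?_, ?_⟩
  · simp only [listC1, List.mem_cons, List.not_mem_nil, or_false] at hc
    rcases hc with rfl | rfl
    · left
      simpa [eb] using hc' (xB oo) (by simp)
    · right
      have h := hc' (tBase + xB oo * (xE1 * xE1 * (xTn oo * xTn oo))) (by simp)
      simp [eB, eb, eF, en] at h
      refine (mul_nonneg_iff_of_pos_left (pow_pos hT 2)).1 ?_
      linear_combination h
  · have hs2 : 0 < boxQ p (sqTan p s) := by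
      have := eps_pos p
      have : 0 < sqTan p s := by linarith
      rw [boxQ]; positivity
    have : 0 < expFac p := by rw [expFac]; have := eps_pos p; positivity
    have a1 := mul_nonneg hvh (mul_nonneg (show 0 ≤ sqTan p s by linarith)
      (mul_nonneg this.le hs2.le))
    have a2 := mul_nonneg hD hs2.le
    linarith

theorem topVal_le_quarter (h1 : 18 ≤ p) (h2 : p ≤ 97) : topVal p ≤ eps p * (1 / 4) := by
  have := (topVal_le h1 h2).2.1
  linarith

/-- The pinned side. -/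
theorem tail_pinned (h1 : 18 ≤ p) (h2 : p ≤ 97) (D : TailData p s) (S : St p L s X v u δ)
    (ht : Switch p true s) (hX : 81 / 20 ≤ X) (hd : δ ≤ 0)
    (hE : formLow (keptW p s) (slopeD p s) (kapS p s) (kapD p s) (cA p X) (shadR p s)
      (cB p X) (cC p X) (scale p s * remR p s) X (hiQuot p s) L v u δ ≤ E) : 0 ≤ E := by
  have hs := S.s_mem
  have hXe := S.X_eq
  have he := eps_pos p
  have hX0 := S.X_pos
  obtain ⟨hk, hkd, -⟩ := last_piece (hXe ▸ hX)
  rw [hk, hkd] at hE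
  obtain ⟨hvh, hV, -, -, hV0, hD0⟩ := keptW_data h1 hs ht
  obtain ⟨⟨τ, hτ, hδ⟩, hXT⟩ := S.pinned h1 h2 hd
  obtain ⟨huF, hvm, hv1⟩ := S.share_small h1 h2 hd
  have hR : 0 ≤ shadR p s := mul_nonneg (scale_pos p hs).le
    (div_nonneg (Ident.b0_pos p).le (Real.sqrt_nonneg _))
  have hq : 0 ≤ boxQ p X := by rw [boxQ]; positivity
  have hF : 0 < expFac p := by rw [expFac]; positivity
  rcases le_total u 0 with hu | hu
  · obtain ⟨hc, hc', -⟩ := D.basic hs ht (hXe ▸ hX) hvh hD0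
    rw [hXe] at hc hc'
    have hG : 0 ≤ lowG p s (sqTan p s) v := by
      refine lowG_nonneg D hs ht S.v_pos (by linarith [S.v_eq]) ?_
      rcases le_or_gt (eps p * sqTan p s) (14 / 25 - 1 / 1000) with h | h
      · exact Or.inl h
      · right
        obtain ⟨-, -, hv0, -, hm⟩ := eval_thr (τ := 0) (σ := 0) hs
        rw [hXe] at hv0 hm ⊢
        by_contra hc0
        rw [not_le] at hc0
        have h3 := S.d_ge
        have e : v * ((1 + eps p) / eps p * boxQ p X * (1 + eps p * X + 3 * (eps p * X)) / 2) =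
            v / vThr p X := by
          have : 0 < tdR p X := by rw [tdR]; positivity
          rw [vThr, mlR]
          field_simp
        rw [e] at h3
        have h4 : 0 < 2 / (1 + eps p * X + 3 * (eps p * X)) * (1 - v / vThr p X) :=
          mul_pos (div_pos two_pos hm) (sub_pos.2 ((div_lt_one hv0).2 hc0))
        linarith
    rw [hXe] at hG
    exact case_tail_neg hE hV hvh S.L_mem.1 S.L_mem.2
      (S.L_mem.2.trans (topVal_le_quarter h1 h2)) hD0
      (by rw [cC]; have := Ident.b0_pos p; positivity) S.v_eq S.v_pos hu hτ.1 hτ.2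
      (mul_nonneg hF.le hq) hX0.le hXT hδ (S.slack hd) hc hc' hG
  · obtain ⟨σ, hσ, hw⟩ : ∃ σ ∈ Icc (0 : ℝ) 1, u = σ * expFac p * L := by
      rcases S.L_mem.1.eq_or_lt with h | h
      · refine ⟨0, ⟨le_rfl, zero_le_one⟩, ?_⟩
        rw [← h] at huF ⊢
        linarith
      · refine ⟨u / (L * expFac p), ⟨div_nonneg hu (by positivity),
          (div_le_one (by positivity)).2 huF⟩, ?_⟩
        field_simp
    have ho := eval_oo' p (oVar p s) τ σ
    obtain ⟨eV, eD, -, -, -⟩ := eval_tail (τ := τ) (σ := σ) hs ht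
    obtain ⟨ea, eb, ec, -⟩ := eval_coefs hs ho
    obtain ⟨en, ed, hT, -, eF⟩ := eval_box hs ho
    obtain ⟨eVh, -⟩ := eval_vh hs ho ht
    have eP := eval_rem (τ := τ) (σ := σ) hs (hXe ▸ hX)
    rw [hXe] at en ed hT ea eb ec
    obtain ⟨c, hc, hc'⟩ := D.pin τ hτ σ hσ
    obtain ⟨mu, hmu, lam, hlam, hl0⟩ : ∃ mu, c = pinned mu ∧ ∃ lam,
        mu.eval (pt p (oVar p s) τ σ) = lam ∧ 0 ≤ lam := by
      have hS := (scale_pos p hs).le
      simp only [listP, List.mem_cons, List.not_mem_nil, or_false] at hc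
      rcases hc with rfl | rfl | rfl | rfl
      · exact ⟨_, rfl, _, eVh, hvh⟩
      all_goals exact ⟨_, rfl, _, rfl, by simp [eval_xS0 hs ho, hS]⟩
    subst hmu
    simp only [pinned, List.forall_mem_cons, List.forall_mem_nil, dM, Expr.eval_add, Expr.eval_sub,
      Expr.eval_mul, Expr.eval_neg, Expr.eval_frac, Expr.eval_ofNat, hlam, en, ed, eF, eV, eD, eVh,
      eb, ec, ea, eP, eval_ee, eval_tt, eval_ss, eval_xR hs ho, eval_xX hs ho, hXe] at hc'
    push_cast at hc'
    obtain ⟨k1, k2, k3, -⟩ := hc'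
    refine case_high_neg hE hV S.L_mem.1 S.L_mem.2 hD0 (add_nonneg hR hV0) S.v_eq hu hvm (hv1 hu)
      (S.slack hd) hl0 (by linarith) (W := X / 2 + eps p * X ^ 2)
      (by positivity) (S.cut_neg hd) hδ hw ?_ ?_
    · refine (mul_nonneg_iff_of_pos_left (pow_pos hT 2)).1 ?_
      linear_combination k1
    · refine Or.inr ((mul_nonneg_iff_of_pos_left (pow_pos hT 2)).1 ?_)
      linear_combination k2

/-- A bound of the displacement by a pair of expressions. -/
def Bnd (ds : Option Expr) (p : ℕ) (s v δ : ℝ) : Prop :=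
  ∀ τ σ, v ≤ 5 / 4 → 0 < (dsPair ds).2.eval (pt p (oVar p s) τ σ) ∧
    δ * (dsPair ds).2.eval (pt p (oVar p s) τ σ) ≤ (dsPair ds).1.eval (pt p (oVar p s) τ σ)

theorem tail_low (h1 : 18 ≤ p) (h2 : p ≤ 97) (D : TailData p s) (S : St p L s X v u δ)
    (ht : Switch p true s) (hX : 81 / 20 ≤ X) (hd : 0 < δ) (hu : u ≤ 0) {ds : Option Expr}
    (hB : Bnd ds p s v δ) (hLa : Holds (listLa ds) p s 0 0)
    (hE : ∀ sh, sh ≤ shadR p s * -((2 * v + 1) / (2 * (v + 2)) * (u ^ 2 / v)) ∨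
        sh ≤ shadR p s * (Real.log v - u) ∨ sh ≤ shadR p s * (-(1 / eps p) - u) →
      sh + keptW p s * (L - u + X * δ) + slopeD p s * (δ + L * hiQuot p s) +
        L * (kapS p s * u + kapD p s * δ) + cA0 p * (u ^ 2 / v) + cB p X * δ ^ 2 -
        2 * cC p X * (u * δ) + L ^ 2 * (scale p s * remR p s) ≤ E) : 0 ≤ E := by
  have hs := S.s_mem
  have hXe := S.X_eq
  have he := eps_pos p
  have hX0 := S.X_pos
  obtain ⟨hk, hkd, -⟩ := last_piece (hXe ▸ hX)
  simp only [hk, hkd, zero_mul, add_zero, mul_zero] at hE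
  obtain ⟨hvh, hV, -, -, hV0, hD0⟩ := keptW_data h1 hs ht
  obtain ⟨-, -, hP⟩ := D.basic hs ht (hXe ▸ hX) hvh hD0
  have hN := Ident.b0_pos p
  have hR : 0 ≤ shadR p s := mul_nonneg (scale_pos p hs).le (div_nonneg hN.le (Real.sqrt_nonneg _))
  have hC : 0 ≤ cC p X := by rw [cC]; positivity
  have he1 : eps p ≤ 1 / 19 := (eps_mem h1 h2).2
  have hA : 0 ≤ cA0 p := by
    rw [cA0]; exact mul_nonneg (by positivity) (by linarith)
  have hq0 : 0 ≤ hiQuot p s := le_trans (by rw [slopeX]; positivity) S.hi_ge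
  have hv1 : v ≤ 1 := by linarith [S.v_eq]
  obtain ⟨ea, eb, ec, -⟩ := eval_coefs (o := oo) (τ := 0) (σ := 0) hs (eval_oo' p _ _ _)
  rw [hXe] at ea eb ec
  have hform : formLow (keptW p s) (slopeD p s) 0 0 (cA0 p) (shadR p s) (cB p X) (cC p X)
      (scale p s * remR p s) X (hiQuot p s) L v u δ ≤ E := by
    have := hE _ (Or.inl le_rfl)
    rw [formLow]
    linarith
  obtain ⟨hL0, hLaδ⟩ : 0 ≤ slopeD p s + keptW p s * X ∧
      0 ≤ slopeD p s + keptW p s * X + cB p X * δ := by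
    obtain ⟨c, hc, hc'⟩ := hLa
    obtain ⟨-, -, eL, -, -⟩ := eval_tail (τ := 0) (σ := 0) hs ht
    rw [hXe] at eL
    obtain ⟨hdd, hdn⟩ := hB 0 0 (by linarith)
    cases ds <;> simp only [listLa, List.mem_cons, List.not_mem_nil, or_false] at hc <;>
      simp [dsPair] at hdd hdn <;> rcases hc with rfl | rfl <;>
      simp [eb, eL] at hc' <;> obtain ⟨k1, k2⟩ := hc' <;> refine ⟨k2, ?_⟩
    · have := mul_nonneg k1 hd.le; linarith
    · rcases le_total 0 (cB p X) with h | h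
      · have := mul_nonneg h hd.le; linarith
      · refine nonneg_of_mul_nonneg_left (b := dDen.eval (pt p (oVar p s) 0 0)) ?_ hdd
        linear_combination k1 + mul_le_mul_of_nonpos_left hdn h
    · have := mul_nonneg k1 hd.le; linarith
    · rcases le_total 0 (cB p X) with h | h
      · have := mul_nonneg h hd.le; linarith
      · linear_combination k1 + mul_le_mul_of_nonpos_left hdn h
  have hgap : cA p X ≤ cA0 p := by
    rw [cA, cA0]
    have := mul_nonneg (mul_nonneg (div_nonneg zero_le_one hN.le) (show 0 ≤ 1 / 8 - 63 / 1000 * eps p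
      by linarith)) (mul_nonneg he.le hX0.le)
    linarith
  have hq : 0 ≤ expFac p * boxQ p X := by rw [expFac, boxQ]; positivity
  by_cases hsm : eps p * sqTan p s ≤ 14 / 25 - 1 / 1000 ∨ vThr p (sqTan p s) ≤ v
  · have hG := lowG_nonneg D hs ht S.v_pos hv1 hsm
    rw [hXe, lowG] at hG
    refine case_tail_pos hform hV hvh S.L_mem.1 S.L_mem.2 hD0 hC hq0 S.v_eq S.v_pos hu hd.le hP
      ?_ hLaδ
    linear_combination hG + mul_le_mul_of_nonneg_left hgap (show 0 ≤ 1 - v by linarith) +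
      (2 * (mul_nonneg (mul_nonneg S.v_pos.le hC) (mul_nonneg (show 0 ≤ eps p * (1 / 4) by
        positivity) hq)))
  · rw [not_or, not_le, not_le] at hsm
    obtain ⟨hVl, -, hJ, hF⟩ := D.far hsm.1
    obtain ⟨e1, hdn, hv0, em, hm⟩ := eval_thr (τ := 0) (σ := 0) hs
    rw [hXe] at e1 hv0 em hm hsm
    have hvl1 : vThr p X ≤ 1 := by
      obtain ⟨c, hc, hc'⟩ := hVl
      rw [listV, List.mem_singleton] at hc
      subst hc
      have := hc' _ (List.mem_cons_self ..)
      simp [e1] at this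
      exact (mul_le_iff_le_one_left hdn).1 (by linarith)
    have hdd : 2 / mlR p X * (1 - v / vThr p X) ≤ δ := by
      refine le_trans (le_of_eq ?_) S.d_ge
      have : 0 < tdR p X := by rw [tdR]; positivity
      rw [vThr, mlR]
      field_simp
    rcases le_total (vThr p X / 2) v with hj | hj
    · obtain ⟨τ, hτ, e⟩ : ∃ τ ∈ Icc (0 : ℝ) 1, v = vThr p X * (1 + τ) / 2 :=
        ⟨2 * v / vThr p X - 1, ⟨by rw [sub_nonneg, le_div_iff₀ hv0]; linarith,
          by rw [sub_le_iff_le_add, div_le_iff₀ hv0]; linarith [hsm.2]⟩, by field_simp; ring⟩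
      obtain ⟨c, hc, hc'⟩ := hJ τ hτ
      rw [List.mem_singleton] at hc
      subst hc
      have k1 := hc' joint (by simp)
      have hBn : 0 ≤ cB p X := by
        have := hc' (xB oo) (by simp)
        rwa [(eval_coefs hs (eval_oo' p _ τ 0)).2.1, hXe] at this
      obtain ⟨eV, -, eL, -, eA⟩ := eval_tail (τ := τ) (σ := 0) hs ht
      obtain ⟨e1', hdn', -, em', -⟩ := eval_thr (τ := τ) (σ := 0) hs
      obtain ⟨w, hwe⟩ : ∃ w, vlD.eval (pt p (oVar p s) τ 0) = w := ⟨_, rfl⟩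
      rw [hXe] at e1' em' eL
      refine case_tail_joint hform hV hvh S.L_mem.1 S.L_mem.2 hD0 hC hq0 S.v_eq S.v_pos hu hd.le hP
        hBn hL0 (d0 := (1 - τ) / mlR p X) (le_of_eq_of_le (by rw [e]; field_simp; ring) hdd) ?_
      rw [hwe] at e1' hdn'
      have key : joint.eval (pt p (oVar p s) τ 0) = (2 * w) ^ 3 * (2 * (v + 2)) * mlR p X *
          ((1 - v) * (v * keptW p s + (1 - v) *
            (cA0 p - shadR p s * ((2 * v + 1) / (2 * (v + 2))))) +
              v * (slopeD p s + keptW p s * X) * ((1 - τ) / mlR p X)) := by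
        have hv2 : v + 2 ≠ 0 := by linarith [S.v_pos]
        simp [joint, eval_tt, e1', hwe, em', eV, eL, eA, eval_xR hs (eval_oo' p _ _ _)]
        field_simp
        rw [e]
        ring
      rw [key] at k1
      exact (mul_nonneg_iff_of_pos_left (mul_pos (mul_pos (pow_pos (by linarith) 3)
        (by linarith [S.v_pos])) hm)).1 k1
    · obtain ⟨c, hc, hc'⟩ := hF
      obtain ⟨eV, -, eL, -, eA⟩ := eval_tail (τ := 0) (σ := 0) hs ht
      rw [hXe] at eL
      have hd0 : 1 / mlR p X ≤ δ := by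
        refine le_trans ?_ hdd
        rw [show 1 / mlR p X = 2 / mlR p X * (1 / 2) by ring]
        gcongr
        rw [le_sub_iff_add_le, ← le_sub_iff_add_le', div_le_iff₀ hv0]
        linarith
      obtain ⟨w, hwe⟩ : ∃ w, vlD.eval (pt p (oVar p s) 0 0) = w := ⟨_, rfl⟩
      rw [hwe] at e1 hdn
      simp only [listFar, List.mem_cons, List.not_mem_nil, or_false] at hc
      have hcase : (∃ j, c = farJ j) ∨ c = [(2 * vlD * tL0 + tV * (2 * vlD - vlN) * mlE) * ee -
          xR oo * mlE * ((1 - ee) * 2 * vlD + ee * vlN), xB oo] := by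
        rcases hc with h | h | h | h | h
        iterate 4 exact Or.inl ⟨_, h⟩
        exact Or.inr h
      rcases hcase with ⟨j, rfl⟩ | rfl
      · simp only [farJ, List.forall_mem_cons, List.forall_mem_nil, Expr.eval_add, Expr.eval_sub,
          Expr.eval_mul, Expr.eval_num, Expr.eval_frac, Expr.eval_ofNat, e1, hwe, eV, eL, eA, em,
          eb, eval_xR hs (eval_oo' p _ _ _)] at hc'
        push_cast at hc'
        obtain ⟨k1, k2, k3, -⟩ := hc'
        refine case_tail_far (v1 := vThr p X / 2) (d0 := 1 / mlR p X)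
          (hE _ (Or.inr (Or.inl le_rfl))) hV hvh S.L_mem.1 S.L_mem.2 hD0 hC
          hq0 hu hd.le hP k3 hL0 hd0 hV0 (by linarith [S.v_eq]) ?_
        refine far_log hR S.v_pos hj (by linarith) S.v_eq (log_ge_tangent S.v_pos j) ?_
          hA ?_
        · refine le_of_le_of_eq (div_nonneg k1
            (show 0 ≤ 4 * w ^ 2 * (2 : ℝ) ^ j by positivity)) ?_
          rw [div_pow, one_pow]
          field_simp
          ring
        · refine le_of_le_of_eq (div_nonneg k2 (show 0 ≤ 2 * w * mlR p X by positivity)) ?_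
          field_simp
      · simp only [List.forall_mem_cons, List.forall_mem_nil, Expr.eval_add, Expr.eval_sub,
          Expr.eval_mul, Expr.eval_ofNat, e1, hwe, eV, eL, em, eb, eval_ee,
          eval_xR hs (eval_oo' p _ _ _)] at hc'
        push_cast at hc'
        obtain ⟨k2, k3, -⟩ := hc'
        refine case_tail_far (v1 := vThr p X / 2) (d0 := 1 / mlR p X)
          (hE _ (Or.inr (Or.inr le_rfl))) hV hvh S.L_mem.1 S.L_mem.2 hD0 hC
          hq0 hu hd.le hP k3 hL0 hd0 hV0 (by linarith [S.v_eq]) ?_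
        have a1 := mul_le_mul_of_nonneg_left (show 1 - vThr p X / 2 ≤ -u by linarith [S.v_eq]) hR
        have a2 : 0 ≤ cA0 p * (u ^ 2 / v) := mul_nonneg hA (by have := S.v_pos; positivity)
        have a3 : 0 ≤ keptW p s * (1 - vThr p X / 2) +
            (slopeD p s + keptW p s * X) * (1 / mlR p X) +
            shadR p s * (-(1 / eps p) + (1 - vThr p X / 2)) := by
          refine (mul_nonneg_iff_of_pos_left
            (show 0 < 2 * w * mlR p X * eps p by positivity)).1 ?_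
          field_simp
          linear_combination k2
        linarith

theorem tail_near (h1 : 18 ≤ p) (h2 : p ≤ 97) (S : St p L s X v u δ)
    (ht : Switch p true s) (hX : 81 / 20 ≤ X) (hd : 0 < δ) (hu : 0 ≤ u) (hu1 : u ≤ 1 / 4)
    {ds : Option Expr} (hB : Bnd ds p s v δ) (hN : Holds (listNear ds) p s 0 0)
    (hE : formLow (keptW p s) (slopeD p s) (kapS p s) (kapD p s) (cA p X) (shadR p s)
      (cB p X) (cC p X) (scale p s * remR p s) X (hiQuot p s) L v u δ ≤ E) : 0 ≤ E := by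
  have hs := S.s_mem
  have hXe := S.X_eq
  have he := eps_pos p
  have hX0 := S.X_pos
  obtain ⟨hk, hkd, -⟩ := last_piece (hXe ▸ hX)
  rw [hk, hkd] at hE
  obtain ⟨-, -, -, -, hV0, hD0⟩ := keptW_data h1 hs ht
  obtain ⟨hh0, hh1, -, -⟩ := hcR_bounds h1 h2
  have hL : L ≤ hcR p := S.L_mem.2.trans hh1
  have hXp : 0 < slopeX p X := by rw [slopeX]; positivity
  have hC : 0 ≤ cC p X := by rw [cC]; have := Ident.b0_pos p; positivity
  have hF : 0 < expFac p := by rw [expFac]; positivity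
  have ho := eval_oo' p (oVar p s) 0 0
  obtain ⟨eV, -, -, el, -⟩ := eval_tail (τ := 0) (σ := 0) hs ht
  obtain ⟨ea, eb, ec, -⟩ := eval_coefs hs ho
  obtain ⟨-, -, -, eXp, eF⟩ := eval_box hs ho
  rw [hXe] at el eXp ea eb ec
  obtain ⟨hdd, hdn⟩ := hB 0 0 (by linarith [S.v_eq])
  have hch : v * (Real.log v - L) ≤ δ * slopeX p X := by
    simpa using S.chord hd 1 ⟨zero_le_one, le_rfl⟩
  obtain ⟨c, hc, hc'⟩ := hN
  obtain ⟨qm, a, b, hce, hq, hab⟩ : ∃ qm a b, c = nearOne ds qm a b ∧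
      qm.eval (pt p (oVar p s) 0 0) ≤ 0 ∧
      u ≤ a.eval (pt p (oVar p s) 0 0) + b.eval (pt p (oVar p s) 0 0) * δ := by
    have h2' : u ≤ expFac p * hcR p + expFac p * slopeX p X * δ := by
      have := mul_le_mul_of_nonneg_left hL hF.le
      linarith [S.value hd]
    simp only [listNear, List.mem_cons, List.not_mem_nil, or_false] at hc
    rcases hc with h | h | h | h | h | h <;>
      exact ⟨_, _, _, h, by norm_num, by simp [eF, eval_hcap, eXp]; linarith⟩
  subst hce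
  simp only [nearOne, qPoly, List.forall_mem_cons, List.forall_mem_nil, Expr.eval_add,
    Expr.eval_sub, Expr.eval_mul, Expr.eval_neg, Expr.eval_frac, Expr.eval_ofNat, ea, eb, ec, eF,
    eXp, eV, el, eval_hcap, eval_rem hs (hXe ▸ hX), eval_xR hs ho] at hc'
  push_cast at hc'
  obtain ⟨k1, k2, k3, k4, k5, -⟩ := hc'
  refine case_tail_near hE S.L_mem.1 hL hV0 hD0 hC
    (le_trans (one_div_pos.2 hXp).le S.hi_ge) S.v_eq hu hu1 hd hF.le hXp.le (S.value hd) hch hq
    (by linear_combination k1) (by linear_combination k2) k3 hab hdd hdn k4 k5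

theorem near_rem_nonneg (hs : s ∈ Ioo (0 : ℝ) 1) (ht : Switch p true s)
    (hV0 : 0 ≤ keptW p s) (hX : 81 / 20 ≤ sqTan p s) {ds : Option Expr}
    (hN : Holds (listNear ds) p s 0 0) : 0 ≤ scale p s * remR p s := by
  obtain ⟨c, hc, hc'⟩ := hN
  obtain ⟨eV, -, -, -, -⟩ := eval_tail (τ := 0) (σ := 0) hs ht
  obtain ⟨-, -, -, -, eF⟩ := eval_box hs (eval_oo' p (oVar p s) 0 0)
  have hF : 0 < expFac p := by rw [expFac]; have := eps_pos p; positivity
  obtain ⟨qm, a, b, hce, hq⟩ : ∃ qm a b, c = nearOne ds qm a b ∧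
      qm.eval (pt p (oVar p s) 0 0) ≤ 0 := by
    simp only [listNear, List.mem_cons, List.not_mem_nil, or_false] at hc
    rcases hc with h | h | h | h | h | h <;> exact ⟨_, _, _, h, by norm_num⟩
  subst hce
  have k := hc' (xP 6 oo - (tV * xE1 - qm * (xE1 * xE1))) (by simp [nearOne])
  simp [eV, eF, eval_rem hs hX] at k
  have := mul_nonneg hV0 hF.le
  have := mul_nonpos_of_nonpos_of_nonneg hq (mul_nonneg hF.le hF.le)
  linarith

/-- The bound of the displacement by the mass below, where it is used. -/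
def LowBound (ds : Option Expr) (p : ℕ) (s v δ : ℝ) : Prop :=
  ∀ H ∈ ds, ∀ τ σ, 0 ≤ H.eval (pt p (oVar p s) τ σ) ∧
    δ ≤ hcR p * H.eval (pt p (oVar p s) τ σ) * √v

theorem St.d_end (S : St p L s X v u δ) (τ σ : ℝ) :
    0 < dDen.eval (pt p (oVar p s) τ σ) ∧
      δ * dDen.eval (pt p (oVar p s) τ σ) < dNum.eval (pt p (oVar p s) τ σ) := by
  have ho := eval_oo' p (oVar p s) τ σ
  have := eps_pos p
  have := S.X_pos
  have e1 : dDen.eval (pt p (oVar p s) τ σ) =
      eps p * X * (689 / 400 * (1 + eps p * X) + eps p * X) := by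
    simp [dDen, xQ, eval_xX S.s_mem ho, eval_ee, S.X_eq]
  have e2 : dNum.eval (pt p (oVar p s) τ σ) = 169 / 400 * (1 + eps p * X) + eps p * X := by
    simp [dNum, xQ, eval_xX S.s_mem ho, eval_ee, S.X_eq]
  rw [e1, e2]
  exact ⟨by positivity, S.d_lt⟩

theorem bnd_of_low (S : St p L s X v u δ) (hh : 0 ≤ hcR p) {ds : Option Expr}
    (hB : LowBound ds p s v δ) : Bnd ds p s v δ := by
  intro τ σ hv
  cases ds with
  | none => exact ⟨(S.d_end τ σ).1, (S.d_end τ σ).2.le⟩
  | some H =>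
    obtain ⟨h0, h1⟩ := hB H rfl τ σ
    have h2 : √v ≤ 9 / 8 := by
      rw [Real.sqrt_le_iff]; exact ⟨by norm_num, by linarith⟩
    simp [dsPair, eval_hcap]
    exact h1.trans (mul_le_mul_of_nonneg_left h2 (mul_nonneg hh h0))

/-- The chord at a share of the abscissa, with the tail chord's data. -/
theorem eval_chord (hs : s ∈ Ioo (0 : ℝ) 1) {cn cd : ℕ} (hcd : 0 < cd) :
    (chLn cn cd).eval (pt p (oVar p s) τ σ) =
        (1 - ((cn : ℝ) / cd) ^ 2) * sqTan p s ∧
      (chLd cn cd).eval (pt p (oVar p s) τ σ) =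
        2 * (1 + eps p * sqTan p s) - (1 + ((cn : ℝ) / cd) ^ 2) * (eps p * sqTan p s) := by
  have : (cd : ℝ) ≠ 0 := by positivity
  have ho := eval_oo' p (oVar p s) τ σ
  constructor
  · simp [chLn, eval_xX hs ho]
    left
    field_simp
  · simp [chLd, xQ, eval_xX hs ho, eval_ee]
    field_simp

theorem chord_lin (S : St p L s X v u δ) (hd : 0 < δ) {cn cd : ℕ} (hcd : 0 < cd) (hc : cn ≤ cd) :
    0 < (chLd cn cd).eval (pt p (oVar p s) τ σ) ∧
      v * ((chLn cn cd).eval (pt p (oVar p s) τ σ) +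
          (chLd cn cd).eval (pt p (oVar p s) τ σ) * (Real.log v - L)) ≤
        (δ + (1 - (cn : ℝ) / cd)) * slopeX p X * (chLd cn cd).eval (pt p (oVar p s) τ σ) := by
  have hc0 : (0 : ℝ) ≤ (cn : ℝ) / cd := by positivity
  have hc1 : (cn : ℝ) / cd ≤ 1 := by
    rw [div_le_one (by exact_mod_cast hcd)]; exact_mod_cast hc
  obtain ⟨e1, e2⟩ := eval_chord (p := p) (τ := τ) (σ := σ) S.s_mem (cn := cn) hcd
  rw [S.X_eq] at e1 e2
  have he := eps_pos p
  have hX := S.X_pos
  have hLd : 0 < 2 * (1 + eps p * X) - (1 + ((cn : ℝ) / cd) ^ 2) * (eps p * X) := by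
    have : ((cn : ℝ) / cd) ^ 2 ≤ 1 := pow_le_one₀ hc0 hc1
    nlinarith [mul_pos he hX]
  rw [e1, e2]
  have h := mul_le_mul_of_nonneg_right (S.chord hd _ ⟨hc0, hc1⟩) hLd.le
  obtain ⟨W, hW⟩ : ∃ W, 2 * (1 + eps p * X) - (1 + ((cn : ℝ) / cd) ^ 2) * (eps p * X) = W :=
    ⟨_, rfl⟩
  rw [hW] at hLd h ⊢
  refine ⟨hLd, le_trans (le_of_eq ?_) h⟩
  field_simp
  ring

theorem chordN_le (S : St p L s X v u δ) (hd : 0 < δ) (hL : L ≤ hcR p) {cn cd : ℕ} (hcd : 0 < cd)
    (hc : cn ≤ cd) :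
    0 < (chordD cn cd).eval (pt p (oVar p s) v σ) ∧
      (chordN cn cd).eval (pt p (oVar p s) v σ) ≤
        δ * (chordD cn cd).eval (pt p (oVar p s) v σ) := by
  have hs := S.s_mem
  have hv := S.v_pos
  have hXp : 0 < slopeX p X := by
    rw [slopeX]; have := eps_pos p; have := S.X_pos; positivity
  obtain ⟨hLd, h⟩ := chord_lin (τ := v) (σ := σ) S hd hcd hc
  obtain ⟨-, -, -, eXp, -⟩ := eval_box hs (eval_oo' p (oVar p s) v σ)
  rw [S.X_eq] at eXp
  have hp := mul_le_mul_of_nonneg_left (mul_log_ge_pade hv) hLd.le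
  have hh := mul_le_mul_of_nonneg_left hL (mul_nonneg hv.le hLd.le)
  obtain ⟨Ld, hLde⟩ : ∃ Ld, (chLd cn cd).eval (pt p (oVar p s) v σ) = Ld := ⟨_, rfl⟩
  obtain ⟨Ln, hLne⟩ : ∃ Ln, (chLn cn cd).eval (pt p (oVar p s) v σ) = Ln := ⟨_, rfl⟩
  rw [hLde] at h hLd hp hh
  rw [hLne] at h
  have hcc : ((cd : ℝ) - cn) / cd = 1 - (cn : ℝ) / cd := by field_simp
  have h' := mul_le_mul_of_nonneg_right h (show 0 ≤ 4 + 2 * v by linarith)
  have hp' : Ld * ((v - 1) * (1 + 5 * v)) ≤ Ld * (v * Real.log v) * (4 + 2 * v) := by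
    rw [← mul_div_assoc, div_le_iff₀ (by linarith)] at hp
    exact hp
  by_cases h1 : cn = 1 ∧ cd = 1
  · obtain ⟨rfl, rfl⟩ := h1
    simp [chordN, chordD, eXp, eval_tt, eval_hcap]
    refine ⟨by positivity, ?_⟩
    have e : Ln = 0 := by
      rw [← hLne]; simp [chLn]
    subst e
    refine le_of_mul_le_mul_left ?_ hLd
    simp at h'
    nlinarith
  · have eN : (chordN cn cd).eval (pt p (oVar p s) v σ) = (v - 1) * (1 + 5 * v) * Ld +
        (v * (Ln - hcR p * Ld) - (1 - (cn : ℝ) / cd) * slopeX p X * Ld) * (2 * (v + 2)) := by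
      rw [chordN.eq_2 _ _ (by intro a b; exact h1 ⟨a, b⟩)]
      simp [hLde, hLne, eXp, eval_tt, eval_hcap, ← hcc]
    have eD : (chordD cn cd).eval (pt p (oVar p s) v σ) = slopeX p X * (2 * (v + 2)) * Ld := by
      rw [chordD.eq_2 _ _ (by intro a b; exact h1 ⟨a, b⟩)]
      simp [hLde, eXp, eval_tt]
    rw [eN, eD]
    refine ⟨by positivity, ?_⟩
    nlinarith

theorem eval_midForm (hs : s ∈ Ioo (0 : ℝ) 1) (ht : Switch p true s) (q : Bool) (hv : 0 < v)
    {a b : Expr} {x w : ℝ} (ha : a.eval (pt p (oVar p s) v 0) = x * w)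
    (hb : b.eval (pt p (oVar p s) v 0) = w) :
    (midForm q a b).eval (pt p (oVar p s) v 0) =
        v * (2 * (v + 2)) * w ^ 2 *
          (cB p (sqTan p s) * x ^ 2 + (slopeD p s +
              (if q then -(keptW p s * (slopeX p (sqTan p s) - sqTan p s))
                else keptW p s * sqTan p s) - 2 * cC p (sqTan p s) * (v - 1)) * x +
            ((if q then -(hcR p * keptW p s * (v - 1)) else -(keptW p s * (v - 1))) +
              (cA p (sqTan p s) - shadR p s * ((2 * v + 1) / (2 * (v + 2))) +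
                (if q then 3 * v * keptW p s / (2 * (v + 2)) else 0)) * ((v - 1) ^ 2 / v))) ∧
      (midSlope q a b).eval (pt p (oVar p s) v 0) = w * (2 * cB p (sqTan p s) * x +
        (slopeD p s + (if q then -(keptW p s * (slopeX p (sqTan p s) - sqTan p s))
          else keptW p s * sqTan p s) - 2 * cC p (sqTan p s) * (v - 1))) := by
  have ho := eval_oo' p (oVar p s) v 0
  obtain ⟨eV, -, eL, el, -⟩ := eval_tail (τ := v) (σ := 0) hs ht
  obtain ⟨ea, eb, ec, -⟩ := eval_coefs hs ho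
  have : v + 2 ≠ 0 := by linarith
  cases q <;> simp only [midForm, midSlope, Expr.eval_add, Expr.eval_sub, Expr.eval_mul,
    Expr.eval_ofNat, ha, hb, eV, eL, el, ea, eb, ec, eval_tt, eval_hcap, eval_xR hs ho,
    Bool.false_eq_true, if_false, if_true] <;> push_cast <;> refine ⟨?_, ?_⟩ <;>
    field_simp <;> ring

/-- The square root is below its tangents. -/
theorem sqrt_le_tangent {r : ℝ} (hv : 0 ≤ v) (hr : 0 < r) : √v ≤ (v + r ^ 2) / (2 * r) := by
  rw [le_div_iff₀ (by positivity)]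
  nlinarith [sq_nonneg (√v - r), Real.mul_self_sqrt hv]

/-- A value in a segment. -/
theorem tail_segment (h1 : 18 ≤ p) (h2 : p ≤ 97) (D : TailData p s) (S : St p L s X v u δ)
    (ht : Switch p true s) (hX : 81 / 20 ≤ X) (hd : 0 < δ) (hu : 0 ≤ u)
    (hR6 : 0 ≤ scale p s * remR p s) {G : Seg} (hcd : 0 < G.cd) (hc : G.cn ≤ G.cd) (hrn : 0 < G.rn)
    (hrd : 0 < G.rd) {ds : Option Expr} {sgn : ℕ} (hB : LowBound ds p s v δ)
    (hM : Holds (listMid G ds sgn) p s v 0)
    (hE : formLow (keptW p s) (slopeD p s) (kapS p s) (kapD p s) (cA p X) (shadR p s)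
      (cB p X) (cC p X) (scale p s * remR p s) X (hiQuot p s) L v u δ ≤ E) : 0 ≤ E := by
  have hs := S.s_mem
  have hXe := S.X_eq
  obtain ⟨hk, hkd, -⟩ := last_piece (hXe ▸ hX)
  rw [hk, hkd] at hE
  obtain ⟨hvh, hV, -, -, hV0, hD0⟩ := keptW_data h1 hs ht
  obtain ⟨-, -, hP⟩ := D.basic hs ht (hXe ▸ hX) hvh hD0
  obtain ⟨hh0, hh1, -, -⟩ := hcR_bounds h1 h2
  have hL := S.L_mem.2.trans hh1
  have hXp : 0 < slopeX p X := by
    rw [slopeX]; have := eps_pos p; have := S.X_pos; positivity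
  have hq0 : 0 ≤ hiQuot p s := le_trans (one_div_pos.2 hXp).le S.hi_ge
  obtain ⟨hcD, hcN⟩ := chordN_le (σ := 0) S hd hL hcd hc
  obtain ⟨w, hwe⟩ : ∃ w, (chordD G.cn G.cd).eval (pt p (oVar p s) v 0) = w := ⟨_, rfl⟩
  rw [hwe] at hcD hcN
  obtain ⟨x0, hx0⟩ : ∃ x0, (chordN G.cn G.cd).eval (pt p (oVar p s) v 0) = x0 * w :=
    ⟨_ / w, (div_mul_cancel₀ _ hcD.ne').symm⟩
  have hle0 : x0 ≤ δ := by
    rw [hx0] at hcN
    exact le_of_mul_le_mul_right hcN hcD
  obtain ⟨f0, g0⟩ := eval_midForm hs ht G.q S.v_pos hx0 hwe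
  have hpos : 0 < v * (2 * (v + 2)) := by have := S.v_pos; positivity
  have concl : ∀ x1, δ ≤ x1 →
      0 ≤ (midForm G.q (chordN G.cn G.cd) (chordD G.cn G.cd)).eval (pt p (oVar p s) v 0) →
      ((0 ≤ (midSlope G.q (chordN G.cn G.cd) (chordD G.cn G.cd)).eval (pt p (oVar p s) v 0) ∧
          0 ≤ cB p X) ∨
        (0 ≤ cB p X * x1 ^ 2 + (slopeD p s +
              (if G.q then -(keptW p s * (slopeX p X - X)) else keptW p s * X) -
              2 * cC p X * (v - 1)) * x1 +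
            ((if G.q then -(hcR p * keptW p s * (v - 1)) else -(keptW p s * (v - 1))) +
              (cA p X - shadR p s * ((2 * v + 1) / (2 * (v + 2))) +
                (if G.q then 3 * v * keptW p s / (2 * (v + 2)) else 0)) * ((v - 1) ^ 2 / v)) ∧
          (cB p X ≤ 0 ∨
            0 ≤ (midSlope G.q (chordN G.cn G.cd) (chordD G.cn G.cd)).eval
              (pt p (oVar p s) v 0)))) → 0 ≤ E := by
    intro x1 hx1 hf hg
    rw [f0, hXe] at hf
    rw [g0, hXe, mul_nonneg_iff_of_pos_left hcD] at hg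
    have hf' := (mul_nonneg_iff_of_pos_left (mul_pos hpos (pow_pos hcD 2))).1 hf
    have hF := quad_seg hle0 hx1 hf' hg
    rw [show v - 1 = u by linarith [S.v_eq]] at hF
    cases hq : G.q <;> simp only [hq, Bool.false_eq_true, if_false, if_true] at hF
    · exact case_tail_cut hE hV hvh S.L_mem.1 S.L_mem.2 hD0 hq0 hP (by linear_combination hF)
    · refine case_tail_chord hE S.L_mem.1 hL hV0 hD0 hq0 hR6 S.v_eq hu (Xp := slopeX p X) ?_
        (by linear_combination hF)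
      simpa using S.chord hd 1 ⟨zero_le_one, le_rfl⟩
  obtain ⟨c, hc, hc'⟩ := hM
  obtain ⟨eB, -⟩ : (xB oo).eval (pt p (oVar p s) v 0) = cB p X ∧ True :=
    ⟨by rw [← hXe]; exact (eval_coefs hs (eval_oo' p _ _ _)).2.1, trivial⟩
  have vio : ∀ H, H ∈ ds → c = [chordN G.cn G.cd - midDb G H * chordD G.cn G.cd - tiny] →
      ∀ x1, (midDb G H).eval (pt p (oVar p s) v 0) = x1 → δ ≤ x1 → False := by
    intro H _ hce x1 hx1 hle
    subst hce
    have := hc' _ (List.mem_cons_self ..)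
    simp [tiny, hx0, hwe, hx1] at this
    nlinarith [mul_le_mul_of_nonneg_right (hle0.trans hle) hcD.le]
  have hdb : ∀ H, H ∈ ds → δ ≤ (midDb G H).eval (pt p (oVar p s) v 0) := by
    intro H hH
    obtain ⟨h0, h1'⟩ := hB H hH v 0
    refine h1'.trans ?_
    obtain ⟨r, hr, hre⟩ : ∃ r : ℝ, 0 < r ∧ (G.rn : ℝ) / G.rd = r :=
      ⟨_, div_pos (by exact_mod_cast hrn) (by exact_mod_cast hrd), rfl⟩
    have e : (midDb G H).eval (pt p (oVar p s) v 0) =
        hcR p * H.eval (pt p (oVar p s) v 0) * ((v + r ^ 2) / (2 * r)) := by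
      rw [← hre]
      simp [midDb, eval_hcap, eval_tt]
      field_simp
    rw [e]
    refine mul_le_mul_of_nonneg_left ?_ (mul_nonneg hh0 h0)
    exact sqrt_le_tangent S.v_pos.le hr
  have key : (∃ x1, δ ≤ x1 ∧ c = [midForm G.q (chordN G.cn G.cd) (chordD G.cn G.cd),
      midSlope G.q (chordN G.cn G.cd) (chordD G.cn G.cd), xB oo]) ∨
      (∃ H ∈ ds, c = [midForm G.q (chordN G.cn G.cd) (chordD G.cn G.cd),
        midForm G.q (midDb G H) 1, -(xB oo)]) ∨
      (∃ H ∈ ds, c = [midForm G.q (chordN G.cn G.cd) (chordD G.cn G.cd),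
        midForm G.q (midDb G H) 1, midSlope G.q (chordN G.cn G.cd) (chordD G.cn G.cd)]) ∨
      (∃ H ∈ ds, c = [chordN G.cn G.cd - midDb G H * chordD G.cn G.cd - tiny]) ∨
      c = [chordN G.cn G.cd * dDen - dNum * chordD G.cn G.cd - tiny] := by
    simp only [listMid, List.mem_append] at hc
    rcases hc with (h | h) | h
    · split at h <;> simp at h
      exact Or.inl ⟨δ, le_rfl, h⟩
    · cases ds with
      | none => simp at h
      | some H =>
        simp only [List.mem_append] at h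
        rcases h with (h | h) | h
        · split at h <;> simp at h
          exact Or.inr (Or.inl ⟨H, rfl, h⟩)
        · split at h <;> simp at h
          exact Or.inr (Or.inr (Or.inl ⟨H, rfl, h⟩))
        · simp at h
          exact Or.inr (Or.inr (Or.inr (Or.inl ⟨H, rfl, h⟩)))
    · simp at h
      exact Or.inr (Or.inr (Or.inr (Or.inr h)))
  rcases key with ⟨x1, hx1, rfl⟩ | ⟨H, hH, rfl⟩ | ⟨H, hH, rfl⟩ | ⟨H, hH, hce⟩ | rfl
  · simp only [List.forall_mem_cons, List.forall_mem_nil, eB] at hc'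
    exact concl x1 hx1 hc'.1 (Or.inl ⟨hc'.2.1, hc'.2.2.1⟩)
  · simp only [List.forall_mem_cons, List.forall_mem_nil, Expr.eval_neg, eB] at hc'
    obtain ⟨f1, -⟩ := eval_midForm hs ht G.q S.v_pos (a := midDb G H) (b := 1)
      (x := (midDb G H).eval (pt p (oVar p s) v 0)) (w := 1) (by simp) (by simp)
    rw [f1, one_pow, mul_one, hXe, mul_nonneg_iff_of_pos_left hpos] at hc'
    exact concl _ (hdb H hH) hc'.1 (Or.inr ⟨hc'.2.1, Or.inl (by linarith [hc'.2.2.1])⟩)
  · simp only [List.forall_mem_cons, List.forall_mem_nil] at hc'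
    obtain ⟨f1, -⟩ := eval_midForm hs ht G.q S.v_pos (a := midDb G H) (b := 1)
      (x := (midDb G H).eval (pt p (oVar p s) v 0)) (w := 1) (by simp) (by simp)
    rw [f1, one_pow, mul_one, hXe, mul_nonneg_iff_of_pos_left hpos] at hc'
    exact concl _ (hdb H hH) hc'.1 (Or.inr ⟨hc'.2.1, Or.inr hc'.2.2.1⟩)
  · exact (vio H hH hce _ rfl (hdb H hH)).elim
  · have := hc' _ (List.mem_cons_self ..)
    simp [tiny, hwe] at this
    obtain ⟨hp0, hlt⟩ := S.d_end v 0
    have a1 := mul_le_mul_of_nonneg_right hcN hp0.le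
    have a2 := mul_le_mul_of_nonneg_right hlt.le hcD.le
    linarith

/-- The values above `5 / 4` at large abscissae. -/
theorem tail_big (h1 : 18 ≤ p) (h2 : p ≤ 97) (S : St p L s X v u δ)
    (ht : Switch p true s) (hX : 81 / 20 ≤ X) (hd : 0 < δ) (hu : 1 / 4 ≤ u)
    (hR6 : 0 ≤ scale p s * remR p s) (hG : Holds listBig p s 0 0)
    (hE : formLow (keptW p s) (slopeD p s) (kapS p s) (kapD p s) (cA p X) (shadR p s)
      (cB p X) (cC p X) (scale p s * remR p s) X (hiQuot p s) L v u δ ≤ E) : 0 ≤ E := by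
  have hs := S.s_mem
  have hXe := S.X_eq
  have hX0 := S.X_pos
  have hv := S.v_pos
  obtain ⟨hk, hkd, -⟩ := last_piece (hXe ▸ hX)
  rw [hk, hkd] at hE
  obtain ⟨-, -, -, -, hV0, hD0⟩ := keptW_data h1 hs ht
  obtain ⟨hh0, hh1, hh2, -⟩ := hcR_bounds h1 h2
  have hL := S.L_mem.2.trans hh1
  have hXp : 0 < slopeX p X := by rw [slopeX]; have := eps_pos p; positivity
  have hC : 0 ≤ cC p X := by rw [cC]; have := Ident.b0_pos p; positivity
  have ho := eval_oo' p (oVar p s) 0 0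
  obtain ⟨eV, -, -, el, -⟩ := eval_tail (τ := 0) (σ := 0) hs ht
  obtain ⟨ea, eb, ec, -⟩ := eval_coefs hs ho
  obtain ⟨-, -, -, eXp, -⟩ := eval_box hs ho
  rw [hXe] at el eXp ea eb ec
  obtain ⟨hLd, hc2⟩ := chord_lin (τ := 0) (σ := 0) S hd (cn := 1) (cd := 2) two_pos (by norm_num)
  obtain ⟨e1, -⟩ := eval_chord (p := p) (τ := 0) (σ := 0) hs (cn := 1) two_pos
  obtain ⟨Ld, hLde⟩ : ∃ Ld, (chLd 1 2).eval (pt p (oVar p s) 0 0) = Ld := ⟨_, rfl⟩
  rw [e1, hLde, hXe] at hc2
  rw [hLde] at hLd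
  norm_num at hc2
  obtain ⟨hdd, hdn⟩ := S.d_end 0 0
  obtain ⟨c, hc, hc'⟩ := hG
  rw [listBig, List.mem_singleton] at hc
  subst hc
  simp only [bigA, bigB, bigDen, bigR0, bigBase, qPoly, List.forall_mem_cons, List.forall_mem_nil,
    Expr.eval_add, Expr.eval_sub, Expr.eval_mul, Expr.eval_frac, Expr.eval_ofNat, ea, eb, ec, eXp,
    eV, el, eval_hcap, eval_xR hs ho, e1, hXe, hLde] at hc'
  norm_num at hc'
  obtain ⟨den, hden⟩ : ∃ den, 3 / 4 * X + (1 - hcR p + 549 / 500) * Ld = den := ⟨_, rfl⟩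
  rw [hden] at hc'
  obtain ⟨k1, k2, k3, k4, k5, k6⟩ := hc'
  have hden0 : 0 < den := by
    rw [← hden]
    have := mul_pos (show 0 < 1 - hcR p + 549 / 500 by linarith) hLd
    linarith
  have hlog := mul_le_mul_of_nonneg_left (mul_log_ge_three hv) hLd.le
  have hh := mul_le_mul_of_nonneg_left hL (mul_nonneg hv.le hLd.le)
  have hvd : v * den ≤ δ * slopeX p X * Ld + (slopeX p X * (1 / 2) + 3) * Ld := by
    rw [← hden]
    linarith
  refine case_tail_big hE S.L_mem.1 hL hV0 hD0 hC (le_trans (one_div_pos.2 hXp).le S.hi_ge) hR6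
    S.v_eq hu hd hXp hh2 ?_ (an := (slopeX p X * (1 / 2) + 3) * Ld - den)
    (bn := slopeX p X * Ld) (den := den) ?_ hdd hdn.le hden0.le hden0.ne' ?_ ?_ ?_ ?_ ?_
  · simpa using S.chord hd 1 ⟨zero_le_one, le_rfl⟩
  · rw [S.v_eq] at hvd
    linarith
  · linear_combination k1
  · linear_combination k2
  · linear_combination k3
  · linear_combination k4
  · linear_combination k5

/-- The largest value in a band. -/
theorem tail_cap (h1 : 18 ≤ p) (h2 : p ≤ 97) (S : St p L s X v u δ) (hd : 0 < δ)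
    {ds : Option Expr} {cap : ℤ} (hB : LowBound ds p s v δ)
    (hC : Holds (listCap ds cap) p s 0 0) : v ≤ cap := by
  have hs := S.s_mem
  have hXe := S.X_eq
  have hX0 := S.X_pos
  have hv := S.v_pos
  obtain ⟨hh0, hh1, hh2, -⟩ := hcR_bounds h1 h2
  have hL := S.L_mem.2.trans hh1
  have hXp : 0 < slopeX p X := by rw [slopeX]; have := eps_pos p; positivity
  have ho := eval_oo' p (oVar p s) 0 0
  obtain ⟨-, -, -, eXp, -⟩ := eval_box hs ho
  rw [hXe] at eXp
  obtain ⟨hLd, hc2⟩ := chord_lin (τ := 0) (σ := 0) S hd (cn := 1) (cd := 2) two_pos (by norm_num)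
  obtain ⟨e1, -⟩ := eval_chord (p := p) (τ := 0) (σ := 0) hs (cn := 1) two_pos
  obtain ⟨Ld, hLde⟩ : ∃ Ld, (chLd 1 2).eval (pt p (oVar p s) 0 0) = Ld := ⟨_, rfl⟩
  rw [e1, hLde, hXe] at hc2
  rw [hLde] at hLd
  norm_num at hc2
  obtain ⟨den, hden⟩ : ∃ den, 3 / 4 * X + (1 - hcR p + 549 / 500) * Ld = den := ⟨_, rfl⟩
  have eden : bigDen.eval (pt p (oVar p s) 0 0) = den := by
    rw [← hden]
    simp [bigDen, e1, hLde, hXe, eval_hcap]
    norm_num
  have hlog := mul_le_mul_of_nonneg_left (mul_log_ge_three hv) hLd.le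
  have hh := mul_le_mul_of_nonneg_left hL (mul_nonneg hv.le hLd.le)
  have hvd : v * den ≤ δ * slopeX p X * Ld + (slopeX p X * (1 / 2) + 3) * Ld := by
    rw [← hden]
    linarith
  obtain ⟨hdd, hdn⟩ := S.d_end 0 0
  obtain ⟨c, hc, hc'⟩ := hC
  have hnone : c = [bigDen, (.num cap * bigDen - (3 + xXp oo * .frac 1 2) * chLd 1 2) * dDen -
      xXp oo * chLd 1 2 * dNum] → v ≤ cap := by
    intro hce
    subst hce
    simp [eden, eXp, hLde] at hc'
    obtain ⟨k1, k2⟩ := hc'
    have a1 := mul_le_mul_of_nonneg_right hvd hdd.le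
    have a2 := mul_lt_mul_of_pos_left hdn (mul_pos hXp hLd)
    by_contra hcon
    rw [not_le] at hcon
    have a3 := mul_le_mul_of_nonneg_right hcon.le (mul_nonneg k1 hdd.le)
    linarith
  cases ds with
  | none => exact hnone (by simpa [listCap] using hc)
  | some H =>
    simp only [listCap, List.mem_append, List.mem_cons, List.not_mem_nil, or_false] at hc
    rcases hc with hce | hce
    · subst hce
      obtain ⟨h0, h1'⟩ := hB H rfl 0 0
      obtain ⟨Hv, hHv⟩ : ∃ Hv, H.eval (pt p (oVar p s) 0 0) = Hv := ⟨_, rfl⟩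
      rw [hHv] at h0 h1'
      simp [eden, eXp, hLde, hHv, eval_hcap] at hc'
      obtain ⟨k1, k2⟩ := hc'
      have a0 : δ ≤ hcR p * Hv * ((v + 4) / 4) := h1'.trans (mul_le_mul_of_nonneg_left
        (by nlinarith [sq_nonneg (√v - 2), Real.mul_self_sqrt hv.le]) (mul_nonneg hh0 h0))
      have a1 := mul_le_mul_of_nonneg_left a0 (mul_nonneg hXp.le hLd.le)
      by_contra hcon
      rw [not_le] at hcon
      have a2 := mul_le_mul_of_nonneg_right hcon.le (show 0 ≤ den -
        slopeX p X * hcR p * Hv * (1 / 4) * Ld by linarith)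
      have a3 : 0 < (3 + slopeX p X * (1 / 2)) * Ld := by positivity
      rcases (show 0 ≤ den - slopeX p X * hcR p * Hv * (1 / 4) * Ld by linarith).eq_or_lt with h | h
      · have a4 : 0 ≤ slopeX p X * hcR p * Hv * (1 / 4) * Ld * 4 := by positivity
        have a5 : (cap : ℝ) * (den - slopeX p X * hcR p * Hv * 4⁻¹ * Ld) = 0 := by
          rw [show den - slopeX p X * hcR p * Hv * 4⁻¹ * Ld = 0 by linarith, mul_zero]
        linarith
      · have a4 := mul_lt_mul_of_pos_right hcon h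
        linarith
    · exact hnone hce

end Vale.Agent.P237.Petty.Cor.TinyMid
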